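import Vale.Agent.P167.H365.NRed

/-!
# P167, block N-RED: conclusion
-/

namespace Vale.Agent.P167.H365

open Finset MeasureTheory ProbabilityTheory Vale.Agent.P167.BR Vale.Agent.P167.H542
open Vale.Agent.P167.H318 (CoConn)
open Vale.Agent.P167.H167 (Fd ind Bg WD)

/-- `N ^ (-α) ≤ η` for large `N`. -/
theorem exists_N {α : ℝ} (hα : 0 < α) (η : ℝ) (hη : 0 < η) (N0 : ℕ) :
    ∃ N : ℕ, N0 ≤ N ∧ (1 / (N : ℝ)) ^ α ≤ η := by
  have h1 := (tendsto_rpow_neg_atTop hα).comp tendsto_natCast_atTop_atTop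
  have h2 := h1.eventually (gt_mem_nhds hη)
  obtain ⟨N, hN0, hN⟩ := ((Filter.eventually_ge_atTop (max N0 1)).and h2).exists
  refine ⟨N, (le_max_left _ _).trans hN0, ?_⟩
  have h3 : (0 : ℝ) ≤ N := Nat.cast_nonneg N
  rw [one_div, Real.inv_rpow h3, ← Real.rpow_neg h3]
  exact le_of_lt hN

/-- The test function of the cell `j`. -/
noncomputable def pj (φ : ℤ → ℝ) (w j x : ℤ) : ℝ := φ x * tent w (x - j * w) / 2

theorem pj_zero {φ : ℤ → ℝ} {w j x : ℤ} (h : φ x = 0) : pj φ w j x = 0 := by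
  unfold pj
  rw [h, zero_mul, zero_div]

theorem pj_psi {φ : ℤ → ℝ} {w R : ℤ} (hw : 1 ≤ w) (hwR : w ≤ R) (hφ1 : ∀ x, |φ x| ≤ 1)
    (hφl : ∀ x x' : ℤ, |φ x - φ x'| ≤ |(x : ℝ) - x'| / R) (j : ℤ) : Psi (pj φ w j) (j * w) w := by
  have hwr : (1 : ℝ) ≤ w := by exact_mod_cast hw
  refine ⟨fun x => ?_, fun x x' => ?_, fun x hx => ?_⟩
  · unfold pj
    rw [abs_div, abs_mul, abs_of_nonneg (tent_nonneg _ _), abs_two]
    have h1 := hφ1 x
    have h2 := tent_le hw (x - j * w)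
    have h3 := tent_nonneg w (x - j * w)
    have h4 := abs_nonneg (φ x)
    nlinarith
  · unfold pj
    have h1 := hφ1 x'
    have h2 := tent_le hw (x - j * w)
    have h3 := tent_nonneg w (x - j * w)
    have h4 := hφl x x'
    have h5 := tent_lip hw (x - j * w) (x' - j * w)
    have h6 : |((x - j * w : ℤ) : ℝ) - ((x' - j * w : ℤ) : ℝ)| = |(x : ℝ) - x'| := by
      push_cast
      congr 1
      ring
    rw [h6] at h5
    have h7 : |(x : ℝ) - x'| / R ≤ |(x : ℝ) - x'| / w := by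
      have : (w : ℝ) ≤ R := by exact_mod_cast hwR
      exact div_le_div_of_nonneg_left (abs_nonneg _) (by linarith) this
    rw [show φ x * tent w (x - j * w) / 2 - φ x' * tent w (x' - j * w) / 2 =
      ((φ x - φ x') * tent w (x - j * w) +
        φ x' * (tent w (x - j * w) - tent w (x' - j * w))) / 2 by ring, abs_div, abs_two]
    have h8 : |(φ x - φ x') * tent w (x - j * w) +
        φ x' * (tent w (x - j * w) - tent w (x' - j * w))| ≤
        |(x : ℝ) - x'| / w + |(x : ℝ) - x'| / w := by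
      refine (abs_add_le _ _).trans (add_le_add ?_ ?_)
      · rw [abs_mul, abs_of_nonneg h3]
        have := abs_nonneg (φ x - φ x')
        nlinarith
      · rw [abs_mul]
        have := abs_nonneg (tent w (x - j * w) - tent w (x' - j * w))
        nlinarith
    linarith
  · have h1 : tent w (x - j * w) ≠ 0 := by
      intro h
      apply hx
      unfold pj
      rw [h, mul_zero, zero_div]
    by_contra h2
    apply h1
    apply tent_zero hw
    rw [le_abs]
    rw [not_and_or, not_le, not_le] at h2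
    omega

theorem pj_sum {φ : ℤ → ℝ} {w R a b : ℤ} (hw : 1 ≤ w) (hwR : w ≤ R)
    (hφs : ∀ x, φ x ≠ 0 → a + R ≤ x ∧ x ≤ b - R) (g : ℤ → ℝ) :
    ∑ x ∈ Icc a b, φ x * g x =
      2 * ∑ j ∈ Icc (a / w + 1) (b / w), ∑ x ∈ Icc a b, pj φ w j x * g x := by
  rw [Finset.sum_comm, Finset.mul_sum]
  refine Finset.sum_congr rfl fun x _ => ?_
  by_cases hx : φ x = 0
  · rw [hx, zero_mul]
    symm
    rw [Finset.sum_eq_zero fun j _ => ?_, mul_zero]
    rw [pj_zero hx, zero_mul]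
  · have hs := hφs x hx
    have h1 : ∑ j ∈ Icc (a / w + 1) (b / w), tent w (x - j * w) = 1 := by
      refine tent_sum hw ?_ ?_
      · have e1 : (a / w) * w ≤ a := Int.ediv_mul_le _ (by omega)
        have : a / w < x / w := by
          rw [Int.lt_iff_add_one_le, Int.le_ediv_iff_mul_le (by omega)]
          nlinarith
        omega
      · rw [Int.le_ediv_iff_mul_le (by omega)]
        have e1 : (x / w) * w ≤ x := Int.ediv_mul_le _ (by omega)
        nlinarith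
    rw [← Finset.sum_mul]
    have e3 : ∑ j ∈ Icc (a / w + 1) (b / w), pj φ w j x = φ x / 2 := by
      unfold pj
      rw [← Finset.sum_div, ← Finset.mul_sum, h1, mul_one]
    rw [e3]
    ring

theorem cells_mem {w a b j : ℤ} (hw : 1 ≤ w) (hj : j ∈ Icc (a / w + 1) (b / w)) :
    j * w ∈ Icc a b := by
  rw [mem_Icc] at hj ⊢
  have e1 : a < (a / w + 1) * w := Int.lt_ediv_add_one_mul_self _ (by omega)
  have e2 : (b / w) * w ≤ b := Int.ediv_mul_le _ (by omega)
  constructor <;> nlinarith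

theorem cells_card {w a b : ℤ} (hw : 1 ≤ w) (hab : a ≤ b) :
    ((Icc (a / w + 1) (b / w)).card : ℝ) * w ≤ ((b - a : ℤ) : ℝ) + w := by
  have e1 : a < (a / w + 1) * w := Int.lt_ediv_add_one_mul_self _ (by omega)
  have e2 : (b / w) * w ≤ b := Int.ediv_mul_le _ (by omega)
  have h1 : ((Icc (a / w + 1) (b / w)).card : ℤ) * w ≤ (b - a) + w := by
    rw [Int.card_Icc]
    rcases le_or_gt 0 (b / w + 1 - (a / w + 1)) with h | h
    · rw [Int.toNat_of_nonneg h]
      nlinarith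
    · rw [Int.toNat_of_nonpos h.le]
      push_cast
      omega
  exact_mod_cast h1

/-- The choice of the scales. -/
theorem scales {N1 N2 : ℕ} {K1 R : ℤ} {k : ℕ} (hN1 : 4 ≤ N1) (hN2 : 5 ≤ N2) (hk : 1 ≤ k)
    (hkR : (k : ℝ) ≤ 1 / (2 * (N1 * N2) * (max 32 K1 : ℤ)) * R) :
    ∃ w : ℤ, 1 ≤ w ∧ K1 * k ≤ w ∧ 32 * (k : ℤ) ≤ w ∧ (w : ℝ) * (N1 * N2) ≤ R ∧
      4 * (N2 * w) ≤ R ∧ (R : ℝ) ≤ 2 * (N1 * N2) * w := by
  have hN1r : (4 : ℝ) ≤ N1 := by exact_mod_cast hN1
  have hN2r : (5 : ℝ) ≤ N2 := by exact_mod_cast hN2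
  set Q : ℤ := max 32 K1 with hQ
  have hQ32 : 32 ≤ Q := le_max_left _ _
  have hQK : K1 ≤ Q := le_max_right _ _
  have hQr : (32 : ℝ) ≤ Q := by exact_mod_cast hQ32
  have hkr : (1 : ℝ) ≤ k := by exact_mod_cast hk
  set N : ℤ := (N1 : ℤ) * N2 with hN
  have hNpos : 20 ≤ N := by
    have h4 : (4 : ℤ) ≤ N1 := by exact_mod_cast hN1
    have h5 : (5 : ℤ) ≤ N2 := by exact_mod_cast hN2
    rw [hN]
    nlinarith
  have hNr : (N : ℝ) = N1 * N2 := by rw [hN]; push_cast; ring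
  have hNr0 : (0 : ℝ) < N := by exact_mod_cast (by omega : 0 < N)
  have hw1 : R / N * N ≤ R := Int.ediv_mul_le _ (by omega)
  have hw2 : R < (R / N + 1) * N := Int.lt_ediv_add_one_mul_self _ (by omega)
  generalize hw : R / N = w at hw1 hw2
  rw [← hNr] at hkR
  have hkQ : (Q : ℝ) * k * (2 * N) ≤ R := by
    have h4 : (0 : ℝ) < 2 * N * Q := by positivity
    have h5 : (k : ℝ) * (2 * N * Q) ≤ R := by
      rwa [one_div, inv_mul_eq_div, le_div_iff₀ h4] at hkR
    linarith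
  have hw2r : (R : ℝ) < (w + 1) * N := by exact_mod_cast hw2
  have hw1r : (w : ℝ) * N ≤ R := by exact_mod_cast hw1
  have hQk1 : (1 : ℝ) ≤ Q * k := by nlinarith
  have hRN : 2 * (N : ℝ) ≤ R := by nlinarith
  have hwN : (R : ℝ) ≤ 2 * N * w := by linarith
  have hQw : (Q : ℝ) * k ≤ w := by
    have h4 : (Q : ℝ) * k * (2 * N) ≤ w * (2 * N) := by linarith
    exact le_of_mul_le_mul_right h4 (by positivity)
  have hQw' : Q * k ≤ w := by exact_mod_cast hQw
  have hk' : (1 : ℤ) ≤ k := by exact_mod_cast hk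
  have h32 : 32 * (k : ℤ) ≤ w := le_trans (mul_le_mul_of_nonneg_right hQ32 (by omega)) hQw'
  have hK1w : K1 * (k : ℤ) ≤ w := le_trans (mul_le_mul_of_nonneg_right hQK (by omega)) hQw'
  have hwpos : 1 ≤ w := by omega
  refine ⟨w, hwpos, hK1w, h32, hNr ▸ hw1r, ?_, hNr ▸ hwN⟩
  have h4 : (4 : ℤ) ≤ N1 := by exact_mod_cast hN1
  have h5 : 0 ≤ (N2 : ℤ) * w := by positivity
  calc 4 * ((N2 : ℤ) * w) ≤ N1 * (N2 * w) := mul_le_mul_of_nonneg_right h4 h5
    _ = w * N := by rw [hN]; ring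
    _ ≤ R := hw1

/-- **N-RED.** -/
theorem nred {C2 C3 α : ℝ} (h2 : I2 C2) (h3 : I3 C3 α) (hα : 0 < α) (hS : H318.SYM) (K : ℤ)
    (hK : 1 ≤ K) : NRED K := by
  classical
  intro ε hε
  obtain ⟨C, hC, hcell⟩ := cell_bd h2 h3 hα K hK
  obtain ⟨N1, hN1, hN1'⟩ := exists_N hα (ε / (4 * C + 1)) (by positivity) 4
  obtain ⟨N2, hN2, hN2'⟩ := exists_N hα (ε / (16 * C * N1 + 1)) (by positivity) 5
  set ε1 : ℝ := ε / (16 * C * N1 + 1) with hε1
  have hε1p : 0 < ε1 := by positivity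
  obtain ⟨K1, hS1⟩ := hS ε1 hε1p
  have hN1r : (4 : ℝ) ≤ N1 := by exact_mod_cast hN1
  have hN2r : (5 : ℝ) ≤ N2 := by exact_mod_cast hN2
  have hQr : (32 : ℝ) ≤ (max 32 K1 : ℤ) := by exact_mod_cast le_max_left 32 K1
  refine ⟨1 / (2 * (N1 * N2) * (max 32 K1 : ℤ)), by positivity,
    fun R D p f M hco a b k φ hab hk hkR hE hφ1 hφl hφs => ?_⟩
  have E0 := hE a (mem_Icc.2 ⟨le_rfl, hab⟩)
  have hM := E0.M0
  have hR1 := E0.R1
  have hR0 : (0 : ℝ) < R := by exact_mod_cast (by omega : 0 < R)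
  obtain ⟨w, hwpos, hK1w, h32, hw1r, hmR4, hwN⟩ := scales hN1 hN2 hk hkR
  have hwr : (1 : ℝ) ≤ w := by exact_mod_cast hwpos
  generalize hm : (N2 : ℤ) * w = m at hmR4
  have hmr : (m : ℝ) = N2 * w := by rw [← hm]; push_cast; ring
  have hm5 : 5 * w ≤ m := by
    have h5 : (5 : ℤ) ≤ N2 := by exact_mod_cast hN2
    rw [← hm]
    exact mul_le_mul_of_nonneg_right h5 (by omega)
  have hwR : w ≤ R := by omega
  have hm0 : (0 : ℝ) < m := by exact_mod_cast (by omega : 0 < m)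
  -- the ratios
  have r1 : ((m : ℝ) / R) ^ α ≤ ε / (4 * C + 1) := by
    refine le_trans (Real.rpow_le_rpow (by positivity) ?_ hα.le) hN1'
    rw [div_le_div_iff₀ hR0 (by linarith), hmr, one_mul]
    linarith
  have r3 : ((w : ℝ) / m) ^ (1 + α) + ε1 * ((w : ℝ) / m) ≤ 1 / N2 * (2 * ε1) := by
    have r2 : (w : ℝ) / m = 1 / N2 := by
      rw [hmr]
      field_simp
    rw [r2, Real.rpow_add (by positivity), Real.rpow_one]
    have : (1 / (N2 : ℝ)) * (1 / (N2 : ℝ)) ^ α ≤ 1 / N2 * ε1 :=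
      mul_le_mul_of_nonneg_left hN2' (by positivity)
    linarith
  set g : ℤ → ℝ := fun x => WD D p f (x, k) - WD D p f (x, 0) with hg
  have hcells : ∀ j ∈ Icc (a / w + 1) (b / w), |∑ x ∈ Icc a b, pj φ w j x * g x| ≤
      C * M * k * ((w : ℝ) / R * (ε / (4 * C + 1)) + 1 / N2 * (2 * ε1)) := by
    intro j hj
    refine (hcell ε1 K1 hε1p.le hS1 R D p f M (j * w) k w m (pj φ w j) (Icc a b)
      (hE _ (cells_mem hwpos hj)) hco (pj_psi hwpos hwR hφ1 hφl j) hk hK1w h32 hm5 hmR4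
      fun x hx => ?_).trans ?_
    · have := hφs x fun h => hx (pj_zero h)
      rw [mem_Icc]
      omega
    · refine mul_le_mul_of_nonneg_left (add_le_add ?_ r3) (by positivity)
      exact mul_le_mul_of_nonneg_left r1 (by positivity)
  have hcard := cells_card hwpos hab
  have hdec := pj_sum hwpos hwR hφs g
  generalize hJc : Icc (a / w + 1) (b / w) = Jc at hcells hcard hdec
  set B : ℝ := ((b - a : ℤ) : ℝ) / R + 1 with hB
  have hba : (0 : ℝ) ≤ ((b - a : ℤ) : ℝ) := by exact_mod_cast (by omega : 0 ≤ b - a)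
  have hB0 : 0 ≤ B := by positivity
  have c1 : (Jc.card : ℝ) * (w / R) ≤ B := by
    rw [← mul_div_assoc, div_le_iff₀ hR0]
    have e3 : B * R = ((b - a : ℤ) : ℝ) + R := by
      rw [hB, add_mul, div_mul_cancel₀ _ hR0.ne', one_mul]
    rw [e3]
    have : (w : ℝ) ≤ R := by exact_mod_cast hwR
    linarith
  have c2 : (Jc.card : ℝ) * (1 / N2) ≤ 2 * N1 * B := by
    have e4 : (1 : ℝ) ≤ 2 * (N1 * N2) * (w / R) := by
      rw [← mul_div_assoc, le_div_iff₀ hR0, one_mul]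
      exact hwN
    calc (Jc.card : ℝ) * (1 / N2) = (Jc.card : ℝ) * (1 / N2) * 1 := by ring
      _ ≤ (Jc.card : ℝ) * (1 / N2) * (2 * (N1 * N2) * (w / R)) :=
          mul_le_mul_of_nonneg_left e4 (by positivity)
      _ = 2 * N1 * ((Jc.card : ℝ) * (w / R)) := by
          have : (N2 : ℝ) ≠ 0 := by linarith
          field_simp
      _ ≤ 2 * N1 * B := mul_le_mul_of_nonneg_left c1 (by positivity)
  have q1 : C * (ε / (4 * C + 1)) ≤ ε / 4 := by
    rw [← mul_div_assoc, div_le_div_iff₀ (by positivity) (by norm_num)]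
    linarith
  have q2 : C * N1 * ε1 ≤ ε / 16 := by
    rw [hε1, ← mul_div_assoc, div_le_div_iff₀ (by positivity) (by norm_num)]
    linarith
  calc |∑ x ∈ Icc a b, φ x * (WD D p f (x, k) - WD D p f (x, 0))|
      = 2 * |∑ j ∈ Jc, ∑ x ∈ Icc a b, pj φ w j x * g x| := by
        rw [show (∑ x ∈ Icc a b, φ x * (WD D p f (x, k) - WD D p f (x, 0))) =
          ∑ x ∈ Icc a b, φ x * g x from rfl, hdec, abs_mul, abs_two]
    _ ≤ 2 * ∑ j ∈ Jc, |∑ x ∈ Icc a b, pj φ w j x * g x| :=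
        mul_le_mul_of_nonneg_left (Finset.abs_sum_le_sum_abs _ _) (by norm_num)
    _ ≤ 2 * ∑ _j ∈ Jc, C * M * k * ((w : ℝ) / R * (ε / (4 * C + 1)) + 1 / N2 * (2 * ε1)) :=
        mul_le_mul_of_nonneg_left (Finset.sum_le_sum hcells) (by norm_num)
    _ = 2 * (M * k) * (C * (ε / (4 * C + 1)) * (Jc.card * (w / R)) +
          2 * (C * ε1) * (Jc.card * (1 / N2))) := by
        rw [Finset.sum_const, nsmul_eq_mul]
        ring
    _ ≤ 2 * (M * k) * (ε / 4 * B + 2 * (C * ε1) * (2 * N1 * B)) := by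
        refine mul_le_mul_of_nonneg_left (add_le_add ?_ ?_) (by positivity)
        · exact mul_le_mul q1 c1 (by positivity) (by positivity)
        · exact mul_le_mul_of_nonneg_left c2 (by positivity)
    _ = 2 * (M * k) * (ε / 4 * B + 4 * (C * N1 * ε1) * B) := by ring
    _ ≤ 2 * (M * k) * (ε / 4 * B + 4 * (ε / 16) * B) := by
        refine mul_le_mul_of_nonneg_left (add_le_add le_rfl ?_) (by positivity)
        exact mul_le_mul_of_nonneg_right (by linarith) hB0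
    _ = ε * k * (M * B) := by ring
    _ ≤ ε * k * ((M + 1) * B) := by
        refine mul_le_mul_of_nonneg_left ?_ (by positivity)
        exact mul_le_mul_of_nonneg_right (by linarith) hB0

end Vale.Agent.P167.H365
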