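import Vale.Agent.P167.BR.Basic

/-!
# P167, block N-RED: crossings of half annuli by the interface (definitions)

`hA b r R`: the squares of the closed half annulus `r ≤ nm (v - b) ≤ R`, `b.2 ≤ v.2`.
`CroI`: a strand of this set of squares which comes from inside and leaves to the outside, `CroO`: the
opposite direction. `TwoS`: there is a crossing, `ThrS`: there are two different crossings.
-/

namespace Vale.Agent.P167.H365

open Finset Vale.Agent.P167.BR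

/-- The squares of the half annulus. -/
noncomputable def hA (b : ℤ × ℤ) (r R : ℤ) : Finset (ℤ × ℤ) :=
  (Icc (b.1 - R) (b.1 + R) ×ˢ Icc b.2 (b.2 + R)).filter fun v => r ≤ nm (v - b)

/-- Inside the half annulus. -/
def Inn (b : ℤ × ℤ) (r : ℤ) (v : ℤ × ℤ) : Prop := b.2 ≤ v.2 ∧ nm (v - b) < r

/-- Outside the half annulus. -/
def Out (b : ℤ × ℤ) (R : ℤ) (v : ℤ × ℤ) : Prop := b.2 ≤ v.2 ∧ R < nm (v - b)

/-- `e` is the first edge of a crossing from the inside to the outside. -/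
def CroI (ω : Cfg) (b : ℤ × ℤ) (r R : ℤ) (e : Ed) : Prop :=
  ∃ k, Run ω (hA b r R) e k ((nx ω)^[k] e) ∧ Inn b r (tlv e) ∧ Out b R (hdv ((nx ω)^[k] e))

/-- `e` is the first edge of a crossing from the outside to the inside. -/
def CroO (ω : Cfg) (b : ℤ × ℤ) (r R : ℤ) (e : Ed) : Prop :=
  ∃ k, Run ω (hA b r R) e k ((nx ω)^[k] e) ∧ Out b R (tlv e) ∧ Inn b r (hdv ((nx ω)^[k] e))

/-- `e` is the first edge of a crossing. -/
def Cro (ω : Cfg) (b : ℤ × ℤ) (r R : ℤ) (e : Ed) : Prop := CroI ω b r R e ∨ CroO ω b r R e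

/-- The half annulus is crossed. -/
def TwoS (b : ℤ × ℤ) (r R : ℤ) (ω : Cfg) : Prop := ∃ e, Cro ω b r R e

/-- The half annulus is crossed twice. -/
def ThrS (b : ℤ × ℤ) (r R : ℤ) (ω : Cfg) : Prop := ∃ e e', e ≠ e' ∧ Cro ω b r R e ∧ Cro ω b r R e'

/-- `D` is the half-plane in the box of radius `R` around `b`. -/
def Fl (D : Finset (ℤ × ℤ)) (b : ℤ × ℤ) (R : ℤ) : Prop := ∀ v, nm (v - b) ≤ R → (v ∈ D ↔ b.2 ≤ v.2)

/-- The signed number of crossings of the vertical segment from `(x, y)` to `(x, y + k)` by `A`. -/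
def Jx (A : Finset Ed) (x y : ℤ) (k : ℕ) : ℤ :=
  ∑ j ∈ range k, if Sum.inl (x - 1, y + j) ∈ A then (if Even (x - 1 + (y + j)) then 1 else -1) else 0

/-- The run of length `k` from `e`, as a set of edges. -/
noncomputable def pth (ω : Cfg) (e : Ed) (k : ℕ) : Finset Ed := by
  classical exact (range k).image fun i => (nx ω)^[i] e

open Classical in
/-- The edges of the interface from `e` to its exit from `D`. -/
noncomputable def fw (ω : Cfg) (D : Finset (ℤ × ℤ)) (e : Ed) : Finset Ed :=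
  (eds D).filter fun e' => ∃ k, Run ω D e k e'

/-- The squares of the half box. -/
noncomputable def hB (b : ℤ × ℤ) (r : ℤ) : Finset (ℤ × ℤ) := hA b 0 r

theorem nm_le' {v : ℤ × ℤ} {R : ℤ} : nm v ≤ R ↔ -R ≤ v.1 ∧ v.1 ≤ R ∧ -R ≤ v.2 ∧ v.2 ≤ R := by
  simp only [nm, max_le_iff, abs_le]
  tauto

theorem mem_hA {b v : ℤ × ℤ} {r R : ℤ} :
    v ∈ hA b r R ↔ b.2 ≤ v.2 ∧ r ≤ nm (v - b) ∧ nm (v - b) ≤ R := by
  have h := nm_le' (v := v - b) (R := R)
  simp only [Prod.fst_sub, Prod.snd_sub] at h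
  unfold hA
  rw [mem_filter, mem_product, mem_Icc, mem_Icc, h]
  constructor
  · rintro ⟨⟨h1, h2⟩, h3⟩
    exact ⟨h2.1, h3, by omega⟩
  · rintro ⟨h1, h2, h3⟩
    exact ⟨⟨by omega, by omega⟩, h2⟩

/-- Successive squares. -/
theorem nm_hdv_tlv (b : ℤ × ℤ) (e : Ed) :
    nm (hdv e - b) ≤ nm (tlv e - b) + 1 ∧ nm (tlv e - b) ≤ nm (hdv e - b) + 1 := by
  have key : ∀ v w : ℤ × ℤ, |v.1 - w.1| ≤ 1 → |v.2 - w.2| ≤ 1 → nm (v - b) ≤ nm (w - b) + 1 := by
    intro v w h1 h2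
    rw [nm_le']
    have h3 := nm_le'.1 (le_refl (nm (w - b)))
    simp only [Prod.fst_sub, Prod.snd_sub] at h3 ⊢
    rw [abs_le] at h1 h2
    omega
  rcases e with ⟨x, y⟩ | ⟨x, y⟩ <;> by_cases h : Even (x + y) <;> simp only [hdv, tlv, h, if_true,
    if_false] <;> refine ⟨key _ _ ?_ ?_, key _ _ ?_ ?_⟩ <;> simp

theorem nm_nx (ω : Cfg) (b : ℤ × ℤ) (e : Ed) :
    nm (hdv (nx ω e) - b) ≤ nm (hdv e - b) + 1 ∧ nm (hdv e - b) ≤ nm (hdv (nx ω e) - b) + 1 := by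
  have h := nm_hdv_tlv b (nx ω e)
  rwa [tlv_nx] at h

theorem run_congr {ω ω' : Cfg} {Q : Finset (ℤ × ℤ)} {e e' : Ed} {k : ℕ}
    (h : ∀ v ∈ Q, ω v = ω' v) (hr : Run ω Q e k e') : Run ω' Q e k e' := by
  have key : ∀ j ≤ k, (nx ω')^[j] e = (nx ω)^[j] e := by
    intro j
    induction j with
    | zero => intro _; rfl
    | succ j ih =>
      intro hj
      rw [Function.iterate_succ_apply', Function.iterate_succ_apply', ih (by omega)]
      exact (nx_congr (h _ (hr.2 j (by omega)))).symm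
  refine ⟨by rw [key k le_rfl]; exact hr.1, fun j hj => ?_⟩
  rw [key j hj.le]
  exact hr.2 j hj

theorem croI_congr {ω ω' : Cfg} {b : ℤ × ℤ} {r R : ℤ} {e : Ed}
    (h : ∀ v ∈ hA b r R, ω v = ω' v) (hc : CroI ω b r R e) : CroI ω' b r R e := by
  obtain ⟨k, h1, h2, h3⟩ := hc
  have h4 := run_congr h h1
  refine ⟨k, by rw [h4.1]; exact h4, h2, by rw [h4.1]; exact h3⟩

theorem croO_congr {ω ω' : Cfg} {b : ℤ × ℤ} {r R : ℤ} {e : Ed}
    (h : ∀ v ∈ hA b r R, ω v = ω' v) (hc : CroO ω b r R e) : CroO ω' b r R e := by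
  obtain ⟨k, h1, h2, h3⟩ := hc
  have h4 := run_congr h h1
  refine ⟨k, by rw [h4.1]; exact h4, h2, by rw [h4.1]; exact h3⟩

theorem cro_congr {ω ω' : Cfg} {b : ℤ × ℤ} {r R : ℤ} {e : Ed}
    (h : ∀ v ∈ hA b r R, ω v = ω' v) : Cro ω b r R e ↔ Cro ω' b r R e :=
  ⟨fun hc => hc.imp (croI_congr h) (croO_congr h),
    fun hc => hc.imp (croI_congr fun v hv => (h v hv).symm) (croO_congr fun v hv => (h v hv).symm)⟩

theorem twoS_congr {ω ω' : Cfg} {b : ℤ × ℤ} {r R : ℤ}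
    (h : ∀ v ∈ hA b r R, ω v = ω' v) : TwoS b r R ω ↔ TwoS b r R ω' := by
  unfold TwoS
  simp only [cro_congr h]

theorem thrS_congr {ω ω' : Cfg} {b : ℤ × ℤ} {r R : ℤ}
    (h : ∀ v ∈ hA b r R, ω v = ω' v) : ThrS b r R ω ↔ ThrS b r R ω' := by
  unfold ThrS
  simp only [cro_congr h]

end Vale.Agent.P167.H365
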