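import Vale.Agent.P167.H365.NCnt
import Vale.Agent.P167.H558.Stop

/-!
# P167, block N-RED: covariances of the functional with sums over near pieces
-/

namespace Vale.Agent.P167.H365

open Finset MeasureTheory ProbabilityTheory Vale.Agent.P167.BR Vale.Agent.P167.H542
open Vale.Agent.P167.H167 (Fd ind Bg em_Bg ArmE)
open Vale.Agent.P167.H562 (LocFun LocSet Em indepFun_of_local)
open Vale.Agent.P167.H558 (glue glue_mem glue_not_mem)

variable {D : Finset (ℤ × ℤ)} {b p x y u : ℤ × ℤ} {a m k R r K : ℤ} {ω ω' : Cfg}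
  {f : ℤ × ℤ → ℝ} {M : ℝ} {A : Finset Ed}

/-- The local hypotheses at the flat point `u` at scale `R`. -/
structure Env (K R : ℤ) (D : Finset (ℤ × ℤ)) (p : ℤ × ℤ) (f : ℤ × ℤ → ℝ) (M : ℝ) (u : ℤ × ℤ) :
    Prop where
  one_le : 1 ≤ K
  R1 : 1 ≤ R
  fl : Fl D u (8 * K * R)
  gf : ∀ (y : ℤ × ℤ) (s : ℤ), 1 ≤ s → s ≤ 2 * R → ∀ z ∈ sites D, K * s < nm (z - y) →
    K * s < nm (p - y) → Jn D (fun e => s < nm (hdv e - y)) z p
  hp : 8 * K * R < nm (p - u)
  hf : ∀ z, f z ≠ 0 → 8 * K * R < nm (z - u)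
  pot : HPot D
  Y : ∃ Y : Cfg → ℝ, Fd Y ∧ LocFun {v | R < nm (v - u)} Y ∧ (∀ ω, |XD D p f ω| ≤ Y ω) ∧
    (∀ ω, ∀ A ∈ pcs ω D, |TA D p f ω A| ≤ Y ω) ∧ ∫ ω, Y ω ∂μ ≤ M

theorem Jn.mono' {P Q : Ed → Prop} (h : ∀ e ∈ eds D, P e → Q e) {z z' : ℤ × ℤ}
    (hz : Jn D P z z') : Jn D Q z z' := by
  induction hz with
  | refl => exact Relation.ReflTransGen.refl
  | tail _ h1 ih =>
    obtain ⟨e, he, hP, h2⟩ := h1
    exact Relation.ReflTransGen.tail ih ⟨e, he, h e he hP, h2⟩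

theorem farE_of_hd {e : Ed} (he : e ∈ eds D) (h : r + 1 < nm (hdv e - y)) : FarE D y r e := by
  rcases mem_eds.1 he with h1 | h1
  · exact Or.inl ⟨h1, by omega⟩
  · have := (nm_hdv_tlv y e).1
    exact Or.inr ⟨h1, by omega⟩

theorem nm_tri (x y z : ℤ × ℤ) : nm (x - z) ≤ nm (x - y) + nm (y - z) := H45.nm_sub_le x y z

theorem nm_comm (x y : ℤ × ℤ) : nm (x - y) = nm (y - x) := H45.nm_sub_comm x y

theorem nm_nonneg (v : ℤ × ℤ) : 0 ≤ nm v := by unfold nm; positivity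

namespace Env

theorem KR (E : Env K R D p f M u) : R ≤ K * R := by nlinarith [E.one_le, E.R1]

/-- Sites far from `y` are joined to `p`. -/
theorem jn (E : Env K R D p f M u) (hy : nm (y - u) ≤ R) (h0 : 0 ≤ r) (hr : r ≤ R) {z : ℤ × ℤ}
    (hz : z ∈ sites D) (h : K * (r + 1) < nm (z - y)) : Jn D (FarE D y r) z p := by
  have hKR := E.KR
  have h1 := E.one_le
  have h2 := E.R1
  refine Jn.mono' (fun e he h' => farE_of_hd he h') (E.gf y (r + 1) (by omega) (by omega) z hz h ?_)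
  have h3 := nm_tri p y u
  have h4 := E.hp
  have h5 : K * (r + 1) ≤ K * (2 * R) := mul_le_mul_of_nonneg_left (by omega) (by omega)
  nlinarith

theorem chJ (E : Env K R D p f M u) (hy : nm (y - u) ≤ R) (h0 : 0 ≤ r) (hr : r ≤ R) :
    ChJ D y r p f := by
  intro z hz hfz
  refine E.jn hy h0 hr hz ?_
  have hKR := E.KR
  have h1 := E.one_le
  have h3 := nm_tri z y u
  have h4 := E.hf z hfz
  have h5 : K * (r + 1) ≤ K * (2 * R) :=
    mul_le_mul_of_nonneg_left (by have := E.R1; omega) (by omega)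
  nlinarith

theorem fl' (E : Env K R D p f M u) (hy : nm (y - u) ≤ R) (hy2 : y.2 = u.2) (hr : r ≤ 7 * R) :
    Fl D y r := by
  intro v hv
  rw [hy2]
  refine E.fl v ?_
  have := nm_tri v y u
  have := E.KR
  nlinarith

end Env

/-! ### Sums over classes of pieces -/

open Classical in
/-- The sum over the pieces of the class `Q`. -/
noncomputable def SQ (D : Finset (ℤ × ℤ)) (Q : Finset Ed → Prop) (g : Finset Ed → ℝ) (ω : Cfg) :
    ℝ := ∑ A ∈ (pcs ω D).filter Q, wp' D A 0 * g A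

theorem fd_SQ (Q : Finset Ed → Prop) (g : Finset Ed → ℝ) : Fd (SQ D Q g) :=
  ⟨D, fun ω ω' h => by
    simp only [SQ]
    rw [BR.pcs_congr fun v hv => h v (Finset.mem_coe.2 hv)]⟩

theorem SQ_loc {Q : Finset Ed → Prop} {g : Finset Ed → ℝ} {S : Set (ℤ × ℤ)}
    (hQ : ∀ A, Q A → ∀ e ∈ A, hdv e ∈ D → hdv e ∈ S) : LocFun S (SQ D Q g) := by
  classical
  intro ω ω' h
  have h1 : (pcs ω D).filter Q = (pcs ω' D).filter Q := by
    ext A
    rw [mem_filter, mem_filter]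
    constructor
    · rintro ⟨h1, h2⟩
      exact ⟨mem_pcs_agr h1 fun e he hd => h _ (hQ A h2 e he hd), h2⟩
    · rintro ⟨h1, h2⟩
      exact ⟨mem_pcs_agr h1 fun e he hd => (h _ (hQ A h2 e he hd)).symm, h2⟩
  simp only [SQ]
  rw [h1]

theorem abs_wp' (D : Finset (ℤ × ℤ)) (A : Finset Ed) (t : ℝ) : |wp' D A t| ≤ 2 := by
  unfold wp'
  split_ifs
  · rw [abs_div, Real.cos_pi_div_three, abs_of_pos (by norm_num : (0 : ℝ) < 1 / 2)]
    have := Real.abs_sin_le_one (Real.pi / 3 + t)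
    linarith
  · have h0 := H167.half_le_cos_six
    have h1 : (0 : ℝ) < Real.cos (Real.pi / 6) := by linarith
    rw [abs_div, abs_of_pos h1, div_le_iff₀ h1]
    have := Real.abs_sin_le_one (Real.pi / 6 + t)
    linarith

open Classical in
theorem SQ_le {Q : Finset Ed → Prop} {g : Finset Ed → ℝ} (hg : ∀ A, |g A| ≤ 1) (ω : Cfg) :
    |SQ D Q g ω| ≤ 2 * (((pcs ω D).filter fun A => Q A ∧ g A ≠ 0).card : ℝ) := by
  unfold SQ
  have h1 : ∑ A ∈ (pcs ω D).filter Q, wp' D A 0 * g A =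
      ∑ A ∈ (pcs ω D).filter (fun A => Q A ∧ g A ≠ 0), wp' D A 0 * g A := by
    rw [← Finset.filter_filter]
    refine (Finset.sum_filter_of_ne fun A _ h => ?_).symm
    exact right_ne_zero_of_mul h
  rw [h1]
  calc |∑ A ∈ (pcs ω D).filter (fun A => Q A ∧ g A ≠ 0), wp' D A 0 * g A|
      ≤ ∑ A ∈ (pcs ω D).filter (fun A => Q A ∧ g A ≠ 0), |wp' D A 0 * g A| :=
        Finset.abs_sum_le_sum_abs _ _
    _ ≤ ∑ _A ∈ (pcs ω D).filter (fun A => Q A ∧ g A ≠ 0), (2 : ℝ) := by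
        refine Finset.sum_le_sum fun A _ => ?_
        rw [abs_mul]
        have h2 := abs_wp' D A 0
        have h3 := hg A
        nlinarith [abs_nonneg (wp' D A 0), abs_nonneg (g A)]
    _ = _ := by rw [Finset.sum_const, nsmul_eq_mul]; ring

open Classical in
theorem SQ_split {Q Q' : Finset Ed → Prop} (h : ∀ A, Q A → Q' A) (g : Finset Ed → ℝ) (ω : Cfg) :
    SQ D Q' g ω = SQ D Q g ω + SQ D (fun A => Q' A ∧ ¬ Q A) g ω := by
  unfold SQ
  have e1 : ((pcs ω D).filter Q').filter Q = (pcs ω D).filter Q := by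
    ext A
    simp only [mem_filter]
    exact ⟨fun h' => ⟨h'.1.1, h'.2⟩, fun h' => ⟨⟨h'.1, h A h'.2⟩, h'.2⟩⟩
  have e2 : ((pcs ω D).filter Q').filter (fun A => ¬ Q A) =
      (pcs ω D).filter (fun A => Q' A ∧ ¬ Q A) := by
    ext A
    simp only [mem_filter, and_assoc]
  rw [← Finset.sum_filter_add_sum_filter_not ((pcs ω D).filter Q') Q, e1, e2]
  congr!

/-! ### Covariances -/

/-- Covariance. -/
noncomputable def cv (X N : Cfg → ℝ) : ℝ := ∫ ω, X ω * N ω ∂μ - (∫ ω, X ω ∂μ) * ∫ ω, N ω ∂μ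

theorem cv_add {X N N' : Cfg → ℝ} (hX : Fd X) (hN : Fd N) (hN' : Fd N') :
    cv X (fun ω => N ω + N' ω) = cv X N + cv X N' := by
  unfold cv
  simp only [mul_add]
  rw [integral_add (hX.mul hN).int (hX.mul hN').int, integral_add hN.int hN'.int]
  ring

theorem cv_sub {X N N' : Cfg → ℝ} (hX : Fd X) (hN : Fd N) (hN' : Fd N') :
    cv X (fun ω => N ω - N' ω) = cv X N - cv X N' := by
  unfold cv
  simp only [mul_sub]
  rw [integral_sub (hX.mul hN).int (hX.mul hN').int, integral_sub hN.int hN'.int]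
  ring

theorem cv_chain {X : Cfg → ℝ} (hX : Fd X) (g : Finset Ed → ℝ) {Q : ℕ → Finset Ed → Prop}
    (hQ : ∀ j A, Q j A → Q (j + 1) A) (B : ℕ → ℝ) {B0 : ℝ} (J : ℕ)
    (h0 : |cv X (SQ D (Q 0) g)| ≤ B0)
    (h : ∀ j < J, |cv X (SQ D (fun A => Q (j + 1) A ∧ ¬ Q j A) g)| ≤ B j) :
    |cv X (SQ D (Q J) g)| ≤ B0 + ∑ j ∈ range J, B j := by
  induction J with
  | zero => simpa using h0
  | succ J ih =>
    have h1 := ih fun j hj => h j (by omega)
    have h2 : SQ D (Q (J + 1)) g =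
        fun ω => SQ D (Q J) g ω + SQ D (fun A => Q (J + 1) A ∧ ¬ Q J A) g ω := by
      funext ω
      exact SQ_split (hQ J) g ω
    rw [h2, cv_add hX (fd_SQ _ _) (fd_SQ _ _), Finset.sum_range_succ]
    have h3 := h J (by omega)
    have h4 := abs_add_le (cv X (SQ D (Q J) g)) (cv X (SQ D (fun A => Q (J + 1) A ∧ ¬ Q J A) g))
    linarith

theorem fd_XD (D : Finset (ℤ × ℤ)) (p : ℤ × ℤ) (f : ℤ × ℤ → ℝ) : Fd (XD D p f) :=
  ⟨D, fun _ _ h => BR.XD_congr (fun v hv => h v (Finset.mem_coe.2 hv)) p f⟩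

theorem fd_glue {X : Cfg → ℝ} (hX : Fd X) (S : Set (ℤ × ℤ)) (ω0 : Cfg) :
    Fd (fun ω => X (glue S ω0 ω)) := by
  obtain ⟨F, hF⟩ := hX
  refine ⟨F, fun ω ω' h => hF _ _ fun v hv => ?_⟩
  by_cases hS : v ∈ S
  · rw [glue_mem hS, glue_mem hS]
  · rw [glue_not_mem hS, glue_not_mem hS]
    exact h v hv

theorem loc_glue (X : Cfg → ℝ) (S : Set (ℤ × ℤ)) (ω0 : Cfg) :
    LocFun Sᶜ (fun ω => X (glue S ω0 ω)) := by
  intro ω ω' h
  have : glue S ω0 ω = glue S ω0 ω' := by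
    funext v
    by_cases hS : v ∈ S
    · rw [glue_mem hS, glue_mem hS]
    · rw [glue_not_mem hS, glue_not_mem hS]
      exact h v hS
  simp only [this]

/-- **Covariance with a function of a half box.** -/
theorem cov_half {Y : Cfg → ℝ} (hrR : r + 1 ≤ R) (hF : Fl D y (R + 1)) (hP : HPot D)
    (hJ : ChJ D y R p f) (hY : Fd Y) (hYS : LocFun {v | R < nm (v - y)} Y)
    (hXY : ∀ ω, |XD D p f ω| ≤ Y ω) {N : Cfg → ℝ} (hN : Fd N)
    (hNS : LocFun {v | nm (v - y) ≤ r} N) :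
    |cv (XD D p f) N| ≤ 4 * ((∫ ω, Y ω ∂μ) * μ.real {ω | ThrS y (r + 1) R ω}) *
      ∫ ω, |N ω| ∂μ := by
  set S : Set (ℤ × ℤ) := {v | nm (v - y) ≤ r} with hS
  set ω0 : Cfg := fun _ => false with hω0
  rw [← int_thr]
  refine cov_abs (S := S) (S2 := {v | r + 1 ≤ nm (v - y) ∧ nm (v - y) ≤ R})
    (S3 := {v | R < nm (v - y)}) (fd_XD D p f) (fd_glue (fd_XD D p f) S ω0) hN hY (fd_thr _ _ _)
    hNS (loc_glue _ S ω0) (locFun_ind (locSet_thr _ _ _)) hYS ?_ ?_ ?_ ?_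
  · rw [Set.disjoint_left]
    intro v h1 h2
    have h1' : nm (v - y) ≤ r := h1
    have h2' := h2.1
    omega
  · rw [Set.disjoint_left]
    intro v h1 h2
    have h1' : nm (v - y) ≤ r := h1
    have h2' : R < nm (v - y) := h2
    omega
  · rw [Set.disjoint_left]
    intro v h1 h2
    have h1' := h1.2
    have h2' : R < nm (v - y) := h2
    omega
  · intro ω
    by_cases hT : ω ∈ {ω | ThrS y (r + 1) R ω}
    · rw [H167.ind_mem hT, mul_one]
      have h1 := hXY ω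
      have h2 := hXY (glue S ω0 ω)
      have h3 : Y (glue S ω0 ω) = Y ω := hYS _ _ fun v hv => by
        have hv' : R < nm (v - y) := hv
        exact glue_not_mem fun h => by
          have h' : nm (v - y) ≤ r := h
          omega
      rw [h3] at h2
      calc |XD D p f ω - XD D p f (glue S ω0 ω)| ≤ |XD D p f ω| + |XD D p f (glue S ω0 ω)| :=
            abs_sub _ _
        _ ≤ _ := by linarith
    · rw [H167.ind_notMem hT, mul_zero, mul_zero]
      have h1 : XD D p f ω = XD D p f (glue S ω0 ω) := by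
        refine XD_agr (a := r + 1) (m := R) (b := y) hF hrR hP hJ (fun v hv h => ?_) hT
        exact (glue_not_mem fun h' => by
          have h'' : nm (v - y) ≤ r := h'
          omega).symm
      rw [h1, sub_self, abs_zero]

/-- The functional does not change if the pieces which visit `S` have no mass. -/
theorem XD_eq_of_mass {S : Set (ℤ × ℤ)} (hag : ∀ v ∈ D, v ∉ S → ω v = ω' v)
    (h1 : ∀ A ∈ pcs ω D, (∃ e ∈ A, hdv e ∈ D ∧ hdv e ∈ S) → mass D p f A = 0)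
    (h2 : ∀ A ∈ pcs ω' D, (∃ e ∈ A, hdv e ∈ D ∧ hdv e ∈ S) → mass D p f A = 0) :
    XD D p f ω = XD D p f ω' := by
  classical
  have key : ∀ {ω ω' : Cfg}, (∀ v ∈ D, v ∉ S → ω v = ω' v) →
      (pcs ω D).filter (fun A => ¬ ∃ e ∈ A, hdv e ∈ D ∧ hdv e ∈ S) ⊆
      (pcs ω' D).filter (fun A => ¬ ∃ e ∈ A, hdv e ∈ D ∧ hdv e ∈ S) := by
    intro ω ω' hag A hA
    rw [mem_filter] at hA ⊢
    exact ⟨mem_pcs_agr hA.1 fun e he hd => hag _ hd fun hS => hA.2 ⟨e, he, hd, hS⟩, hA.2⟩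
  have heq := Finset.Subset.antisymm (key hag) (key fun v hv hS => (hag v hv hS).symm)
  have hprod : ∀ {ω : Cfg}, (∀ A ∈ pcs ω D, (∃ e ∈ A, hdv e ∈ D ∧ hdv e ∈ S) →
      mass D p f A = 0) → XD D p f ω =
      ∏ A ∈ (pcs ω D).filter (fun A => ¬ ∃ e ∈ A, hdv e ∈ D ∧ hdv e ∈ S),
        wp D A (mass D p f A) := by
    intro ω h
    unfold XD
    rw [Finset.prod_filter_of_ne]
    intro A hA hne hS
    exact hne (by rw [h A hA hS, wp_zero])
  rw [hprod h1, hprod h2, heq]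

theorem near_of_not_arm {c : ℤ × ℤ} {d k' : ℤ} (hdk : d < k') (hA : A ∈ pcs ω D)
    (hc : ∀ v, nm (v - c) ≤ k' → nm (v - y) ≤ r) (hω : ω ∉ ArmE c d k')
    (hv : ∃ e ∈ A, hdv e ∈ D ∧ nm (hdv e - c) ≤ d) : ¬ FarA D y r A := by
  intro hf
  obtain ⟨e, he, -, h1⟩ := hv
  obtain ⟨e2, h2, -, h4⟩ := far_hd hA hf
  apply hω
  refine H167.arm_of_piece hA hdk he h2 h1 ?_
  by_contra hcon
  push Not at hcon
  have := hc (hdv e2) hcon.le
  omega

/-- **Covariance with a function of a box in the bulk.** -/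
theorem cov_bulk {Y : Cfg → ℝ} {c : ℤ × ℤ} {d k' : ℤ} (hdk : d < k') (hrR : r + 1 ≤ R)
    (hc : ∀ v, nm (v - c) ≤ k' → nm (v - y) ≤ r) (hF : Fl D y (R + 1)) (hP : HPot D)
    (hJ : ChJ D y R p f) (hJr : ChJ D y r p f) (hY : Fd Y) (hYS : LocFun {v | R < nm (v - y)} Y)
    (hXY : ∀ ω, |XD D p f ω| ≤ Y ω) {N : Cfg → ℝ} (hN : Fd N)
    (hNS : LocFun {v | nm (v - c) ≤ d} N) :
    |cv (XD D p f) N| ≤ 4 * ((∫ ω, Y ω ∂μ) * (μ.real {ω | ThrS y (r + 1) R ω} *
      ∫ ω, ind (ArmE c d k') ω ∂μ)) * ∫ ω, |N ω| ∂μ := by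
  set S : Set (ℤ × ℤ) := {v | nm (v - c) ≤ d} with hS
  set ω0 : Cfg := fun _ => false with hω0
  have hSr : ∀ v ∈ S, nm (v - y) ≤ r := fun v hv => hc v (by
    have hv' : nm (v - c) ≤ d := hv
    omega)
  have hdis : Disjoint {v : ℤ × ℤ | r + 1 ≤ nm (v - y) ∧ nm (v - y) ≤ R}
      {v : ℤ × ℤ | d < nm (v - c) ∧ nm (v - c) ≤ k'} := by
    rw [Set.disjoint_left]
    intro v h1 h2
    have h1' := h1.1
    have h3 := hc v h2.2
    omega
  rw [← int_thr, ← int_mul hdis (fd_thr _ _ _) (H167.fd_arm _ _ _)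
    (locFun_ind (locSet_thr _ _ _)) (locFun_ind (H167.locSet_arm _ _ _))]
  refine cov_abs (S := S) (S2 := {v : ℤ × ℤ | r + 1 ≤ nm (v - y) ∧ nm (v - y) ≤ R} ∪
    {v : ℤ × ℤ | d < nm (v - c) ∧ nm (v - c) ≤ k'})
    (S3 := {v | R < nm (v - y)}) (fd_XD D p f) (fd_glue (fd_XD D p f) S ω0) hN hY
    ((fd_thr _ _ _).mul (H167.fd_arm _ _ _))
    hNS (loc_glue _ S ω0) (locFun_mul (locFun_ind (locSet_thr _ _ _))
      (locFun_ind (H167.locSet_arm _ _ _))) hYS ?_ ?_ ?_ ?_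
  · rw [Set.disjoint_left]
    rintro v h1 (h2 | h2)
    · have := hSr v h1
      have h2' := h2.1
      omega
    · have h1' : nm (v - c) ≤ d := h1
      have h2' := h2.1
      omega
  · rw [Set.disjoint_left]
    intro v h1 h2
    have := hSr v h1
    have h2' : R < nm (v - y) := h2
    omega
  · rw [Set.disjoint_left]
    rintro v (h1 | h1) h2
    · have h1' := h1.2
      have h2' : R < nm (v - y) := h2
      omega
    · have h1' := hc v h1.2
      have h2' : R < nm (v - y) := h2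
      omega
  · intro ω
    by_cases hT : ω ∈ {ω | ThrS y (r + 1) R ω}
    · by_cases hA : ω ∈ ArmE c d k'
      · rw [H167.ind_mem hT, H167.ind_mem hA, mul_one, mul_one]
        have h1 := hXY ω
        have h2 := hXY (glue S ω0 ω)
        have h3 : Y (glue S ω0 ω) = Y ω := hYS _ _ fun v hv => by
          have hv' : R < nm (v - y) := hv
          exact glue_not_mem fun h => by
            have h' := hSr v h
            omega
        rw [h3] at h2
        calc |XD D p f ω - XD D p f (glue S ω0 ω)| ≤ |XD D p f ω| + |XD D p f (glue S ω0 ω)| :=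
              abs_sub _ _
          _ ≤ _ := by linarith
      · rw [H167.ind_notMem hA, mul_zero, mul_zero, mul_zero]
        have hA' : glue S ω0 ω ∉ ArmE c d k' := fun h => hA
          ((H167.locSet_arm c d k' (glue S ω0 ω) ω fun v hv => glue_not_mem fun h' => by
            have h'' : nm (v - c) ≤ d := h'
            have := hv.1
            omega).1 h)
        have h1 : XD D p f ω = XD D p f (glue S ω0 ω) := by
          refine XD_eq_of_mass (S := S) (fun v _ hvS => (glue_not_mem hvS).symm)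
            (fun A hA1 hv => ?_) (fun A hA1 hv => ?_)
          · exact mass_near hJr (near_of_not_arm hdk hA1 hc hA hv)
          · exact mass_near hJr (near_of_not_arm hdk hA1 hc hA' hv)
        rw [h1, sub_self, abs_zero]
    · rw [H167.ind_notMem hT, zero_mul, mul_zero, mul_zero]
      have h1 : XD D p f ω = XD D p f (glue S ω0 ω) := by
        refine XD_agr (a := r + 1) (m := R) (b := y) hF hrR hP hJ (fun v hv h => ?_) hT
        exact (glue_not_mem fun h' => by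
          have h'' := hSr v h'
          omega).symm
      rw [h1, sub_self, abs_zero]

end Vale.Agent.P167.H365
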