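import Vale.Agent.P167.H365.NSep

/-!
# P167, block N-RED: number of the far pieces which visit a small box; covariance bound
-/

namespace Vale.Agent.P167.H365

open Finset MeasureTheory ProbabilityTheory Vale.Agent.P167.BR Vale.Agent.P167.H542
open Vale.Agent.P167.H167 (Fd ind Bg em_Bg)
open Vale.Agent.P167.H562 (LocFun LocSet Em indepFun_of_local)

variable {D : Finset (ℤ × ℤ)} {b p x : ℤ × ℤ} {a m k R : ℤ} {ω ω' : Cfg} {f : ℤ × ℤ → ℝ}
  {A : Finset Ed}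

/-! ### Independence -/

theorem int_mul {X Y : Cfg → ℝ} {S T : Set (ℤ × ℤ)} (hST : Disjoint S T) (hX : Fd X) (hY : Fd Y)
    (h1 : LocFun S X) (h2 : LocFun T Y) :
    ∫ ω, X ω * Y ω ∂μ = (∫ ω, X ω ∂μ) * ∫ ω, Y ω ∂μ := by
  have hind : IndepFun X Y μ := indepFun_of_local H45.iInd hST hX.meas hY.meas h1 h2
  exact hind.integral_fun_mul_eq_mul_integral hX.meas.aestronglyMeasurable
    hY.meas.aestronglyMeasurable

theorem locFun_mul {X Y : Cfg → ℝ} {S T : Set (ℤ × ℤ)} (h1 : LocFun S X) (h2 : LocFun T Y) :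
    LocFun (S ∪ T) (fun ω => X ω * Y ω) := fun ω ω' h => by
  simp only [h1 ω ω' fun v hv => h v (Or.inl hv), h2 ω ω' fun v hv => h v (Or.inr hv)]

theorem int_mono {X Y : Cfg → ℝ} (hX : Fd X) (hY : Fd Y) (h : ∀ ω, X ω ≤ Y ω) :
    ∫ ω, X ω ∂μ ≤ ∫ ω, Y ω ∂μ := integral_mono hX.int hY.int h

/-- **Covariance of a function of the inside.** -/
theorem cov_abs {X Z N Y t : Cfg → ℝ} {S S2 S3 : Set (ℤ × ℤ)} (hX : Fd X) (hZ : Fd Z) (hN : Fd N)
    (hY : Fd Y) (ht : Fd t) (hNS : LocFun S N) (hZS : LocFun Sᶜ Z) (htS : LocFun S2 t)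
    (hYS : LocFun S3 Y) (d12 : Disjoint S S2) (d13 : Disjoint S S3) (d23 : Disjoint S2 S3)
    (hXZ : ∀ ω, |X ω - Z ω| ≤ 2 * (Y ω * t ω)) :
    |∫ ω, X ω * N ω ∂μ - (∫ ω, X ω ∂μ) * ∫ ω, N ω ∂μ| ≤
      4 * ((∫ ω, Y ω ∂μ) * (∫ ω, t ω ∂μ)) * ∫ ω, |N ω| ∂μ := by
  have e1 : ∫ ω, Z ω * N ω ∂μ = (∫ ω, Z ω ∂μ) * ∫ ω, N ω ∂μ :=
    int_mul disjoint_compl_left hZ hN hZS hNS
  have hXZf : Fd (fun ω => X ω - Z ω) := hX.sub hZ
  have e2 : ∫ ω, X ω * N ω ∂μ - (∫ ω, X ω ∂μ) * ∫ ω, N ω ∂μ =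
      ∫ ω, (X ω - Z ω) * N ω ∂μ - (∫ ω, (X ω - Z ω) ∂μ) * ∫ ω, N ω ∂μ := by
    have e3 : ∫ ω, (X ω - Z ω) * N ω ∂μ = ∫ ω, X ω * N ω ∂μ - ∫ ω, Z ω * N ω ∂μ := by
      rw [← integral_sub (hX.mul hN).int (hZ.mul hN).int]
      refine integral_congr_ae (Filter.Eventually.of_forall fun ω => ?_)
      ring
    rw [e3, integral_sub hX.int hZ.int, e1]
    ring
  have hYt : ∫ ω, Y ω * t ω ∂μ = (∫ ω, Y ω ∂μ) * ∫ ω, t ω ∂μ :=
    int_mul d23.symm hY ht hYS htS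
  have hNa : LocFun S (fun ω => |N ω|) := hNS.comp _
  have htN : ∫ ω, t ω * |N ω| ∂μ = (∫ ω, t ω ∂μ) * ∫ ω, |N ω| ∂μ :=
    int_mul d12.symm ht hN.abs htS hNa
  have hYtN : ∫ ω, Y ω * (t ω * |N ω|) ∂μ = (∫ ω, Y ω ∂μ) * ∫ ω, t ω * |N ω| ∂μ :=
    int_mul (S := S3) (T := S2 ∪ S) (Set.disjoint_union_right.2 ⟨d23.symm, d13.symm⟩) hY
      (ht.mul hN.abs) hYS (locFun_mul htS hNa)
  have b1 : |∫ ω, (X ω - Z ω) * N ω ∂μ| ≤
      2 * ((∫ ω, Y ω ∂μ) * ((∫ ω, t ω ∂μ) * ∫ ω, |N ω| ∂μ)) := by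
    calc |∫ ω, (X ω - Z ω) * N ω ∂μ| ≤ ∫ ω, |(X ω - Z ω) * N ω| ∂μ := abs_integral_le_integral_abs
      _ ≤ ∫ ω, 2 * (Y ω * (t ω * |N ω|)) ∂μ := by
          refine int_mono (hXZf.mul hN).abs ((hY.mul (ht.mul hN.abs)).comp fun r => 2 * r)
            fun ω => ?_
          rw [abs_mul]
          calc |X ω - Z ω| * |N ω| ≤ 2 * (Y ω * t ω) * |N ω| :=
                mul_le_mul_of_nonneg_right (hXZ ω) (abs_nonneg _)
            _ = _ := by ring
      _ = _ := by rw [integral_const_mul, hYtN, htN]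
  have b2 : |∫ ω, (X ω - Z ω) ∂μ| ≤ 2 * ((∫ ω, Y ω ∂μ) * ∫ ω, t ω ∂μ) := by
    calc |∫ ω, (X ω - Z ω) ∂μ| ≤ ∫ ω, |X ω - Z ω| ∂μ := abs_integral_le_integral_abs
      _ ≤ ∫ ω, 2 * (Y ω * t ω) ∂μ :=
          int_mono hXZf.abs ((hY.mul ht).comp fun r => 2 * r) hXZ
      _ = _ := by rw [integral_const_mul, hYt]
  have b3 : |∫ ω, N ω ∂μ| ≤ ∫ ω, |N ω| ∂μ := abs_integral_le_integral_abs
  have hN0 : 0 ≤ ∫ ω, |N ω| ∂μ := integral_nonneg fun ω => abs_nonneg _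
  have h0 : 0 ≤ 2 * ((∫ ω, Y ω ∂μ) * ∫ ω, t ω ∂μ) := (abs_nonneg _).trans b2
  rw [e2]
  calc |∫ ω, (X ω - Z ω) * N ω ∂μ - (∫ ω, (X ω - Z ω) ∂μ) * ∫ ω, N ω ∂μ|
      ≤ |∫ ω, (X ω - Z ω) * N ω ∂μ| + |(∫ ω, (X ω - Z ω) ∂μ) * ∫ ω, N ω ∂μ| := abs_sub _ _
    _ ≤ 2 * ((∫ ω, Y ω ∂μ) * ((∫ ω, t ω ∂μ) * ∫ ω, |N ω| ∂μ)) +
        2 * ((∫ ω, Y ω ∂μ) * ∫ ω, t ω ∂μ) * ∫ ω, |N ω| ∂μ := by
        rw [abs_mul]
        exact add_le_add b1 (mul_le_mul b2 b3 (abs_nonneg _) h0)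
    _ = _ := by ring

/-! ### Counting -/

open Classical in
/-- The number of the pieces which visit the box of radius `k` and a square off the box of radius
`R` around `x`. -/
noncomputable def cntF (D : Finset (ℤ × ℤ)) (x : ℤ × ℤ) (k R : ℤ) (ω : Cfg) : ℕ :=
  ((pcs ω D).filter fun A => VisI D x (k + 1) A ∧ FarA D x R A).card

theorem nm_hd_hd (x y z : ℤ × ℤ) : nm (x - z) ≤ nm (x - y) + nm (y - z) := H45.nm_sub_le x y z

/-- A far piece through `e` has a piece of the box which goes far. -/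
theorem sub_piece (hF : Fl D x (R + 1)) (hk : 1 ≤ k) (hkR : 4 * k + 1 ≤ R) (hA : A ∈ pcs ω D)
    (hf : FarA D x R A) {e : Ed} (he : e ∈ A) (heD : hdv e ∈ D) (hek : nm (hdv e - x) ≤ k) :
    piece ω (hB x (4 * k)) e ⊆ A ∧ ∃ e3 ∈ piece ω (hB x (4 * k)) e, 3 * k < nm (hdv e3 - x) := by
  have hsub : hB x (4 * k) ⊆ D := fun v hv => by
    unfold hB at hv
    rw [mem_hA] at hv
    exact (hF v (by omega)).2 hv.1
  have hQ : ∀ v ∈ D, nm (v - x) ≤ 4 * k → v ∈ hB x (4 * k) := fun v hv h => by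
    unfold hB
    rw [mem_hA]
    refine ⟨(hF v (by omega)).1 hv, ?_, h⟩
    unfold nm
    positivity
  have heB : e ∈ eds (hB x (4 * k)) := mem_eds.2 (Or.inl (hQ _ heD (by omega)))
  have hp := piece_mem_pcs (ω := ω) heB
  have hep := self_mem_piece (ω := ω) heB
  refine ⟨fun e' he' => ?_, ?_⟩
  · obtain ⟨l, hl | hl⟩ := run_of_mem hp hep he'
    · exact (mem_of_run hA (run_mono hsub hl)).1 he
    · exact (mem_of_run hA (run_mono hsub hl)).2 he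
  · obtain ⟨e2, h2, h2D, h2R⟩ := far_hd hA hf
    obtain ⟨l, hl | hl⟩ := run_of_mem hA he h2
    · classical
      have hex : ∃ j, 3 * k < nm (hdv ((nx ω)^[j] e) - x) := ⟨l, by rw [hl.1]; omega⟩
      have hJ := Nat.find_spec hex
      have hJl : Nat.find hex ≤ l := Nat.find_min' hex (by rw [hl.1]; omega)
      have hmin : ∀ i < Nat.find hex, nm (hdv ((nx ω)^[i] e) - x) ≤ 3 * k := fun i hi =>
        not_lt.1 (Nat.find_min hex hi)
      refine ⟨_, ?_, hJ⟩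
      refine (mem_of_run hp (⟨rfl, fun i hi => ?_⟩ :
        Run ω (hB x (4 * k)) e (Nat.find hex) _)).1 hep
      exact hQ _ (hl.2 i (by omega)) (by have := hmin i hi; omega)
    · classical
      set P : ℕ → Prop := fun i => 3 * k < nm (hdv ((nx ω)^[i] e2) - x) with hP
      set j := Nat.findGreatest P l with hj
      have hPj : P j := Nat.findGreatest_spec (P := P) (m := 0) (Nat.zero_le _) (by
        simp only [hP, Function.iterate_zero, id_eq]; omega)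
      have hjl : j ≤ l := Nat.findGreatest_le _
      have hgr : ∀ i, j < i → i ≤ l → nm (hdv ((nx ω)^[i] e2) - x) ≤ 3 * k := by
        intro i h3 h4
        have := Nat.findGreatest_is_greatest (P := P) h3 h4
        exact not_lt.1 this
      have hjl' : j < l := by
        rcases hjl.lt_or_eq with h | h
        · exact h
        · exfalso
          rw [h] at hPj
          have h5 : 3 * k < nm (hdv ((nx ω)^[l] e2) - x) := hPj
          rw [hl.1] at h5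
          omega
      refine ⟨(nx ω)^[j] e2, ?_, hPj⟩
      refine (mem_of_run hp (⟨?_, fun i hi => ?_⟩ :
        Run ω (hB x (4 * k)) ((nx ω)^[j] e2) (l - j) e)).2 hep
      · rw [← Function.iterate_add_apply, Nat.sub_add_cancel hjl, hl.1]
      · rw [← Function.iterate_add_apply]
        refine hQ _ (hl.2 _ (by omega)) ?_
        rcases Nat.eq_zero_or_pos i with h0 | h0
        · subst h0
          rw [zero_add]
          have h6 := hgr (j + 1) (by omega) (by omega)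
          have h7 := (nm_nx ω x ((nx ω)^[j] e2)).2
          rw [← Function.iterate_succ_apply' (nx ω)] at h7
          have h8 : (nx ω)^[j.succ] e2 = (nx ω)^[j + 1] e2 := rfl
          rw [h8] at h7
          omega
        · have := hgr (i + j) (by omega) (by omega)
          omega

open Classical in
theorem cntF_le (hF : Fl D x (R + 1)) (hk : 1 ≤ k) (hkR : 4 * k + 1 ≤ R) :
    (cntF D x k R ω : ℝ) ≤
      ind {ω | TwoS x (4 * k + 1) R ω} ω * ((Bg (hB x (4 * k)) x k k ω).card : ℝ) := by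
  rcases Finset.eq_empty_or_nonempty
    ((pcs ω D).filter fun A => VisI D x (k + 1) A ∧ FarA D x R A) with he | ⟨A0, hA0⟩
  · unfold cntF
    rw [he, Finset.card_empty, Nat.cast_zero]
    exact mul_nonneg (H167.ind_nonneg _ _) (Nat.cast_nonneg _)
  · have h1 : ω ∈ {ω | TwoS x (4 * k + 1) R ω} := by
      obtain ⟨h2, ⟨e, h3, h4, h5⟩, h6⟩ := mem_filter.1 hA0
      obtain ⟨c, -, hc⟩ := exists_cro (a := 4 * k + 1) (m := R) hF hkR h2
        ⟨e, h3, h4, by omega⟩ h6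
      exact ⟨c, hc⟩
    rw [H167.ind_mem h1, one_mul]
    unfold cntF
    have hex : ∀ A ∈ (pcs ω D).filter (fun A => VisI D x (k + 1) A ∧ FarA D x R A),
        ∃ e ∈ A, hdv e ∈ D ∧ nm (hdv e - x) < k + 1 := fun A hA => (mem_filter.1 hA).2.1
    choose! c hc1 hc2 using hex
    have hsub : hB x (4 * k) ⊆ D := fun v hv => by
      unfold hB at hv
      rw [mem_hA] at hv
      exact (hF v (by omega)).2 hv.1
    have hcB : ∀ A ∈ (pcs ω D).filter (fun A => VisI D x (k + 1) A ∧ FarA D x R A),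
        c A ∈ eds (hB x (4 * k)) := by
      intro A hA
      have h3 := hc2 A hA
      refine mem_eds.2 (Or.inl ?_)
      unfold hB
      rw [mem_hA]
      refine ⟨(hF _ (by omega)).1 h3.1, ?_, by omega⟩
      unfold nm
      positivity
    have hcard := Finset.card_le_card_of_injOn (s := (pcs ω D).filter
      (fun A => VisI D x (k + 1) A ∧ FarA D x R A)) (t := Bg (hB x (4 * k)) x k k ω)
      (fun A => piece ω (hB x (4 * k)) (c A)) ?_ ?_
    · exact_mod_cast hcard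
    · intro A hA
      have hA' := Finset.mem_coe.1 hA
      have hm := mem_filter.1 hA'
      obtain ⟨h3, e3, h4, h5⟩ := sub_piece (e := c A) hF hk hkR hm.1 hm.2.2 (hc1 A hA')
        (hc2 A hA').1 (by have := (hc2 A hA').2; omega)
      rw [Finset.mem_coe]
      unfold Bg
      rw [mem_filter]
      refine ⟨piece_mem_pcs (hcB A hA'), ⟨c A, self_mem_piece (hcB A hA'), by
        have := (hc2 A hA').2; omega⟩, fun hs => ?_⟩
      have h6 := hs _ (Finset.mem_image_of_mem hdv h4) _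
        (Finset.mem_image_of_mem hdv (self_mem_piece (hcB A hA')))
      have h7 := nm_hd_hd (hdv e3) (hdv (c A)) x
      have h8 := (hc2 A hA').2
      have h9 : nm (hdv e3 - hdv (c A)) < k := by exact_mod_cast h6
      omega
    · intro A hA B hB hAB
      have hA' := Finset.mem_coe.1 hA
      have hB' := Finset.mem_coe.1 hB
      simp only at hAB
      have hmA := mem_filter.1 hA'
      have hmB := mem_filter.1 hB'
      obtain ⟨h3, -⟩ := sub_piece (e := c A) hF hk hkR hmA.1 hmA.2.2 (hc1 A hA')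
        (hc2 A hA').1 (by have := (hc2 A hA').2; omega)
      have h4 : c B ∈ A := h3 (hAB ▸ self_mem_piece (hcB B hB'))
      exact eq_of_mem_pcs hmA.1 hmB.1 h4 (hc1 B hB')

/-! ### Inputs -/

/-- Two-arm bound. -/
def I2 (C : ℝ) : Prop := ∀ (b : ℤ × ℤ) (r R : ℤ), 1 ≤ r → r ≤ R →
  μ.real {ω | TwoS b r R ω} ≤ C * ((r : ℝ) / R)

/-- Three-arm bound. -/
def I3 (C α : ℝ) : Prop := ∀ (b : ℤ × ℤ) (r R : ℤ), 1 ≤ r → r ≤ R →
  μ.real {ω | ThrS b r R ω} ≤ C * ((r : ℝ) / R) ^ (1 + α)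

theorem locSet_two (x : ℤ × ℤ) (r R : ℤ) : LocSet {v | r ≤ nm (v - x) ∧ nm (v - x) ≤ R}
    {ω | TwoS x r R ω} := fun ω ω' h => by
  exact twoS_congr fun v hv => h v (mem_hA.1 hv).2

theorem locSet_thr (x : ℤ × ℤ) (r R : ℤ) : LocSet {v | r ≤ nm (v - x) ∧ nm (v - x) ≤ R}
    {ω | ThrS x r R ω} := fun ω ω' h => by
  exact thrS_congr fun v hv => h v (mem_hA.1 hv).2

theorem fd_two (x : ℤ × ℤ) (r R : ℤ) : Fd (ind {ω | TwoS x r R ω}) :=
  Fd.ind_of (F := hA x r R) fun _ _ h => twoS_congr fun v hv => h v (Finset.mem_coe.2 hv)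

theorem fd_thr (x : ℤ × ℤ) (r R : ℤ) : Fd (ind {ω | ThrS x r R ω}) :=
  Fd.ind_of (F := hA x r R) fun _ _ h => thrS_congr fun v hv => h v (Finset.mem_coe.2 hv)

theorem locFun_ind {S : Set (ℤ × ℤ)} {T : Set Cfg} (h : LocSet S T) : LocFun S (ind T) := by
  intro ω ω' hw
  have h1 : ω ∈ T ↔ ω' ∈ T := h ω ω' hw
  by_cases h2 : ω ∈ T
  · rw [H167.ind_mem h2, H167.ind_mem (h1.1 h2)]
  · rw [H167.ind_notMem h2, H167.ind_notMem fun h3 => h2 (h1.2 h3)]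

theorem int_two (x : ℤ × ℤ) (r R : ℤ) :
    ∫ ω, ind {ω | TwoS x r R ω} ω ∂μ = μ.real {ω | TwoS x r R ω} := by
  refine H167.integral_ind (H45.meas_loc (hA x r R) fun ω ω' hw hω => ?_)
  exact (twoS_congr hw).1 hω

theorem int_thr (x : ℤ × ℤ) (r R : ℤ) :
    ∫ ω, ind {ω | ThrS x r R ω} ω ∂μ = μ.real {ω | ThrS x r R ω} := by
  refine H167.integral_ind (H45.meas_loc (hA x r R) fun ω ω' hw hω => ?_)
  exact (thrS_congr hw).1 hω

theorem loc_Bg (D : Finset (ℤ × ℤ)) (x : ℤ × ℤ) (L : ℤ) (d : ℝ) :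
    LocFun (D : Set (ℤ × ℤ)) (fun ω => ((Bg D x L d ω).card : ℝ)) := fun ω ω' h => by
  simp only [Bg]
  rw [BR.pcs_congr fun v hv => h v (Finset.mem_coe.2 hv)]

theorem fd_Bg (D : Finset (ℤ × ℤ)) (x : ℤ × ℤ) (L : ℤ) (d : ℝ) :
    Fd (fun ω => ((Bg D x L d ω).card : ℝ)) := ⟨D, loc_Bg D x L d⟩

/-- First moment of the number of large pieces. -/
theorem int_Bg (Λ : ℕ) : ∃ C : ℝ, 0 < C ∧ ∀ (D : Finset (ℤ × ℤ)) (x : ℤ × ℤ) (L : ℤ) (d : ℝ),
    1 ≤ d → 0 ≤ L → (L : ℝ) ≤ Λ * d → ∫ ω, ((Bg D x L d ω).card : ℝ) ∂μ ≤ C := by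
  obtain ⟨l, M, hl, hM, h⟩ := em_Bg Λ
  refine ⟨(M + 1) / l, by positivity, fun D x L d hd hL hLd => ?_⟩
  have h1 := h D x L d hd hL hLd
  have hfd : Fd (fun ω => ((Bg D x L d ω).card : ℝ)) := fd_Bg D x L d
  have hfe : Fd (fun ω => Real.exp (l * ((Bg D x L d ω).card : ℝ))) :=
    hfd.comp fun r => Real.exp (l * r)
  have h2 : ∫ ω, Real.exp (l * ((Bg D x L d ω).card : ℝ)) ∂μ ≤ M := by
    rw [integral_eq_lintegral_of_nonneg_ae (Filter.Eventually.of_forall fun ω =>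
      (Real.exp_pos _).le) hfe.meas.aestronglyMeasurable]
    exact ENNReal.toReal_le_of_le_ofReal hM h1
  have h3 : ∫ ω, l * ((Bg D x L d ω).card : ℝ) ∂μ ≤
      ∫ ω, Real.exp (l * ((Bg D x L d ω).card : ℝ)) ∂μ :=
    int_mono (hfd.comp fun r => l * r) hfe fun ω => by
      have := Real.add_one_le_exp (l * ((Bg D x L d ω).card : ℝ))
      linarith
  rw [integral_const_mul] at h3
  rw [le_div_iff₀ hl]
  linarith

theorem fd_cntF (D : Finset (ℤ × ℤ)) (x : ℤ × ℤ) (k R : ℤ) :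
    Fd (fun ω => (cntF D x k R ω : ℝ)) :=
  ⟨D, fun ω ω' h => by
    simp only [cntF]
    rw [BR.pcs_congr fun v hv => h v (Finset.mem_coe.2 hv)]⟩

/-- **Expected number of far pieces at `x`.** -/
theorem int_cntF {C2 : ℝ} (h2 : I2 C2) : ∃ C : ℝ, 0 < C ∧ ∀ (D : Finset (ℤ × ℤ)) (x : ℤ × ℤ)
    (k R : ℤ), 1 ≤ k → 4 * k + 1 ≤ R → Fl D x (R + 1) →
    ∫ ω, (cntF D x k R ω : ℝ) ∂μ ≤ C * ((k : ℝ) / R) := by
  obtain ⟨C, hC, hBg⟩ := int_Bg 1
  have hC2 : 0 ≤ C2 := by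
    have h3 := h2 0 1 1 le_rfl le_rfl
    have h4 : 0 ≤ μ.real {ω | TwoS 0 1 1 ω} := measureReal_nonneg
    have h5 : C2 * (((1:ℤ):ℝ) / ((1:ℤ):ℝ)) = C2 := by norm_num
    linarith
  refine ⟨C2 * 5 * C + 1, by positivity, fun D x k R hk hkR hF => ?_⟩
  have hkr : (1 : ℝ) ≤ k := by exact_mod_cast hk
  have hRr : (4 : ℝ) * k + 1 ≤ R := by exact_mod_cast hkR
  have hloc : LocFun {v : ℤ × ℤ | nm (v - x) ≤ 4 * k}
      (fun ω => ((Bg (hB x (4 * k)) x k k ω).card : ℝ)) :=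
    (loc_Bg _ x k k).mono fun v hv => by
      have hv' := Finset.mem_coe.1 hv
      unfold hB at hv'
      rw [mem_hA] at hv'
      exact hv'.2.2
  have hdis : Disjoint {v : ℤ × ℤ | 4 * k + 1 ≤ nm (v - x) ∧ nm (v - x) ≤ R}
      {v : ℤ × ℤ | nm (v - x) ≤ 4 * k} := by
    rw [Set.disjoint_left]
    intro v h3 h4
    have h3' := h3.1
    have h4' : nm (v - x) ≤ 4 * k := h4
    omega
  calc ∫ ω, (cntF D x k R ω : ℝ) ∂μ
      ≤ ∫ ω, ind {ω | TwoS x (4 * k + 1) R ω} ω * ((Bg (hB x (4 * k)) x k k ω).card : ℝ) ∂μ :=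
        int_mono (fd_cntF _ _ _ _) ((fd_two _ _ _).mul (fd_Bg _ _ _ _)) fun ω =>
          cntF_le hF hk hkR
    _ = μ.real {ω | TwoS x (4 * k + 1) R ω} *
        ∫ ω, ((Bg (hB x (4 * k)) x k k ω).card : ℝ) ∂μ := by
        rw [int_mul hdis (fd_two _ _ _) (fd_Bg _ _ _ _) (locFun_ind (locSet_two _ _ _)) hloc,
          int_two]
    _ ≤ (C2 * (((4 * k + 1 : ℤ) : ℝ) / R)) * C := by
        refine mul_le_mul (h2 _ _ _ (by omega) hkR)
          (hBg _ _ _ _ hkr (by omega) (by simp)) (integral_nonneg fun ω => Nat.cast_nonneg _) ?_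
        have : (0 : ℝ) ≤ ((4 * k + 1 : ℤ) : ℝ) / R := by
          have : (0 : ℝ) ≤ ((4 * k + 1 : ℤ) : ℝ) := by exact_mod_cast (by omega : 0 ≤ 4 * k + 1)
          have : (0 : ℝ) ≤ R := by linarith
          positivity
        positivity
    _ ≤ (C2 * 5 * C + 1) * ((k : ℝ) / R) := by
        have hR0 : (0 : ℝ) < R := by linarith
        have h3 : ((4 * k + 1 : ℤ) : ℝ) / R ≤ 5 * ((k : ℝ) / R) := by
          push_cast
          rw [← mul_div_assoc]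
          exact div_le_div_of_nonneg_right (by linarith) hR0.le
        have h4 : (0 : ℝ) ≤ (k : ℝ) / R := by positivity
        calc C2 * (((4 * k + 1 : ℤ) : ℝ) / R) * C ≤ C2 * (5 * ((k : ℝ) / R)) * C := by gcongr
          _ = C2 * 5 * C * ((k : ℝ) / R) := by ring
          _ ≤ _ := by nlinarith

end Vale.Agent.P167.H365
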