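import Vale.Agent.P167.H365.NDefs
import Vale.Agent.P167.H542.Cx

/-!
# P167, block N-RED: pieces and crossings of a half annulus (deterministic part)
-/

namespace Vale.Agent.P167.H365

open Finset Vale.Agent.P167.BR

variable {D : Finset (ℤ × ℤ)} {b p : ℤ × ℤ} {a m : ℤ} {ω ω' : Cfg}

/-- The run from the inside to the outside contains a crossing. -/
theorem croI_of_run (hF : Fl D b (m + 1)) (ham : a ≤ m) {e : Ed} {k : ℕ}
    (hr : ∀ j ≤ k, hdv ((nx ω)^[j] e) ∈ D) (h0 : nm (hdv e - b) < a)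
    (h1 : m < nm (hdv ((nx ω)^[k] e) - b)) :
    ∃ j, j < k ∧ CroI ω b a m ((nx ω)^[j + 1] e) := by
  classical
  have hex : ∃ j, j ≤ k ∧ m < nm (hdv ((nx ω)^[j] e) - b) := ⟨k, le_rfl, h1⟩
  set J := Nat.find hex with hJ
  obtain ⟨hJk, hJm⟩ := Nat.find_spec hex
  have hmin : ∀ i < J, nm (hdv ((nx ω)^[i] e) - b) ≤ m := by
    intro i hi
    have := Nat.find_min hex hi
    push Not at this
    exact this (by omega)
  have hJ0 : 0 < J := by
    rcases Nat.eq_zero_or_pos J with h | h
    · rw [← hJ, h] at hJm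
      simp only [Function.iterate_zero, id_eq] at hJm
      omega
    · exact h
  set P : ℕ → Prop := fun i => nm (hdv ((nx ω)^[i] e) - b) < a with hP
  set j := Nat.findGreatest P J with hj
  have hPj : P j := Nat.findGreatest_spec (P := P) (m := 0) (Nat.zero_le _) h0
  have hjJ : j ≤ J := Nat.findGreatest_le _
  have hjJ' : j < J := by
    rcases hjJ.lt_or_eq with h | h
    · exact h
    · exfalso
      rw [h] at hPj
      have : nm (hdv ((nx ω)^[J] e) - b) < a := hPj
      rw [← hJ] at hJm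
      omega
  have hgr : ∀ i, j < i → i ≤ J → a ≤ nm (hdv ((nx ω)^[i] e) - b) := by
    intro i h2 h3
    have := Nat.findGreatest_is_greatest (P := P) h2 h3
    exact not_lt.1 this
  refine ⟨j, by omega, J - (j + 1), ⟨rfl, fun i hi => ?_⟩, ?_, ?_⟩
  · rw [← Function.iterate_add_apply, mem_hA]
    have h2 := hmin (i + (j + 1)) (by omega)
    exact ⟨(hF _ (by omega)).1 (hr _ (by omega)), hgr _ (by omega) (by omega), h2⟩
  · rw [Function.iterate_succ_apply', tlv_nx]
    have h2 : nm (hdv ((nx ω)^[j] e) - b) < a := hPj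
    exact ⟨(hF _ (by omega)).1 (hr _ (by omega)), h2⟩
  · rw [← Function.iterate_add_apply, Nat.sub_add_cancel (by omega)]
    refine ⟨(hF _ ?_).1 (hr _ (by omega)), by rw [← hJ] at hJm; exact hJm⟩
    have h2 := hmin (J - 1) (by omega)
    have h3 := (nm_nx ω b ((nx ω)^[J - 1] e)).1
    rw [← Function.iterate_succ_apply' (nx ω), show (J - 1).succ = J by omega] at h3
    omega

/-- The run from the outside to the inside contains a crossing. -/
theorem croO_of_run (hF : Fl D b (m + 1)) (ham : a ≤ m) {e : Ed} {k : ℕ}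
    (hr : ∀ j ≤ k, hdv ((nx ω)^[j] e) ∈ D) (h0 : m < nm (hdv e - b))
    (h1 : nm (hdv ((nx ω)^[k] e) - b) < a) :
    ∃ j, j < k ∧ CroO ω b a m ((nx ω)^[j + 1] e) := by
  classical
  have hex : ∃ j, j ≤ k ∧ nm (hdv ((nx ω)^[j] e) - b) < a := ⟨k, le_rfl, h1⟩
  set J := Nat.find hex with hJ
  obtain ⟨hJk, hJm⟩ := Nat.find_spec hex
  have hmin : ∀ i < J, a ≤ nm (hdv ((nx ω)^[i] e) - b) := by
    intro i hi
    have := Nat.find_min hex hi
    push Not at this
    exact this (by omega)
  have hJ0 : 0 < J := by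
    rcases Nat.eq_zero_or_pos J with h | h
    · rw [← hJ, h] at hJm
      simp only [Function.iterate_zero, id_eq] at hJm
      omega
    · exact h
  set P : ℕ → Prop := fun i => m < nm (hdv ((nx ω)^[i] e) - b) with hP
  set j := Nat.findGreatest P J with hj
  have hPj : P j := Nat.findGreatest_spec (P := P) (m := 0) (Nat.zero_le _) h0
  have hjJ : j ≤ J := Nat.findGreatest_le _
  have hjJ' : j < J := by
    rcases hjJ.lt_or_eq with h | h
    · exact h
    · exfalso
      rw [h] at hPj
      have : m < nm (hdv ((nx ω)^[J] e) - b) := hPj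
      rw [← hJ] at hJm
      omega
  have hgr : ∀ i, j < i → i ≤ J → nm (hdv ((nx ω)^[i] e) - b) ≤ m := by
    intro i h2 h3
    have := Nat.findGreatest_is_greatest (P := P) h2 h3
    exact not_lt.1 this
  refine ⟨j, by omega, J - (j + 1), ⟨rfl, fun i hi => ?_⟩, ?_, ?_⟩
  · rw [← Function.iterate_add_apply, mem_hA]
    have h2 := hgr (i + (j + 1)) (by omega) (by omega)
    exact ⟨(hF _ (by omega)).1 (hr _ (by omega)), hmin _ (by omega), h2⟩
  · rw [Function.iterate_succ_apply', tlv_nx]
    have h2 : m < nm (hdv ((nx ω)^[j] e) - b) := hPj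
    refine ⟨(hF _ ?_).1 (hr _ (by omega)), h2⟩
    have h3 := (nm_nx ω b ((nx ω)^[j] e)).2
    rw [← Function.iterate_succ_apply' (nx ω)] at h3
    have h4 := hgr (j + 1) (by omega) (by omega)
    have h5 : (nx ω)^[j.succ] e = (nx ω)^[j + 1] e := rfl
    rw [h5] at h3
    omega
  · rw [← Function.iterate_add_apply, Nat.sub_add_cancel (by omega)]
    rw [← hJ] at hJm
    exact ⟨(hF _ (by omega)).1 (hr _ (by omega)), hJm⟩

/-- `e` is incident to a square of `D` outside the box of radius `m`. -/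
def FarE (D : Finset (ℤ × ℤ)) (b : ℤ × ℤ) (m : ℤ) (e : Ed) : Prop :=
  (hdv e ∈ D ∧ m < nm (hdv e - b)) ∨ (tlv e ∈ D ∧ m < nm (tlv e - b))

/-- `A` visits a square of `D` outside the box of radius `m`. -/
def FarA (D : Finset (ℤ × ℤ)) (b : ℤ × ℤ) (m : ℤ) (A : Finset Ed) : Prop := ∃ e ∈ A, FarE D b m e

/-- `A` visits a square of `D` inside the box of radius `a`. -/
def VisI (D : Finset (ℤ × ℤ)) (b : ℤ × ℤ) (a : ℤ) (A : Finset Ed) : Prop :=
  ∃ e ∈ A, hdv e ∈ D ∧ nm (hdv e - b) < a

/-- The predecessor in the piece. -/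
theorem pred_mem {A : Finset Ed} (hA : A ∈ pcs ω D) {e : Ed} (he : e ∈ A) (h : tlv e ∈ D) :
    ∃ e0 ∈ A, nx ω e0 = e ∧ hdv e0 = tlv e := by
  obtain ⟨e0, h0⟩ := (s_nx ω).2 e
  have h1 : hdv e0 = tlv e := by rw [← h0, tlv_nx]
  refine ⟨e0, ?_, h0, h1⟩
  rw [nx_mem_iff hA (by rw [h1]; exact h), h0]
  exact he

theorem far_hd {A : Finset Ed} (hA : A ∈ pcs ω D) (hf : FarA D b m A) :
    ∃ e ∈ A, hdv e ∈ D ∧ m < nm (hdv e - b) := by
  obtain ⟨e, he, h | h⟩ := hf
  · exact ⟨e, he, h⟩
  · obtain ⟨e0, h0, -, h2⟩ := pred_mem hA he h.1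
    exact ⟨e0, h0, by rw [h2]; exact h.1, by rw [h2]; exact h.2⟩

theorem run_hd {k : ℕ} {e e' : Ed} (hr : Run ω D e k e') (h' : hdv e' ∈ D) :
    ∀ j ≤ k, hdv ((nx ω)^[j] e) ∈ D := by
  intro j hj
  rcases hj.lt_or_eq with h | h
  · exact hr.2 j h
  · rw [h, hr.1]; exact h'

/-- A far piece which visits the inside contains a crossing. -/
theorem exists_cro (hF : Fl D b (m + 1)) (ham : a ≤ m) {A : Finset Ed} (hA : A ∈ pcs ω D)
    (hv : VisI D b a A) (hf : FarA D b m A) : ∃ c ∈ A, Cro ω b a m c := by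
  obtain ⟨e1, h1, h1D, h1a⟩ := hv
  obtain ⟨e2, h2, h2D, h2m⟩ := far_hd hA hf
  obtain ⟨k, hk | hk⟩ := run_of_mem hA h1 h2
  · obtain ⟨j, hj, hc⟩ := croI_of_run hF ham (run_hd hk h2D) h1a (by rw [hk.1]; exact h2m)
    exact ⟨_, (mem_of_run hA (⟨rfl, fun i hi => hk.2 i (by omega)⟩ :
      Run ω D e1 (j + 1) _)).1 h1, Or.inl hc⟩
  · obtain ⟨j, hj, hc⟩ := croO_of_run hF ham (run_hd hk h1D) h2m (by rw [hk.1]; exact h1a)
    exact ⟨_, (mem_of_run hA (⟨rfl, fun i hi => hk.2 i (by omega)⟩ :
      Run ω D e2 (j + 1) _)).1 h2, Or.inr hc⟩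

theorem hA_sub (hF : Fl D b (m + 1)) : hA b a m ⊆ D := fun v hv => by
  rw [mem_hA] at hv
  exact (hF v (by omega)).2 hv.1

theorem run_mono {Q Q' : Finset (ℤ × ℤ)} (h : Q ⊆ Q') {e e' : Ed} {k : ℕ} (hr : Run ω Q e k e') :
    Run ω Q' e k e' := ⟨hr.1, fun j hj => h (hr.2 j hj)⟩

/-- The data of a crossing from the inside. -/
theorem croI_data (hF : Fl D b (m + 1)) (ham : a ≤ m) {c : Ed} (hc : CroI ω b a m c) :
    ∃ k, 1 ≤ k ∧ Run ω (hA b a m) c k ((nx ω)^[k] c) ∧ tlv c ∈ D ∧ nm (tlv c - b) < a ∧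
      hdv ((nx ω)^[k] c) ∈ D ∧ m < nm (hdv ((nx ω)^[k] c) - b) := by
  obtain ⟨k, h1, h2, h3⟩ := hc
  have hk : 1 ≤ k := by
    by_contra h
    have h0 : k = 0 := by omega
    subst h0
    simp only [Function.iterate_zero, id_eq] at h3
    have := (nm_hdv_tlv b c).1
    have := h2.2
    have := h3.2
    omega
  refine ⟨k, hk, h1, (hF _ (by have := h2.2; omega)).2 h2.1, h2.2, (hF _ ?_).2 h3.1, h3.2⟩
  have h4 := h1.2 (k - 1) (by omega)
  rw [mem_hA] at h4
  have h5 := (nm_nx ω b ((nx ω)^[k - 1] c)).1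
  rw [← Function.iterate_succ_apply' (nx ω), show (k - 1).succ = k by omega] at h5
  omega

/-- The data of a crossing from the outside. -/
theorem croO_data (hF : Fl D b (m + 1)) (ham : a ≤ m) {c : Ed} (hc : CroO ω b a m c) :
    ∃ k, 1 ≤ k ∧ Run ω (hA b a m) c k ((nx ω)^[k] c) ∧ tlv c ∈ D ∧ m < nm (tlv c - b) ∧
      hdv ((nx ω)^[k] c) ∈ D ∧ nm (hdv ((nx ω)^[k] c) - b) < a := by
  obtain ⟨k, h1, h2, h3⟩ := hc
  have hk : 1 ≤ k := by
    by_contra h
    have h0 : k = 0 := by omega
    subst h0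
    simp only [Function.iterate_zero, id_eq] at h3
    have := (nm_hdv_tlv b c).2
    have := h2.2
    have := h3.2
    omega
  refine ⟨k, hk, h1, (hF _ ?_).2 h2.1, h2.2, (hF _ (by have := h3.2; omega)).2 h3.1, h3.2⟩
  have h4 := h1.2 0 (by omega)
  simp only [Function.iterate_zero, id_eq] at h4
  rw [mem_hA] at h4
  have h5 := (nm_hdv_tlv b c).2
  omega

theorem cro_mem_eds (hF : Fl D b (m + 1)) (ham : a ≤ m) {c : Ed} (hc : Cro ω b a m c) :
    c ∈ eds D := by
  rw [mem_eds]
  rcases hc with hc | hc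
  · obtain ⟨k, -, -, h, -⟩ := croI_data hF ham hc
    exact Or.inr h
  · obtain ⟨k, -, -, h, -⟩ := croO_data hF ham hc
    exact Or.inr h

theorem croI_ne_croO {c c' : Ed} (ham : a ≤ m) (hc : CroI ω b a m c) (hc' : CroO ω' b a m c') :
    c ≠ c' := by
  rintro rfl
  obtain ⟨k, -, h2, -⟩ := hc
  obtain ⟨k', -, h2', -⟩ := hc'
  have := h2.2
  have := h2'.2
  omega

/-- Two configurations which agree on the squares of `D` outside the box of radius `a`. -/
def Agr (D : Finset (ℤ × ℤ)) (b : ℤ × ℤ) (a : ℤ) (ω ω' : Cfg) : Prop :=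
  ∀ v ∈ D, a ≤ nm (v - b) → ω v = ω' v

theorem Agr.symm (h : Agr D b a ω ω') : Agr D b a ω' ω := fun v hv h' => (h v hv h').symm

theorem Agr.hA (hF : Fl D b (m + 1)) (h : Agr D b a ω ω') : ∀ v ∈ hA b a m, ω v = ω' v :=
  fun v hv => h v (hA_sub hF hv) (mem_hA.1 hv).2.1

/-- A run which avoids the inside is a run of the other configuration. -/
theorem run_agr (h : Agr D b a ω ω') {e e' : Ed} {k : ℕ} (hr : Run ω D e k e')
    (hk : ∀ j < k, a ≤ nm (hdv ((nx ω)^[j] e) - b)) : Run ω' D e k e' := by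
  have key : ∀ j ≤ k, (nx ω')^[j] e = (nx ω)^[j] e := by
    intro j
    induction j with
    | zero => intro _; rfl
    | succ j ih =>
      intro hj
      rw [Function.iterate_succ_apply', Function.iterate_succ_apply', ih (by omega)]
      exact (nx_congr (h _ (hr.2 j (by omega)) (hk j (by omega)))).symm
  refine ⟨by rw [key k le_rfl]; exact hr.1, fun j hj => ?_⟩
  rw [key j hj.le]
  exact hr.2 j hj

/-- **One crossing**: outside the box the piece of the crossing does not depend on the inside. -/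
theorem far_mem_imp (hF : Fl D b (m + 1)) (ham : a ≤ m) (hag : Agr D b a ω ω')
    (h3 : ¬ ThrS b a m ω) {c : Ed} (hc : Cro ω b a m c) {e : Ed} (hf : FarE D b m e)
    (he : e ∈ piece ω D c) : e ∈ piece ω' D c := by
  have hcD := cro_mem_eds hF ham hc
  have hA : piece ω D c ∈ pcs ω D := piece_mem_pcs hcD
  have hcA := self_mem_piece (ω := ω) hcD
  have hcA' := self_mem_piece (ω := ω') hcD
  have hA' : piece ω' D c ∈ pcs ω' D := piece_mem_pcs hcD
  have huniq : ∀ c', Cro ω b a m c' → c' = c := fun c' hc' => by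
    by_contra hne
    exact h3 ⟨c', c, hne, hc', hc⟩
  obtain ⟨k, hk | hk⟩ := run_of_mem hA hcA he
  · -- `e` is after `c`
    by_cases hall : ∀ j < k, a ≤ nm (hdv ((nx ω)^[j] c) - b)
    · exact (mem_of_run hA' (run_agr hag hk hall)).1 hcA'
    · exfalso
      push Not at hall
      obtain ⟨j, hj, hja⟩ := hall
      rcases hc with hc | hc
      · -- from the inside: after the crossing the run comes back
        obtain ⟨k', hk', h1, -, -, h4, h5⟩ := croI_data hF ham hc
        have hk'j : k' < j := by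
          by_contra hlt
          push Not at hlt
          rcases hlt.lt_or_eq with h | h
          · have := (mem_hA.1 (h1.2 j h)).2.1
            omega
          · rw [h] at hja; omega
        obtain ⟨i, hi, hci⟩ := croO_of_run (ω := ω) (e := (nx ω)^[k'] c) (k := j - k') hF ham
          (fun l hl => by
            rw [← Function.iterate_add_apply]
            exact hk.2 _ (by omega)) h5 (by
            rw [← Function.iterate_add_apply, Nat.sub_add_cancel (by omega)]
            exact hja)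
        exact croI_ne_croO ham hc hci (huniq _ (Or.inr hci)).symm
      · -- from the outside: then the run goes out again
        obtain ⟨i, hij, hik, hiD, him⟩ : ∃ i, j ≤ i ∧ i ≤ k ∧
            (∀ l ≤ i, hdv ((nx ω)^[l] c) ∈ D) ∧ m < nm (hdv ((nx ω)^[i] c) - b) := by
          rcases hf with hf | hf
          · exact ⟨k, hj.le, le_rfl, run_hd hk hf.1, by rw [hk.1]; exact hf.2⟩
          · have e1 : hdv ((nx ω)^[k - 1] c) = tlv e := by
              rw [← hk.1]
              obtain ⟨l, rfl⟩ : ∃ l, k = l + 1 := ⟨k - 1, by omega⟩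
              rw [Function.iterate_succ_apply', tlv_nx]
              simp
            exact ⟨k - 1, by omega, by omega, fun l hl => hk.2 l (by omega), by
              rw [e1]; exact hf.2⟩
        obtain ⟨l, hl, hcl⟩ := croI_of_run (ω := ω) (e := (nx ω)^[j] c) (k := i - j) hF ham
          (fun l hl => by
            rw [← Function.iterate_add_apply]
            exact hiD _ (by omega)) hja (by
            rw [← Function.iterate_add_apply, Nat.sub_add_cancel (by omega)]
            exact him)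
        exact croI_ne_croO ham hcl hc (huniq _ (Or.inl hcl))
  · -- `e` is before `c`
    by_cases hall : ∀ j < k, a ≤ nm (hdv ((nx ω)^[j] e) - b)
    · exact (mem_of_run hA' (run_agr hag hk hall)).2 hcA'
    · exfalso
      push Not at hall
      obtain ⟨j, hj, hja⟩ := hall
      rcases hc with hc | hc
      · -- from the inside: then the run has come from the outside
        rcases hf with hf | hf
        · obtain ⟨l, hl, hcl⟩ := croO_of_run (ω := ω) (e := e) (k := j) hF ham
            (fun l hl => hk.2 l (by omega)) hf.2 hja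
          exact croI_ne_croO ham hc hcl (huniq _ (Or.inr hcl)).symm
        · obtain ⟨e0, h0, h1, h2⟩ := pred_mem hA he hf.1
          obtain ⟨l, hl, hcl⟩ := croO_of_run (ω := ω) (e := e0) (k := j + 1) hF ham
            (fun l hl => by
              rcases Nat.eq_zero_or_pos l with h | h
              · subst h
                simp only [Function.iterate_zero, id_eq]
                rw [h2]; exact hf.1
              · obtain ⟨i, rfl⟩ : ∃ i, l = i + 1 := ⟨l - 1, by omega⟩
                rw [Function.iterate_succ_apply, h1]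
                exact hk.2 i (by omega)) (by rw [h2]; exact hf.2) (by
              rw [Function.iterate_succ_apply, h1]; exact hja)
          exact croI_ne_croO ham hc hcl (huniq _ (Or.inr hcl)).symm
      · -- from the outside
        obtain ⟨k', hk', h1, h2, h4, -, -⟩ := croO_data hF ham hc
        have e1 : hdv ((nx ω)^[k - 1] e) = tlv c := by
          rw [← hk.1]
          obtain ⟨l, rfl⟩ : ∃ l, k = l + 1 := ⟨k - 1, by omega⟩
          rw [Function.iterate_succ_apply', tlv_nx]
          simp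
        have hjk : j ≤ k - 1 := by omega
        obtain ⟨l, hl, hcl⟩ := croI_of_run (ω := ω) (e := (nx ω)^[j] e) (k := k - 1 - j) hF ham
          (fun l hl => by
            rw [← Function.iterate_add_apply]
            exact hk.2 _ (by omega)) hja (by
            rw [← Function.iterate_add_apply, Nat.sub_add_cancel hjk, e1]
            exact h4)
        exact croI_ne_croO ham hcl hc (huniq _ (Or.inl hcl))

theorem far_mem_iff (hF : Fl D b (m + 1)) (ham : a ≤ m) (hag : Agr D b a ω ω')
    (h3 : ¬ ThrS b a m ω) {c : Ed} (hc : Cro ω b a m c) {e : Ed} (hf : FarE D b m e) :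
    e ∈ piece ω D c ↔ e ∈ piece ω' D c := by
  have h := hag.hA hF
  exact ⟨far_mem_imp hF ham hag h3 hc hf,
    far_mem_imp hF ham hag.symm (by rwa [← thrS_congr h]) ((cro_congr h).1 hc) hf⟩

end Vale.Agent.P167.H365
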