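import Vale.Agent.P167.H365.NDet

/-!
# P167, block N-RED: the weights and the inside of a box
-/

namespace Vale.Agent.P167.H365

open Finset Vale.Agent.P167.BR Vale.Agent.P167.H542

variable {D : Finset (ℤ × ℤ)} {b p : ℤ × ℤ} {a m : ℤ} {ω ω' : Cfg} {f : ℤ × ℤ → ℝ}

/-- Steps between sites across the edges of `D` with the property `P`. -/
def Stp (D : Finset (ℤ × ℤ)) (P : Ed → Prop) (z z' : ℤ × ℤ) : Prop :=
  ∃ e ∈ eds D, P e ∧ ((ls e = z ∧ rs e = z') ∨ (rs e = z ∧ ls e = z'))

/-- Sites joined across the edges with the property `P`. -/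
def Jn (D : Finset (ℤ × ℤ)) (P : Ed → Prop) : ℤ × ℤ → ℤ × ℤ → Prop :=
  Relation.ReflTransGen (Stp D P)

theorem Stp.symm {P : Ed → Prop} {z z' : ℤ × ℤ} (h : Stp D P z z') : Stp D P z' z := by
  obtain ⟨e, h1, h2, h3 | h3⟩ := h
  · exact ⟨e, h1, h2, Or.inr ⟨h3.2, h3.1⟩⟩
  · exact ⟨e, h1, h2, Or.inl ⟨h3.2, h3.1⟩⟩

theorem Jn.symm {P : Ed → Prop} {z z' : ℤ × ℤ} (h : Jn D P z z') : Jn D P z' z := by
  induction h with
  | refl => exact Relation.ReflTransGen.refl
  | tail _ h ih => exact Relation.ReflTransGen.head h.symm ih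

theorem FarE.mem_eds {e : Ed} (h : FarE D b m e) : e ∈ eds D := by
  rw [BR.mem_eds]
  exact h.imp (fun h => h.1) (fun h => h.1)

/-- A potential does not change along steps off the piece. -/
theorem pot_jn {A : Finset Ed} {u : ℤ × ℤ → ℤ} (hu : PotD D A u) {P : Ed → Prop}
    (hP : ∀ e, P e → e ∉ A) {z z' : ℤ × ℤ} (h : Jn D P z z') : u z = u z' := by
  induction h with
  | refl => rfl
  | tail _ h ih =>
    rw [ih]
    obtain ⟨e, h1, h2, h3 | h3⟩ := h
    · have := hu e h1
      rw [if_neg (hP e h2), add_zero, h3.1, h3.2] at this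
      exact this
    · have := hu e h1
      rw [if_neg (hP e h2), add_zero, h3.1, h3.2] at this
      exact this.symm

/-- Two pieces which agree on the edges with the property `P`. -/
theorem pot_jn2 {A A' : Finset Ed} {u u' : ℤ × ℤ → ℤ} (hu : PotD D A u) (hu' : PotD D A' u')
    {P : Ed → Prop} (hP : ∀ e, P e → (e ∈ A ↔ e ∈ A')) {z z' : ℤ × ℤ} (h : Jn D P z z') :
    u z - u z' = u' z - u' z' := by
  induction h with
  | refl => ring
  | @tail y z' _ h ih =>
    obtain ⟨e, h1, h2, h3⟩ := h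
    have e1 := hu e h1
    have e2 := hu' e h1
    have e3 : (if e ∈ A then (1:ℤ) else 0) = if e ∈ A' then 1 else 0 := by
      simp only [hP e h2]
    rw [e3] at e1
    rcases h3 with h3 | h3
    · rw [h3.1, h3.2] at e1 e2
      linarith
    · rw [h3.1, h3.2] at e1 e2
      linarith

theorem not_sep {A : Finset Ed} {P : Ed → Prop}
    (hP : ∀ e, P e → e ∉ A) {z z' : ℤ × ℤ} (h : Jn D P z z') : ¬ Sep D A z z' := by
  rintro ⟨u, hu, hne⟩
  exact hne (pot_jn hu hP h)

theorem sep_iff2 {A A' : Finset Ed} (hA : ∃ u, PotD D A u) (hA' : ∃ u, PotD D A' u)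
    {P : Ed → Prop} (hP : ∀ e, P e → (e ∈ A ↔ e ∈ A')) {z z' : ℤ × ℤ} (h : Jn D P z z') :
    Sep D A z z' ↔ Sep D A' z z' := by
  obtain ⟨v, hv⟩ := hA
  obtain ⟨v', hv'⟩ := hA'
  constructor
  · rintro ⟨u, hu, hne⟩
    exact ⟨v', hv', fun he => hne (by have := pot_jn2 hu hv' hP h; omega)⟩
  · rintro ⟨u, hu, hne⟩
    exact ⟨v, hv, fun he => hne (by have := pot_jn2 hv hu hP h; omega)⟩

/-- `z'` instead of `z`, if they are joined off the piece. -/
theorem sep_congr {A : Finset Ed} {P : Ed → Prop}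
    (hP : ∀ e, P e → e ∉ A) {z z' y : ℤ × ℤ} (h : Jn D P z z') :
    Sep D A z y ↔ Sep D A z' y := by
  constructor
  · rintro ⟨u, hu, hne⟩
    exact ⟨u, hu, by rw [← pot_jn hu hP h]; exact hne⟩
  · rintro ⟨u, hu, hne⟩
    exact ⟨u, hu, by rw [pot_jn hu hP h]; exact hne⟩

/-- The charge is joined to the base point outside the box of radius `m`. -/
def ChJ (D : Finset (ℤ × ℤ)) (b : ℤ × ℤ) (m : ℤ) (p : ℤ × ℤ) (f : ℤ × ℤ → ℝ) : Prop :=
  ∀ z ∈ sites D, f z ≠ 0 → Jn D (FarE D b m) z p

/-- Pieces have potentials. -/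
def HPot (D : Finset (ℤ × ℤ)) : Prop := ∀ ω : Cfg, ∀ A ∈ pcs ω D, ∃ u, PotD D A u

theorem mass_near (hJ : ChJ D b m p f) {A : Finset Ed} (hA : ¬ FarA D b m A) :
    mass D p f A = 0 := by
  classical
  unfold mass
  refine Finset.sum_eq_zero fun z hzD => ?_
  by_cases hz : f z = 0
  · rw [hz]; simp
  · rw [if_neg (not_sep (fun e he hm => hA ⟨e, hm, he⟩) (hJ z hzD hz))]

theorem mass_eq (hP : HPot D) (hJ : ChJ D b m p f) {A A' : Finset Ed} (hA : A ∈ pcs ω D)
    (hA' : A' ∈ pcs ω' D) (hAA : ∀ e, FarE D b m e → (e ∈ A ↔ e ∈ A')) :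
    mass D p f A = mass D p f A' := by
  classical
  unfold mass
  refine Finset.sum_congr rfl fun z hzD => ?_
  by_cases hz : f z = 0
  · rw [hz]; simp
  · simp only [sep_iff2 (hP _ _ hA) (hP _ _ hA') hAA (hJ z hzD hz)]

theorem wl_zero : wl 0 = 1 := by
  unfold wl
  rw [add_zero, div_self]
  rw [Real.cos_pi_div_three]; norm_num

theorem ws_zero : ws 0 = 1 := by
  unfold ws
  rw [add_zero, div_self]
  rw [Real.cos_pi_div_six]; positivity

theorem wp_zero (A : Finset Ed) : wp D A 0 = 1 := by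
  unfold wp
  split_ifs
  · exact wl_zero
  · exact ws_zero

/-- A piece on which the two configurations agree. -/
theorem mem_pcs_agr {A : Finset Ed} (hA : A ∈ pcs ω D)
    (h : ∀ e ∈ A, hdv e ∈ D → ω (hdv e) = ω' (hdv e)) : A ∈ pcs ω' D := by
  obtain ⟨e0, he0⟩ := pcs_nonempty hA
  have h0 := subset_eds hA he0
  have h1 : A = piece ω' D e0 := by
    ext e
    rw [mem_piece]
    constructor
    · intro he
      refine ⟨subset_eds hA he, eqvGen_iff.mpr ?_⟩
      have key : ∀ (x y : Ed) (k : ℕ), x ∈ A → Run ω D x k y → Run ω' D x k y := by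
        intro x y k
        induction k generalizing x with
        | zero => intro _ hr; exact ⟨hr.1, fun j hj => absurd hj (Nat.not_lt_zero _)⟩
        | succ k ih =>
          intro hx hr
          have hd : hdv x ∈ D := hr.2 0 (by omega)
          have h2 : nx ω' x = nx ω x := (nx_congr (h x hx hd)).symm
          have h3 := ih (nx ω x) ((nx_mem_iff hA hd).1 hx)
            ⟨by rw [← hr.1, Function.iterate_succ_apply], fun j hj => by
              have := hr.2 (j + 1) (by omega)
              rwa [Function.iterate_succ_apply] at this⟩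
          refine ⟨by rw [Function.iterate_succ_apply, h2]; exact h3.1, fun j hj => ?_⟩
          rcases Nat.eq_zero_or_pos j with hj0 | hj0
          · subst hj0; exact hd
          · obtain ⟨i, rfl⟩ : ∃ i, j = i + 1 := ⟨j - 1, by omega⟩
            rw [Function.iterate_succ_apply, h2]
            exact h3.2 i (by omega)
      obtain ⟨k, hk | hk⟩ := run_of_mem hA he0 he
      · exact ⟨k, Or.inl (key _ _ _ he0 hk)⟩
      · exact ⟨k, Or.inr (key _ _ _ he hk)⟩
    · rintro ⟨_, h2⟩
      have fw : ∀ (k : ℕ) (x y : Ed), x ∈ A → Run ω' D x k y → y ∈ A := by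
        intro k
        induction k with
        | zero => intro x y hx hr; rw [← hr.1]; exact hx
        | succ k ih =>
          intro x y hx hr
          have hd : hdv x ∈ D := hr.2 0 (by omega)
          have h2 : nx ω' x = nx ω x := (nx_congr (h x hx hd)).symm
          refine ih (nx ω' x) y (by rw [h2]; exact (nx_mem_iff hA hd).1 hx)
            ⟨by rw [← hr.1, Function.iterate_succ_apply], fun j hj => by
              have := hr.2 (j + 1) (by omega)
              rwa [Function.iterate_succ_apply] at this⟩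
      have bw : ∀ (k : ℕ) (x y : Ed), y ∈ A → Run ω' D x k y → x ∈ A := by
        intro k
        induction k with
        | zero => intro x y hy hr; have : x = y := hr.1; rw [this]; exact hy
        | succ k ih =>
          intro x y hy hr
          have hl := hr.2 k (by omega)
          have hy' : nx ω' ((nx ω')^[k] x) = y := by
            rw [← Function.iterate_succ_apply' (nx ω') k x]; exact hr.1
          have ht : tlv y = hdv ((nx ω')^[k] x) := by rw [← hy', tlv_nx]
          obtain ⟨y0, h3, h4, h5⟩ := pred_mem hA hy (by rw [ht]; exact hl)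
          have h6 : nx ω' y0 = y := by
            rw [← h4]
            exact (nx_congr (h y0 h3 (by rw [h5, ht]; exact hl))).symm
          have h7 : (nx ω')^[k] x = y0 := (s_nx ω').1 (hy'.trans h6.symm)
          exact ih x _ (by rw [h7]; exact h3) ⟨rfl, fun j hj => hr.2 j (by omega)⟩
      obtain ⟨k, hk | hk⟩ := eqvGen_iff.mp h2
      · exact fw _ _ _ he0 hk
      · exact bw _ _ _ he0 hk
  rw [h1]
  exact piece_mem_pcs h0

open Classical in
/-- The pieces which do not visit the inside. -/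
noncomputable def Ou (D : Finset (ℤ × ℤ)) (b : ℤ × ℤ) (a : ℤ) (ω : Cfg) : Finset (Finset Ed) :=
  (pcs ω D).filter fun A => ¬ VisI D b a A

open Classical in
/-- The pieces which visit the inside. -/
noncomputable def In (D : Finset (ℤ × ℤ)) (b : ℤ × ℤ) (a : ℤ) (ω : Cfg) : Finset (Finset Ed) :=
  (pcs ω D).filter fun A => VisI D b a A

theorem Ou_sub (h : Agr D b a ω ω') : Ou D b a ω ⊆ Ou D b a ω' := by
  classical
  intro A hA
  unfold Ou at hA ⊢
  rw [mem_filter] at hA ⊢
  refine ⟨mem_pcs_agr hA.1 fun e he hd => h _ hd ?_, hA.2⟩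
  by_contra hc
  push Not at hc
  exact hA.2 ⟨e, he, hd, hc⟩

theorem Ou_eq (h : Agr D b a ω ω') : Ou D b a ω = Ou D b a ω' :=
  Finset.Subset.antisymm (Ou_sub h) (Ou_sub h.symm)

/-- The product of the weights of the pieces which do not visit the inside. -/
noncomputable def PO (D : Finset (ℤ × ℤ)) (b : ℤ × ℤ) (a : ℤ) (p : ℤ × ℤ) (f : ℤ × ℤ → ℝ)
    (ω : Cfg) : ℝ := ∏ A ∈ Ou D b a ω, wp D A (mass D p f A)

theorem PO_eq (h : Agr D b a ω ω') : PO D b a p f ω = PO D b a p f ω' := by
  unfold PO; rw [Ou_eq h]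

theorem XD_split : XD D p f ω = PO D b a p f ω * ∏ A ∈ In D b a ω, wp D A (mass D p f A) := by
  classical
  unfold XD PO Ou In
  rw [mul_comm, Finset.prod_filter_mul_prod_filter_not]

theorem prod_near (hJ : ChJ D b m p f) {s : Finset (Finset Ed)} (hs : ∀ A ∈ s, ¬ FarA D b m A) :
    ∏ A ∈ s, wp D A (mass D p f A) = 1 :=
  Finset.prod_eq_one fun A hA => by rw [mass_near hJ (hs A hA), wp_zero]

/-- No crossing: the pieces which visit the inside have no weight. -/
theorem XD_no_cro (hF : Fl D b (m + 1)) (ham : a ≤ m) (hJ : ChJ D b m p f)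
    (h2 : ¬ TwoS b a m ω) : XD D p f ω = PO D b a p f ω := by
  classical
  rw [XD_split (a := a) (b := b), prod_near hJ, mul_one]
  intro A hA hf
  unfold In at hA
  rw [mem_filter] at hA
  obtain ⟨c, -, hc⟩ := exists_cro hF ham hA.1 hA.2 hf
  exact h2 ⟨c, hc⟩

/-- The piece of a crossing visits the inside and the outside. -/
theorem cro_vis (hF : Fl D b (m + 1)) (ham : a ≤ m) {c : Ed} (hc : Cro ω b a m c) :
    VisI D b a (piece ω D c) ∧ FarA D b m (piece ω D c) := by
  have hcD := cro_mem_eds hF ham hc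
  have hA : piece ω D c ∈ pcs ω D := piece_mem_pcs hcD
  have hcA := self_mem_piece (ω := ω) hcD
  rcases hc with hc | hc
  · obtain ⟨k, -, h1, h2, h3, h4, h5⟩ := croI_data hF ham hc
    obtain ⟨e0, h6, -, h7⟩ := pred_mem hA hcA h2
    refine ⟨⟨e0, h6, by rw [h7]; exact h2, by rw [h7]; exact h3⟩, (nx ω)^[k] c, ?_,
      Or.inl ⟨h4, h5⟩⟩
    exact (mem_of_run hA (run_mono (hA_sub hF) h1)).1 hcA
  · obtain ⟨k, -, h1, h2, h3, h4, h5⟩ := croO_data hF ham hc
    exact ⟨⟨_, (mem_of_run hA (run_mono (hA_sub hF) h1)).1 hcA, h4, h5⟩, c, hcA,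
      Or.inr ⟨h2, h3⟩⟩

/-- With one crossing, there is only one far piece which visits the inside. -/
theorem far_unique (hF : Fl D b (m + 1)) (ham : a ≤ m) (h3 : ¬ ThrS b a m ω) {c : Ed}
    (hc : Cro ω b a m c) {A : Finset Ed} (hA : A ∈ pcs ω D) (hv : VisI D b a A)
    (hf : FarA D b m A) : A = piece ω D c := by
  obtain ⟨c', h1, h2⟩ := exists_cro hF ham hA hv hf
  have : c' = c := by
    by_contra hne
    exact h3 ⟨c', c, hne, h2, hc⟩
  rw [this] at h1
  exact eq_piece_of_mem hA h1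

/-- A loop is periodic. -/
theorem loop_period {A : Finset Ed} (hA : A ∈ pcs ω D) (hl : IsLp D A) {c : Ed} (hc : c ∈ A) :
    (∀ j, (nx ω)^[j] c ∈ A) ∧ ∃ N, 1 ≤ N ∧ (nx ω)^[N] c = c := by
  have hin : ∀ n : ℕ, (nx ω)^[n] c ∈ A := by
    intro n
    induction n with
    | zero => exact hc
    | succ n ih =>
      rw [Function.iterate_succ_apply']
      exact (nx_mem_iff hA (hl _ ih)).mp ih
  refine ⟨hin, ?_⟩
  obtain ⟨m, n, hmn, h1⟩ : ∃ m n : ℕ, m < n ∧ (nx ω)^[m] c = (nx ω)^[n] c := by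
    by_contra hcon
    push Not at hcon
    have hinj : Function.Injective fun n : ℕ => (⟨(nx ω)^[n] c, hin n⟩ : A) := by
      intro m n hmn
      have hmn' : (nx ω)^[m] c = (nx ω)^[n] c := congrArg Subtype.val hmn
      rcases lt_trichotomy m n with h | h | h
      · exact absurd hmn' (hcon m n h)
      · exact h
      · exact absurd hmn'.symm (hcon n m h)
    exact not_injective_infinite_finite _ hinj
  refine ⟨n - m, by omega, ?_⟩
  apply (s_nx ω).1.iterate m
  rw [← Function.iterate_add_apply, Nat.add_sub_cancel' hmn.le]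
  exact h1.symm

/-- With one crossing, its piece is a strand. -/
theorem cro_strand (hF : Fl D b (m + 1)) (ham : a ≤ m) (h3 : ¬ ThrS b a m ω) {c : Ed}
    (hc : Cro ω b a m c) : ¬ IsLp D (piece ω D c) := by
  intro hl
  have hcD := cro_mem_eds hF ham hc
  have hA : piece ω D c ∈ pcs ω D := piece_mem_pcs hcD
  have hcA := self_mem_piece (ω := ω) hcD
  obtain ⟨hin, N, hN1, hN⟩ := loop_period hA hl hcA
  have hD : ∀ j, hdv ((nx ω)^[j] c) ∈ D := fun j => hl _ (hin j)
  have hper : ∀ j : ℕ, (nx ω)^[N * j] c = c := by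
    intro j
    induction j with
    | zero => simp
    | succ j ih => rw [Nat.mul_succ, Function.iterate_add_apply, hN, ih]
  have huniq : ∀ c', Cro ω b a m c' → c' = c := fun c' hc' => by
    by_contra hne
    exact h3 ⟨c', c, hne, hc', hc⟩
  have hlast : ∀ k : ℕ, ∃ i, k ≤ i ∧ hdv ((nx ω)^[i] c) = tlv c := by
    intro k
    have h1 : k + 1 ≤ N * (k + 1) := Nat.le_mul_of_pos_left _ (by omega)
    refine ⟨N * (k + 1) - 1, by omega, ?_⟩
    have h2 : (nx ω) ((nx ω)^[N * (k + 1) - 1] c) = c := by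
      rw [← Function.iterate_succ_apply' (nx ω), show (N * (k + 1) - 1).succ = N * (k + 1) by omega]
      exact hper _
    rw [← tlv_nx ω, h2]
  rcases hc with hc | hc
  · obtain ⟨k, -, -, -, h4, -, h5⟩ := croI_data hF ham hc
    obtain ⟨i, hi, h6⟩ := hlast k
    obtain ⟨j, -, hcj⟩ := croO_of_run (ω := ω) (e := (nx ω)^[k] c) (k := i - k) hF ham
      (fun l _ => by rw [← Function.iterate_add_apply]; exact hD _) h5 (by
      rw [← Function.iterate_add_apply, Nat.sub_add_cancel hi, h6]; exact h4)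
    exact croI_ne_croO ham hc hcj (huniq _ (Or.inr hcj)).symm
  · obtain ⟨k, -, -, -, h4, -, h5⟩ := croO_data hF ham hc
    obtain ⟨i, hi, h6⟩ := hlast k
    obtain ⟨j, -, hcj⟩ := croI_of_run (ω := ω) (e := (nx ω)^[k] c) (k := i - k) hF ham
      (fun l _ => by rw [← Function.iterate_add_apply]; exact hD _) h5 (by
      rw [← Function.iterate_add_apply, Nat.sub_add_cancel hi, h6]; exact h4)
    exact croI_ne_croO ham hcj hc (huniq _ (Or.inl hcj))

open Classical in
theorem prod_In (hF : Fl D b (m + 1)) (ham : a ≤ m) (hJ : ChJ D b m p f) (h3 : ¬ ThrS b a m ω)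
    {c : Ed} (hc : Cro ω b a m c) :
    ∏ A ∈ In D b a ω, wp D A (mass D p f A) = ws (mass D p f (piece ω D c)) := by
  have hcD := cro_mem_eds hF ham hc
  have hA : piece ω D c ∈ pcs ω D := piece_mem_pcs hcD
  have h1 : piece ω D c ∈ In D b a ω := by
    unfold In
    rw [mem_filter]
    exact ⟨hA, (cro_vis hF ham hc).1⟩
  rw [← Finset.mul_prod_erase _ _ h1, prod_near hJ, mul_one]
  · unfold wp
    rw [if_neg (cro_strand hF ham h3 hc)]
  · intro A hA' hf
    rw [mem_erase] at hA'
    unfold In at hA'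
    rw [mem_filter] at hA'
    exact hA'.1 (far_unique hF ham h3 hc hA'.2.1 hA'.2.2 hf)

/-- One crossing: the value of the functional. -/
theorem XD_one_cro (hF : Fl D b (m + 1)) (ham : a ≤ m) (hJ : ChJ D b m p f)
    (h3 : ¬ ThrS b a m ω) {c : Ed} (hc : Cro ω b a m c) :
    XD D p f ω = PO D b a p f ω * ws (mass D p f (piece ω D c)) := by
  rw [XD_split (a := a) (b := b), prod_In hF ham hJ h3 hc]

theorem mass_cro (hF : Fl D b (m + 1)) (ham : a ≤ m) (hP : HPot D) (hJ : ChJ D b m p f)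
    (hag : Agr D b a ω ω') (h3 : ¬ ThrS b a m ω) {c : Ed} (hc : Cro ω b a m c) :
    mass D p f (piece ω D c) = mass D p f (piece ω' D c) := by
  have hcD := cro_mem_eds hF ham hc
  exact mass_eq hP hJ (piece_mem_pcs hcD) (piece_mem_pcs hcD)
    fun e he => far_mem_iff hF ham hag h3 hc he

/-- **Locality**: with at most one crossing the functional does not depend on the inside. -/
theorem XD_agr (hF : Fl D b (m + 1)) (ham : a ≤ m) (hP : HPot D) (hJ : ChJ D b m p f)
    (hag : Agr D b a ω ω') (h3 : ¬ ThrS b a m ω) : XD D p f ω = XD D p f ω' := by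
  have hh := hag.hA hF
  by_cases h2 : TwoS b a m ω
  · obtain ⟨c, hc⟩ := h2
    rw [XD_one_cro hF ham hJ h3 hc, XD_one_cro hF ham hJ (by rwa [← thrS_congr hh])
      ((cro_congr hh).1 hc), PO_eq hag, mass_cro hF ham hP hJ hag h3 hc]
  · rw [XD_no_cro hF ham hJ h2, XD_no_cro hF ham hJ (by rwa [← twoS_congr hh]), PO_eq hag]

end Vale.Agent.P167.H365
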