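import Vale.Agent.P167.H365.NChain
import Vale.Agent.P167.H318.Defs
import Vale.Agent.P167.H167.Equi

/-!
# P167, block N-RED: the statement (bottom case, flat side at height `0`)
-/

namespace Vale.Agent.P167.H365

open Finset MeasureTheory Vale.Agent.P167.BR
open Vale.Agent.P167.H167 (WD)

/-- **N-RED**: the averaged Neumann condition at a horizontal flat side at height `0`, domain
above. -/
def NRED (K : ℤ) : Prop := ∀ ε : ℝ, 0 < ε → ∃ κ : ℝ, 0 < κ ∧ ∀ (R : ℤ) (D : Finset (ℤ × ℤ))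
  (p : ℤ × ℤ) (f : ℤ × ℤ → ℝ) (M : ℝ), H318.CoConn D → ∀ (a b : ℤ) (k : ℕ) (φ : ℤ → ℝ), a ≤ b → 1 ≤ k →
  (k : ℝ) ≤ κ * R → (∀ x ∈ Icc a b, Env K R D p f M (x, 0)) → (∀ x, |φ x| ≤ 1) →
  (∀ x x' : ℤ, |φ x - φ x'| ≤ |(x : ℝ) - x'| / R) → (∀ x, φ x ≠ 0 → a + R ≤ x ∧ x ≤ b - R) →
  |∑ x ∈ Icc a b, φ x * (WD D p f (x, k) - WD D p f (x, 0))| ≤
    ε * k * ((M + 1) * (((b - a : ℤ) : ℝ) / R + 1))

end Vale.Agent.P167.H365
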