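import Vale.Agent.P167.H365.NNear4
import Vale.Agent.P167.H365.NInt
import Vale.Agent.P167.H318.MK

/-!
# P167, block N-RED: the far part (deterministic part)
-/

namespace Vale.Agent.P167.H365

open Finset MeasureTheory ProbabilityTheory Vale.Agent.P167.BR Vale.Agent.P167.H542
open Vale.Agent.P167.H318 (st ex hit wt J St)

variable {D : Finset (ℤ × ℤ)} {b p x y u c : ℤ × ℤ} {a m R r L K : ℤ} {ω ω' : Cfg}
  {f : ℤ × ℤ → ℝ} {M : ℝ} {A : Finset Ed} {ψ : ℤ → ℝ} {k : ℕ} {e0 : Ed}

/-! ### The observable as a sum over a piece -/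

/-- The sum of the weights over a set of edges. -/
noncomputable def Wt (ψ : ℤ → ℝ) (k : ℕ) (A : Finset Ed) : ℝ := ∑ e ∈ A, wt ψ k e

theorem sum_Jx {X : Finset ℤ} (hX : ∀ x, ψ x ≠ 0 → x ∈ X) (A : Finset Ed) :
    ∑ x ∈ X, ψ x * (Jx A x 0 k : ℝ) = Wt ψ k A := by
  classical
  unfold Wt
  have key : ∀ e : Ed, wt ψ k e = ∑ q ∈ X ×ˢ range k,
      if e = Sum.inl (q.1 - 1, (q.2 : ℤ)) then ψ q.1 * (sg e : ℝ) else 0 := by
    intro e
    rcases e with v | v
    · show (if 0 ≤ v.2 ∧ v.2 < k then ψ (v.1 + 1) * (sg (Sum.inl v) : ℝ) else 0) = _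
      by_cases h : (0 ≤ v.2 ∧ v.2 < k) ∧ ψ (v.1 + 1) ≠ 0
      · obtain ⟨⟨h1, h2⟩, h3⟩ := h
        rw [if_pos ⟨h1, h2⟩, Finset.sum_eq_single (v.1 + 1, v.2.toNat)]
        · have e1 : ((v.2.toNat : ℕ) : ℤ) = v.2 := Int.toNat_of_nonneg h1
          rw [if_pos]
          simp only [e1, add_sub_cancel_right]
        · intro q _ hne
          rw [if_neg]
          intro h4
          apply hne
          simp only [Sum.inl.injEq] at h4
          ext
          · have := congrArg Prod.fst h4; simp only at this ⊢; omega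
          · have := congrArg Prod.snd h4; simp only at this ⊢; omega
        · intro h4
          exfalso
          apply h4
          rw [mem_product, mem_range]
          exact ⟨hX _ h3, by simp only; omega⟩
      · have h0 : (if 0 ≤ v.2 ∧ v.2 < k then ψ (v.1 + 1) * (sg (Sum.inl v) : ℝ) else 0) = 0 := by
          by_cases h1 : 0 ≤ v.2 ∧ v.2 < k
          · rw [if_pos h1]
            have : ψ (v.1 + 1) = 0 := by
              by_contra h3
              exact h ⟨h1, h3⟩
            rw [this, zero_mul]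
          · rw [if_neg h1]
        rw [h0]
        symm
        refine Finset.sum_eq_zero fun q hq => ?_
        rw [mem_product, mem_range] at hq
        by_cases h4 : (Sum.inl v : Ed) = Sum.inl (q.1 - 1, (q.2 : ℤ))
        · rw [if_pos h4]
          simp only [Sum.inl.injEq] at h4
          have h5 := congrArg Prod.fst h4
          have h6 := congrArg Prod.snd h4
          simp only at h5 h6
          have h7 : ψ q.1 = 0 := by
            by_contra h8
            exact h ⟨⟨by omega, by omega⟩, by rw [h5, sub_add_cancel]; exact h8⟩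
          rw [h7, zero_mul]
        · rw [if_neg h4]
    · show (0 : ℝ) = _
      symm
      refine Finset.sum_eq_zero fun q _ => ?_
      rw [if_neg (by simp)]
  simp only [key]
  rw [Finset.sum_comm, Finset.sum_product]
  refine Finset.sum_congr rfl fun x _ => ?_
  unfold Jx
  push_cast
  rw [Finset.mul_sum]
  refine Finset.sum_congr rfl fun j _ => ?_
  rw [Finset.sum_ite_eq' A]
  simp only [zero_add, sg]
  split_ifs <;> simp

/-- The strand from `e0` is the piece of `e0`. -/
theorem mem_piece_st (h0 : tlv e0 ∉ D) (he : e0 ∈ eds D) {e : Ed} :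
    e ∈ piece ω D e0 ↔ ∃ i ≤ ex D e0 ω, st e0 ω i = e := by
  have hA : piece ω D e0 ∈ pcs ω D := piece_mem_pcs he
  have hs := self_mem_piece (ω := ω) he
  constructor
  · intro h
    obtain ⟨l, hl | hl⟩ := run_of_mem hA hs h
    · exact ⟨l, H318.Bs.le_ex h0 hl.2, hl.1⟩
    · rcases Nat.eq_zero_or_pos l with h1 | h1
      · subst h1
        exact ⟨0, Nat.zero_le _, hl.1.symm⟩
      · exfalso
        apply h0
        obtain ⟨n, rfl⟩ : ∃ n, l = n + 1 := ⟨l - 1, by omega⟩
        rw [← hl.1, Function.iterate_succ_apply', tlv_nx]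
        exact hl.2 n (by omega)
  · rintro ⟨i, hi, rfl⟩
    exact (mem_of_run hA (⟨rfl, fun j hj => H318.Bs.ex_min (by omega)⟩ :
      Run ω D e0 i (st e0 ω i))).1 hs

theorem J_eq (h0 : tlv e0 ∉ D) (he : e0 ∈ eds D)
    (hw : wt ψ k (st e0 ω (ex D e0 ω)) = 0) : J D e0 ψ k ω = Wt ψ k (piece ω D e0) := by
  classical
  have h1 : piece ω D e0 = (range (ex D e0 ω + 1)).image (st e0 ω) := by
    ext e
    rw [mem_piece_st h0 he, mem_image]
    constructor
    · rintro ⟨i, hi, h⟩
      exact ⟨i, mem_range.2 (by omega), h⟩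
    · rintro ⟨i, hi, h⟩
      exact ⟨i, by have := mem_range.1 hi; omega, h⟩
  unfold Wt J
  rw [h1, Finset.sum_image, Finset.sum_range_succ, hw, add_zero]
  intro i hi j hj hij
  have hi' := mem_range.1 (Finset.mem_coe.1 hi)
  have hj' := mem_range.1 (Finset.mem_coe.1 hj)
  by_contra hne
  rcases lt_or_gt_of_ne hne with h | h
  · exact H318.Bs.st_inj h0 h (fun l hl => H318.Bs.ex_min (by omega)) hij
  · exact H318.Bs.st_inj h0 h (fun l hl => H318.Bs.ex_min (by omega)) hij.symm

/-- The functional `J` depends on the squares of `D` only. -/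
theorem J_congr (h0 : tlv e0 ∉ D) (h : ∀ v ∈ D, ω v = ω' v) : J D e0 ψ k ω = J D e0 ψ k ω' := by
  have h1 := H318.Bs.st_hit_congr (ξ := ω) (ξ' := ω') (A := ∅) h0 fun q hq _ => (h q hq).symm
  unfold J
  have h2 : ex D e0 ω' = ex D e0 ω := h1.2
  rw [h2]
  refine Finset.sum_congr rfl fun i hi => ?_
  have := h1.1 i (by
    have := mem_range.1 hi
    exact this.le)
  rw [this]

/-- A weight is nonzero only for edges between two squares near the support. -/
theorem wt_zero_of_not {w : ℤ} (hF : Fl D u (w + k + 1)) (hu : u.2 = 0)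
    (hψ : ∀ x, ψ x ≠ 0 → |x - u.1| ≤ w) {e : Ed} (h : hdv e ∉ D ∨ tlv e ∉ D) :
    wt ψ k e = 0 := by
  rcases e with ⟨v1, v2⟩ | v
  · show (if 0 ≤ v2 ∧ v2 < k then ψ (v1 + 1) * (sg (Sum.inl (v1, v2)) : ℝ) else 0) = 0
    by_cases h1 : 0 ≤ v2 ∧ v2 < k
    · rw [if_pos h1]
      by_cases h2 : ψ (v1 + 1) = 0
      · rw [h2, zero_mul]
      · exfalso
        have h3 := hψ _ h2
        rw [abs_le] at h3
        have hm1 : (v1, v2) ∈ D := (hF _ (by
          rw [nm_le']
          simp only [Prod.fst_sub, Prod.snd_sub]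
          omega)).2 (by simp only; omega)
        have hm2 : (v1 + 1, v2) ∈ D := (hF _ (by
          rw [nm_le']
          simp only [Prod.fst_sub, Prod.snd_sub]
          omega)).2 (by simp only; omega)
        by_cases hp : Even (v1 + v2) <;> simp only [hdv, tlv, hp, if_true, if_false] at h <;>
          tauto
    · rw [if_neg h1]
  · rfl

/-! ### Geometry -/

theorem Env.jt (E : Env K R D p f M u) {z : ℤ × ℤ} (hz : z ∈ sites D) : Jt D z p := by
  have hR := E.R1
  refine Jn.mono (P := fun e => 1 < nm (hdv e - (|z.1| + |p.1| + K + 1, (0 : ℤ))))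
    (fun _ _ => trivial) (E.gf (|z.1| + |p.1| + K + 1, 0) 1 le_rfl (by omega) z hz ?_ ?_)
  · unfold nm
    refine lt_max_of_lt_left ?_
    simp only [Prod.fst_sub]
    have := le_abs_self z.1
    have := abs_nonneg p.1
    rw [lt_abs]
    right
    omega
  · unfold nm
    refine lt_max_of_lt_left ?_
    simp only [Prod.fst_sub]
    have := le_abs_self p.1
    have := abs_nonneg z.1
    rw [lt_abs]
    right
    omega

theorem farE_inr {x y : ℤ} (h : (x, y + 1) ∈ D) (h' : m < nm ((x, y + 1) - b)) :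
    FarE D b m (Sum.inr (x, y)) := by
  unfold FarE
  by_cases hp : Even (x + y) <;> simp only [hdv, tlv, hp, if_true, if_false]
  · exact Or.inr ⟨h, h'⟩
  · exact Or.inl ⟨h, h'⟩

theorem farE_inl {x y : ℤ} (h : (x + 1, y) ∈ D) (h' : m < nm ((x + 1, y) - b)) :
    FarE D b m (Sum.inl (x, y)) := by
  unfold FarE
  by_cases hp : Even (x + y) <;> simp only [hdv, tlv, hp, if_true, if_false]
  · exact Or.inl ⟨h, h'⟩
  · exact Or.inr ⟨h, h'⟩

theorem nm_ge_fst {v : ℤ × ℤ} : |v.1| ≤ nm v := le_max_left _ _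

theorem nm_ge_snd {v : ℤ × ℤ} : |v.2| ≤ nm v := le_max_right _ _

/-- The corners of the far squares near the ring are joined to `p`. -/
theorem Env.jn_ring (E : Env K R D p f M u) (h0 : 0 ≤ m) (hm : m + 1 ≤ R) {v z : ℤ × ℤ}
    (hv : v ∈ D) (h1 : m < nm (v - u)) (h2 : nm (v - u) ≤ R)
    (hz1 : z.1 = v.1 ∨ z.1 = v.1 + 1) (hz2 : z.2 = v.2 ∨ z.2 = v.2 + 1) :
    Jn D (FarE D u m) z p := by
  have hK := E.one_le
  have hR := E.R1
  have hKR := E.KR
  have hv2 : u.2 ≤ v.2 := (E.fl v (by nlinarith)).1 hv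
  have h2' := nm_le'.1 h2
  simp only [Prod.fst_sub, Prod.snd_sub] at h2'
  have hKm : K * (m + 1) ≤ K * R := mul_le_mul_of_nonneg_left hm (by omega)
  obtain ⟨n, hn⟩ : ∃ n : ℕ, (n : ℤ) = K * R + 1 := ⟨(K * R + 1).toNat, by
    rw [Int.toNat_of_nonneg (by omega)]⟩
  have hbd : K * R + 1 + R + 2 ≤ 8 * K * R := by nlinarith
  have hin : ∀ s : ℤ × ℤ, nm (s - u) ≤ K * R + 1 + R + 2 → u.2 ≤ s.2 → s ∈ D := fun s h3 h4 =>
    (E.fl s (by omega)).2 h4
  have hnu : nm (u - u) ≤ R := by
    have : nm (u - u) = 0 := by simp [nm]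
    omega
  have fin : ∀ z' : ℤ × ℤ, z' ∈ sites D → K * (m + 1) < nm (z' - u) →
      Jn D (FarE D u m) z' p := fun z' h3 h4 => E.jn hnu h0 (by omega) h3 h4
  obtain ⟨z1, z2⟩ := z
  simp only at hz1 hz2
  by_cases c1 : m + 1 ≤ z1 - u.1
  · -- to the right
    refine Jn.trans (jn_right n fun j hj => ?_) (fin (z1 + n, z2) ?_ ?_)
    · have h3 : (z1 + (j : ℤ), z2) ∈ D := hin _ (by
        rw [nm_le']; simp only [Prod.fst_sub, Prod.snd_sub]; omega) (by simp only; omega)
      have h4 : m < nm ((z1 + (j : ℤ), z2) - u) := by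
        have := nm_ge_fst (v := (z1 + (j : ℤ), z2) - u)
        simp only [Prod.fst_sub] at this
        have := le_abs_self (z1 + (j : ℤ) - u.1)
        omega
      have h5 : FarE D u m (Sum.inr (z1 + (j : ℤ), z2 - 1)) := farE_inr
        (by rw [sub_add_cancel]; exact h3) (by rw [sub_add_cancel]; exact h4)
      exact ⟨h5.mem_eds, h5⟩
    · exact mem_sites_self (hin _ (by
        rw [nm_le']; simp only [Prod.fst_sub, Prod.snd_sub]; omega) (by simp only; omega))
    · have := nm_ge_fst (v := (z1 + (n : ℤ), z2) - u)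
      simp only [Prod.fst_sub] at this
      have := le_abs_self (z1 + (n : ℤ) - u.1)
      omega
  · by_cases c2 : m ≤ u.1 - z1
    · -- to the left
      have h6 : Jn D (FarE D u m) (z1 - n, z2) (z1, z2) := by
        have := jn_right (D := D) (P := FarE D u m) (x := z1 - n) (y := z2) n fun j hj => ?_
        · rwa [sub_add_cancel] at this
        · have h3 : (z1 - n + (j : ℤ), z2) ∈ D := hin _ (by
            rw [nm_le']; simp only [Prod.fst_sub, Prod.snd_sub]; omega) (by simp only; omega)
          have h4 : m < nm ((z1 - n + (j : ℤ), z2) - u) := by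
            have := nm_ge_fst (v := (z1 - n + (j : ℤ), z2) - u)
            simp only [Prod.fst_sub] at this
            have := neg_abs_le (z1 - n + (j : ℤ) - u.1)
            omega
          have h5 : FarE D u m (Sum.inr (z1 - n + (j : ℤ), z2 - 1)) := farE_inr
            (by rw [sub_add_cancel]; exact h3) (by rw [sub_add_cancel]; exact h4)
          exact ⟨h5.mem_eds, h5⟩
      refine Jn.trans (Jn.symm h6) (fin (z1 - n, z2) ?_ ?_)
      · exact mem_sites_self (hin _ (by
          rw [nm_le']; simp only [Prod.fst_sub, Prod.snd_sub]; omega) (by simp only; omega))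
      · have := nm_ge_fst (v := (z1 - (n : ℤ), z2) - u)
        simp only [Prod.fst_sub] at this
        have := neg_abs_le (z1 - (n : ℤ) - u.1)
        omega
    · -- up
      have c3 : m + 1 ≤ z2 - u.2 := by
        by_contra c3
        have : nm (v - u) ≤ m := by
          rw [nm_le']; simp only [Prod.fst_sub, Prod.snd_sub]; omega
        omega
      refine Jn.trans (jn_up n fun j hj => ?_) (fin (z1, z2 + n) ?_ ?_)
      · have h3 : (z1, z2 + (j : ℤ)) ∈ D := hin _ (by
          rw [nm_le']; simp only [Prod.fst_sub, Prod.snd_sub]; omega) (by simp only; omega)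
        have h4 : m < nm ((z1, z2 + (j : ℤ)) - u) := by
          have := nm_ge_snd (v := (z1, z2 + (j : ℤ)) - u)
          simp only [Prod.snd_sub] at this
          have := le_abs_self (z2 + (j : ℤ) - u.2)
          omega
        have h5 : FarE D u m (Sum.inl (z1 - 1, z2 + (j : ℤ))) := farE_inl
          (by rw [sub_add_cancel]; exact h3) (by rw [sub_add_cancel]; exact h4)
        exact ⟨h5.mem_eds, h5⟩
      · exact mem_sites_self (hin _ (by
          rw [nm_le']; simp only [Prod.fst_sub, Prod.snd_sub]; omega) (by simp only; omega))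
      · have := nm_ge_snd (v := (z1, z2 + (n : ℤ)) - u)
        simp only [Prod.snd_sub] at this
        have := le_abs_self (z2 + (n : ℤ) - u.2)
        omega

end Vale.Agent.P167.H365
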