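import Vale.Agent.P167.H365.NMir

/-!
# P167, block N-RED: the far part is the term of one strand; the term does not depend on the inside
-/

namespace Vale.Agent.P167.H365

open Finset MeasureTheory ProbabilityTheory Vale.Agent.P167.BR Vale.Agent.P167.H542
open Vale.Agent.P167.H318 (st ex hit wt J St)

variable {D : Finset (ℤ × ℤ)} {b p x y u c : ℤ × ℤ} {a m R r L K w : ℤ} {ω ω' : Cfg}
  {f : ℤ × ℤ → ℝ} {M : ℝ} {A : Finset Ed} {ψ : ℤ → ℝ} {k : ℕ} {e0 : Ed}

open Classical in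
/-- `1` if `p` is on the right of `A`, `-1` if it is on the left. -/
noncomputable def sgA (D : Finset (ℤ × ℤ)) (p : ℤ × ℤ) (A : Finset Ed) : ℝ :=
  if ∃ u, PotD D A u ∧ ∃ e ∈ A, u p = u (rs e) then 1 else -1

theorem abs_sgA : |sgA D p A| = 1 := by
  unfold sgA; split_ifs <;> simp

theorem sgA_eq (hA : A ∈ pcs ω D) {e : Ed} (he : e ∈ A) : sgA D p A = sgn D p A e := by
  unfold sgA sgn
  have h1 : (∃ u, PotD D A u ∧ ∃ e ∈ A, u p = u (rs e)) ↔ ∃ u, PotD D A u ∧ u p = u (rs e) := by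
    constructor
    · rintro ⟨v, hv, e', he', h⟩
      exact ⟨v, hv, by rw [h]; exact pot_along hA hv he he'⟩
    · rintro ⟨v, hv, h⟩
      exact ⟨v, hv, e, he, h⟩
  by_cases h2 : ∃ u, PotD D A u ∧ u p = u (rs e)
  · rw [if_pos h2, if_pos (h1.2 h2)]
  · rw [if_neg h2, if_neg fun h3 => h2 (h1.1 h3)]

/-- The parameters of a cell. -/
structure Cell (K R : ℤ) (D : Finset (ℤ × ℤ)) (p : ℤ × ℤ) (f : ℤ × ℤ → ℝ) (M : ℝ) (u : ℤ × ℤ)
    (k : ℕ) (w a m : ℤ) : Prop where
  env : Env K R D p f M u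
  u2 : u.2 = 0
  k1 : 1 ≤ k
  wk : w + k + 1 ≤ a
  w0 : 0 ≤ w
  am : a ≤ m
  mR : m + 1 ≤ R

namespace Cell

theorem fl (C : Cell K R D p f M u k w a m) (hr : r ≤ 7 * R) : Fl D u r := by
  refine C.env.fl' ?_ rfl hr
  have : nm (u - u) = 0 := by simp [nm]
  have := C.env.R1
  omega

theorem hF (C : Cell K R D p f M u k w a m) : Fl D u (m + 1) := C.fl (by
  have := C.mR; have := C.env.R1; omega)

theorem chJ (C : Cell K R D p f M u k w a m) : ChJ D u m p f := by
  refine C.env.chJ ?_ ?_ ?_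
  · have : nm (u - u) = 0 := by simp [nm]
    have := C.env.R1
    omega
  · have := C.am; have := C.wk; have := C.w0; omega
  · have := C.mR; omega

theorem mem (C : Cell K R D p f M u k w a m) {v : ℤ × ℤ} (h1 : nm (v - u) ≤ a) (h2 : 0 ≤ v.2) :
    v ∈ D := (C.fl (r := a) (by have := C.mR; have := C.am; have := C.env.R1; omega) v h1).2
      (by rw [C.u2]; exact h2)

/-- A piece which is seen at `x` visits the inside. -/
theorem vis (C : Cell K R D p f M u k w a m) {x : ℤ} (hx : |x - u.1| ≤ w)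
    (h : dl D p (x, 0 + (k : ℤ)) (x, 0) A ≠ 0) : VisI D u a A ∧ VisI D (x, 0) (k + 1) A := by
  have hk := C.k1
  have h0 := C.wk
  have hu2 := C.u2
  have hmR := C.mR
  have ham := C.am
  have hR := C.env.R1
  have hw0 := C.w0
  have hxu : nm (((x, 0) : ℤ × ℤ) - u) ≤ w := by
    rw [nm_le']
    simp only [Prod.fst_sub, Prod.snd_sub, hu2]
    rw [abs_le] at hx
    omega
  have hFx : Fl D (x, 0) (k + 1) := C.env.fl' (by omega) hu2.symm (by omega)
  have h1 := dl_vis (y0 := 0) C.k1 hFx h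
  refine ⟨?_, h1⟩
  obtain ⟨e, he, hd, h2⟩ := h1
  refine ⟨e, he, hd, ?_⟩
  have := nm_tri (hdv e) (x, 0) u
  omega

theorem far_no_cro (C : Cell K R D p f M u k w a m) (h2 : ¬ TwoS u a m ω) {x : ℤ}
    (hx : |x - u.1| ≤ w) : Ff D p u m f (x, 0 + (k : ℤ)) (x, 0) ω = 0 := by
  classical
  unfold Ff
  refine Finset.sum_eq_zero fun A hA => ?_
  rw [mem_filter] at hA
  by_cases h : dl D p (x, 0 + (k : ℤ)) (x, 0) A = 0
  · rw [h, mul_zero]
  · exfalso
    obtain ⟨c, -, hc⟩ := exists_cro C.hF C.am hA.1 (C.vis hx h).1 hA.2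
    exact h2 ⟨c, hc⟩

theorem far_cro (C : Cell K R D p f M u k w a m) (h3 : ¬ ThrS u a m ω) {c : Ed}
    (hc : Cro ω u a m c) {x : ℤ} (hx : |x - u.1| ≤ w) :
    Ff D p u m f (x, 0 + (k : ℤ)) (x, 0) ω = (TA D p f ω (piece ω D c) *
      sgA D p (piece ω D c)) * (Jx (piece ω D c) x 0 k : ℝ) := by
  classical
  have hk := C.k1
  have h0 := C.wk
  have hu2 := C.u2
  have hmR := C.mR
  have ham := C.am
  have hR := C.env.R1
  have hw0 := C.w0
  have hcD := cro_mem_eds C.hF C.am hc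
  have hA : piece ω D c ∈ pcs ω D := piece_mem_pcs hcD
  have hcA := self_mem_piece (ω := ω) hcD
  have hsum : Ff D p u m f (x, 0 + (k : ℤ)) (x, 0) ω =
      TA D p f ω (piece ω D c) * dl D p (x, 0 + (k : ℤ)) (x, 0) (piece ω D c) := by
    unfold Ff
    refine Finset.sum_eq_single (piece ω D c) ?_ ?_
    · intro A hA' hne
      rw [mem_filter] at hA'
      by_cases h : dl D p (x, 0 + (k : ℤ)) (x, 0) A = 0
      · rw [h, mul_zero]
      · exact absurd (far_unique C.hF C.am h3 hc hA'.1 (C.vis hx h).1 hA'.2) hne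
    · intro h
      exact absurd (mem_filter.2 ⟨hA, (cro_vis C.hF C.am hc).2⟩) h
  rw [hsum]
  obtain ⟨v, hv⟩ := C.env.pot ω _ hA
  have hxs : ∀ j : ℤ, 0 ≤ j → j ≤ k → (x, 0 + j) ∈ D := fun j hj1 hj2 => C.mem (by
    rw [nm_le']
    simp only [Prod.fst_sub, Prod.snd_sub, hu2]
    rw [abs_le] at hx
    omega) (by simp only; omega)
  have hps : Jt D p (rs c) := Jn.symm (C.env.jt (rs_mem_sites hcD))
  have hz1 : Jt D (x, 0 + (k : ℤ)) (rs c) := Jn.trans (C.env.jt (mem_sites_self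
    (hxs k (by omega) le_rfl))) hps
  have hz2 : Jt D (x, 0) (rs c) := Jn.trans (C.env.jt (mem_sites_self (by
    have := hxs 0 le_rfl (by omega)
    simpa using this))) hps
  have hpu : v (x, 0 + (k : ℤ)) - v (x, 0) = Jx (piece ω D c) x 0 k := by
    refine pot_up hv k fun j hj => ?_
    rw [mem_eds_inl]
    refine Or.inr ?_
    rw [sub_add_cancel]
    exact hxs j (by omega) (by omega)
  rw [dl_eq hA hv hcA hps hz1 hz2, sgA_eq hA hcA, hpu]
  ring

/-- The far part of a cell. -/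
theorem far_sum (C : Cell K R D p f M u k w a m) (h3 : ¬ ThrS u a m ω) {c : Ed}
    (hc : Cro ω u a m c) {X : Finset ℤ} (hX : ∀ x, ψ x ≠ 0 → x ∈ X)
    (hψ : ∀ x, ψ x ≠ 0 → |x - u.1| ≤ w) :
    ∑ x ∈ X, ψ x * Ff D p u m f (x, 0 + (k : ℤ)) (x, 0) ω = (TA D p f ω (piece ω D c) *
      sgA D p (piece ω D c)) * Wt ψ k (piece ω D c) := by
  rw [← sum_Jx hX, Finset.mul_sum]
  refine Finset.sum_congr rfl fun x _ => ?_
  by_cases h : ψ x = 0
  · rw [h]; ring
  · rw [C.far_cro h3 hc (hψ x h)]; ring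

theorem far_sum_zero (C : Cell K R D p f M u k w a m) (h2 : ¬ TwoS u a m ω) {X : Finset ℤ}
    (hψ : ∀ x, ψ x ≠ 0 → |x - u.1| ≤ w) :
    ∑ x ∈ X, ψ x * Ff D p u m f (x, 0 + (k : ℤ)) (x, 0) ω = 0 := by
  refine Finset.sum_eq_zero fun x _ => ?_
  by_cases h : ψ x = 0
  · rw [h]; ring
  · rw [C.far_no_cro h2 (hψ x h)]; ring

/-- A far edge of the piece of a crossing, with a right site joined to `p`. -/
theorem far_edge (C : Cell K R D p f M u k w a m) {c : Ed} (hc : Cro ω u a m c) :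
    ∃ e, FarE D u m e ∧ Jn D (FarE D u m) p (rs e) ∧
      ∀ ω', (∀ v ∈ hA u a m, ω v = ω' v) → e ∈ piece ω' D c := by
  have hmR := C.mR
  have ham := C.am
  have hR := C.env.R1
  have hw0 := C.w0
  have h0 := C.wk
  have hcD := cro_mem_eds C.hF C.am hc
  rcases hc with hc | hc
  · obtain ⟨l, hl, h1, h2, h3, h4, h5⟩ := croI_data C.hF C.am hc
    refine ⟨(nx ω)^[l] c, Or.inl ⟨h4, h5⟩, Jn.symm ?_, fun ω' h => ?_⟩
    · refine C.env.jn_ring (by omega) hmR h4 h5 ?_ (corner_hd _).2.2.1 (corner_hd _).2.2.2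
      have h6 := h1.2 (l - 1) (by omega)
      rw [mem_hA] at h6
      have h7 := (nm_nx ω u ((nx ω)^[l - 1] c)).1
      rw [← Function.iterate_succ_apply' (nx ω), show (l - 1).succ = l by omega] at h7
      omega
    · have h6 := run_congr h h1
      exact (mem_of_run (piece_mem_pcs hcD) (run_mono (hA_sub C.hF) h6)).1 (self_mem_piece hcD)
  · obtain ⟨l, hl, h1, h2, h3, h4, h5⟩ := croO_data C.hF C.am hc
    refine ⟨c, Or.inr ⟨h2, h3⟩, Jn.symm ?_, fun ω' h => self_mem_piece hcD⟩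
    refine C.env.jn_ring (by omega) hmR h2 h3 ?_ (corner_tl _).2.2.1 (corner_tl _).2.2.2
    have h6 := h1.2 0 (by omega)
    simp only [Function.iterate_zero, id_eq] at h6
    rw [mem_hA] at h6
    have h7 := (nm_hdv_tlv u c).2
    omega

/-- **The term of the strand does not depend on the inside.** -/
theorem G_inv (C : Cell K R D p f M u k w a m) (hag : Agr D u a ω ω') (h3 : ¬ ThrS u a m ω)
    {c : Ed} (hc : Cro ω u a m c) :
    TA D p f ω (piece ω D c) * sgA D p (piece ω D c) =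
      TA D p f ω' (piece ω' D c) * sgA D p (piece ω' D c) := by
  have hh := hag.hA C.hF
  have hc' := (cro_congr hh).1 hc
  have h3' : ¬ ThrS u a m ω' := by rwa [← thrS_congr hh]
  have hcD := cro_mem_eds C.hF C.am hc
  have hA : piece ω D c ∈ pcs ω D := piece_mem_pcs hcD
  have hA' : piece ω' D c ∈ pcs ω' D := piece_mem_pcs hcD
  have h1 : TA D p f ω (piece ω D c) = TA D p f ω' (piece ω' D c) := by
    rw [TA_cro C.hF C.am C.chJ h3 hc, TA_cro C.hF C.am C.chJ h3' hc', PO_eq hag,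
      mass_cro C.hF C.am C.env.pot C.chJ hag h3 hc]
    unfold wp'
    rw [if_neg (cro_strand C.hF C.am h3 hc), if_neg (cro_strand C.hF C.am h3' hc')]
  obtain ⟨e, he1, he2, he3⟩ := C.far_edge hc
  have h2 : sgA D p (piece ω D c) = sgA D p (piece ω' D c) := by
    rw [sgA_eq hA (he3 ω fun _ _ => rfl), sgA_eq hA' (he3 ω' hh)]
    exact sgn_eq (C.env.pot _ _ hA) (C.env.pot _ _ hA')
      (fun e he => far_mem_iff C.hF C.am hag h3 hc he) he2
  rw [h1, h2]

/-- The run from the entrance to the crossing avoids the inside. -/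
theorem ent_all (C : Cell K R D p f M u k w a m) (h3 : ¬ ThrS u a m ω)
    {c : Ed} (hc : CroO ω u a m c) (he : e0 ∈ piece ω D c) (ht : tlv e0 ∉ D) :
    ∃ l, 1 ≤ l ∧ Run ω D e0 l c ∧ ∀ j < l, a ≤ nm (hdv ((nx ω)^[j] e0) - u) := by
  have hcD := cro_mem_eds C.hF C.am (Or.inr hc)
  have hA : piece ω D c ∈ pcs ω D := piece_mem_pcs hcD
  obtain ⟨l0, hl0, h1, h2, h4, -, -⟩ := croO_data C.hF C.am hc
  obtain ⟨l, hl | hl⟩ := run_of_mem hA he (self_mem_piece hcD)
  · refine ⟨l, ?_, hl, ?_⟩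
    · rcases Nat.eq_zero_or_pos l with h | h
      · subst h
        exact absurd h2 (by rw [← hl.1]; exact ht)
      · exact h
    by_contra hcon
    push Not at hcon
    obtain ⟨j, hj, hja⟩ := hcon
    have e1 : hdv ((nx ω)^[l - 1] e0) = tlv c := by
      rw [← hl.1]
      obtain ⟨n, rfl⟩ : ∃ n, l = n + 1 := ⟨l - 1, by omega⟩
      rw [Function.iterate_succ_apply', tlv_nx]
      simp
    have hjk : j ≤ l - 1 := by omega
    obtain ⟨i, hi, hci⟩ := croI_of_run (ω := ω) (e := (nx ω)^[j] e0) (k := l - 1 - j) C.hF C.am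
      (fun n hn => by
        rw [← Function.iterate_add_apply]
        exact hl.2 _ (by omega)) hja (by
        rw [← Function.iterate_add_apply, Nat.sub_add_cancel hjk, e1]
        exact h4)
    exact h3 ⟨_, _, croI_ne_croO C.am hci hc, Or.inl hci, Or.inr hc⟩
  · exfalso
    rcases Nat.eq_zero_or_pos l with h | h
    · subst h
      apply ht
      rw [← hl.1]
      exact h2
    · apply ht
      obtain ⟨n, rfl⟩ : ∃ n, l = n + 1 := ⟨l - 1, by omega⟩
      rw [← hl.1, Function.iterate_succ_apply', tlv_nx]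
      exact hl.2 n (by omega)

/-- The entrance of the strand does not depend on the inside. -/
theorem ent_inv (C : Cell K R D p f M u k w a m) (hag : Agr D u a ω ω') (h3 : ¬ ThrS u a m ω)
    {c : Ed} (hc : CroO ω u a m c) (he : e0 ∈ piece ω D c) (ht : tlv e0 ∉ D) :
    e0 ∈ piece ω' D c := by
  have hcD := cro_mem_eds C.hF C.am (Or.inr hc)
  obtain ⟨l, -, hl, hall⟩ := C.ent_all h3 hc he ht
  exact (mem_of_run (piece_mem_pcs hcD) (run_agr hag hl hall)).2 (self_mem_piece hcD)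

theorem ent_far (C : Cell K R D p f M u k w a m) (h3 : ¬ ThrS u a m ω)
    {c : Ed} (hc : CroO ω u a m c) (he : e0 ∈ piece ω D c) (ht : tlv e0 ∉ D) :
    a ≤ nm (hdv e0 - u) := by
  obtain ⟨l, hl1, -, hall⟩ := C.ent_all h3 hc he ht
  exact hall 0 hl1

/-- The run from the crossing to the exit avoids the inside. -/
theorem ex_all (C : Cell K R D p f M u k w a m) (h3 : ¬ ThrS u a m ω)
    {c : Ed} (hc : CroI ω u a m c) (he : e0 ∈ piece ω D c) (ht : hdv e0 ∉ D) :
    ∃ l, 1 ≤ l ∧ Run ω D c l e0 ∧ ∀ j < l, a ≤ nm (hdv ((nx ω)^[j] c) - u) := by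
  have hcD := cro_mem_eds C.hF C.am (Or.inl hc)
  have hA : piece ω D c ∈ pcs ω D := piece_mem_pcs hcD
  obtain ⟨l0, hl0, h1, h2, h4, h5, h6⟩ := croI_data C.hF C.am hc
  have h8 := h1.2 0 (by omega)
  simp only [Function.iterate_zero, id_eq] at h8
  obtain ⟨l, hl | hl⟩ := run_of_mem hA (self_mem_piece hcD) he
  · refine ⟨l, ?_, hl, ?_⟩
    · rcases Nat.eq_zero_or_pos l with h | h
      · subst h
        have h7 : c = e0 := hl.1
        exact absurd (hA_sub C.hF h8) (by rw [h7]; exact ht)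
      · exact h
    by_contra hcon
    push Not at hcon
    obtain ⟨j, hj, hja⟩ := hcon
    have hk'j : l0 < j := by
      by_contra hlt
      push Not at hlt
      rcases hlt.lt_or_eq with h | h
      · have := (mem_hA.1 (h1.2 j h)).2.1
        omega
      · rw [h] at hja
        have := C.am
        omega
    obtain ⟨i, hi, hci⟩ := croO_of_run (ω := ω) (e := (nx ω)^[l0] c) (k := j - l0) C.hF C.am
      (fun n hn => by
        rw [← Function.iterate_add_apply]
        exact hl.2 _ (by omega)) h6 (by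
        rw [← Function.iterate_add_apply, Nat.sub_add_cancel (by omega)]
        exact hja)
    exact h3 ⟨_, _, croI_ne_croO C.am hc hci, Or.inl hc, Or.inr hci⟩
  · exfalso
    rcases Nat.eq_zero_or_pos l with h | h
    · subst h
      have h7 : e0 = c := hl.1
      exact ht (by rw [h7]; exact hA_sub C.hF h8)
    · exact ht (hl.2 0 h)

/-- The exit of the strand does not depend on the inside. -/
theorem ex_inv (C : Cell K R D p f M u k w a m) (hag : Agr D u a ω ω') (h3 : ¬ ThrS u a m ω)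
    {c : Ed} (hc : CroI ω u a m c) (he : e0 ∈ piece ω D c) (ht : hdv e0 ∉ D) :
    e0 ∈ piece ω' D c := by
  have hcD := cro_mem_eds C.hF C.am (Or.inl hc)
  obtain ⟨l, -, hl, hall⟩ := C.ex_all h3 hc he ht
  exact (mem_of_run (piece_mem_pcs hcD) (run_agr hag hl hall)).1 (self_mem_piece hcD)

theorem ex_far (C : Cell K R D p f M u k w a m) (h3 : ¬ ThrS u a m ω)
    {c : Ed} (hc : CroI ω u a m c) (he : e0 ∈ piece ω D c) (ht : hdv e0 ∉ D) :
    a ≤ nm (tlv e0 - u) := by
  obtain ⟨l, hl1, hl, hall⟩ := C.ex_all h3 hc he ht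
  have h1 := hall (l - 1) (by omega)
  obtain ⟨n, rfl⟩ : ∃ n, l = n + 1 := ⟨l - 1, by omega⟩
  rw [← hl.1, Function.iterate_succ_apply', tlv_nx]
  simpa using h1

end Cell

end Vale.Agent.P167.H365
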