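import Vale.Agent.P167.H365.NFar2

/-!
# P167, block N-RED: the far part, one crossing, by the reflection symmetry of the strands
-/

namespace Vale.Agent.P167.H365

open Finset MeasureTheory ProbabilityTheory Vale.Agent.P167.BR Vale.Agent.P167.H542
open Vale.Agent.P167.H318 (st ex hit wt J St Lo CoConn)
open Vale.Agent.P167.H192 (ov ov_mem ov_notMem)
open Vale.Agent.P167.H167 (Fd ind)
open Vale.Agent.P167.H562 (LocFun LocSet)
open Vale.Agent.P167.H558 (glue glue_mem glue_not_mem)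

variable {D : Finset (ℤ × ℤ)} {b p x y u c : ℤ × ℤ} {a m R r L K w : ℤ} {ω ω' : Cfg}
  {f : ℤ × ℤ → ℝ} {M : ℝ} {A : Finset Ed} {ψ : ℤ → ℝ} {k : ℕ} {e0 : Ed}

/-- The test function of a cell. -/
structure Psi (ψ : ℤ → ℝ) (u w : ℤ) : Prop where
  le : ∀ x, |ψ x| ≤ 1
  lip : ∀ x x' : ℤ, |ψ x - ψ x'| ≤ |(x : ℝ) - x'| / w
  supp : ∀ x, ψ x ≠ 0 → u - w + 1 ≤ x ∧ x ≤ u + w - 1

theorem Psi.abs_le {u w : ℤ} (h : Psi ψ u w) {x : ℤ} (hx : ψ x ≠ 0) : |x - u| ≤ w := by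
  have := h.supp x hx
  rw [_root_.abs_le]
  omega

/-- The statement `H318.SYM` for one `ε`. -/
def SymE (ε : ℝ) (K1 : ℤ) : Prop := ∀ (k : ℕ) (w u : ℤ) (S : St) (ψ : ℤ → ℝ), 1 ≤ k →
  K1 * k ≤ w → S.Ok → (∀ v, v ∈ S.F ↔ v ∈ Lo u (4 * w) (4 * w + 1)) →
  (∀ x, u - 4 * w ≤ x → x ≤ u + 4 * w → (x, (-1 : ℤ)) ∉ S.D) →
  (∀ x, u - 4 * w ≤ x → x ≤ u + 4 * w → S.e0 ≠ Sum.inr (x, -1)) →
  (∀ x, |ψ x| ≤ 1) → (∀ x x', |ψ x - ψ x'| ≤ |(x : ℝ) - x'| / w) →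
  (∀ x, ψ x ≠ 0 → u - w ≤ x ∧ x ≤ u + w) →
  |S.E (J S.D S.e0 ψ k)| ≤ ε * k

theorem mem_hB (hu : u.2 = 0) {v : ℤ × ℤ} :
    v ∈ hB u (4 * w) ↔ v ∈ Lo u.1 (4 * w) (4 * w + 1) := by
  unfold hB Lo
  rw [mem_hA, nm_le']
  have h0 := nm_nonneg (v - u)
  simp only [Prod.fst_sub, Prod.snd_sub, hu, Set.mem_ofPred_eq] at h0 ⊢
  constructor
  · rintro ⟨h1, -, h3⟩
    omega
  · intro h
    omega

theorem hB_sub {a : ℤ} (C : Cell K R D p f M u k w a m) (ha : 4 * w ≤ a) : hB u (4 * w) ⊆ D := by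
  intro v hv
  unfold hB at hv
  rw [mem_hA] at hv
  exact C.mem (by omega) (by rw [← C.u2]; exact hv.1)

theorem hdv_inr_ne {x : ℤ} {e : Ed} (h : e = Sum.inr (x, -1)) (ht : tlv e ∉ D)
    (h0 : (x, 0) ∈ D) : hdv e = (x, 0) := by
  subst h
  by_cases hp : Even (x + (-1 : ℤ))
  · exfalso
    apply ht
    simp only [tlv, hp, if_true]
    simpa using h0
  · simp [hdv, hp]

theorem sym_O {ε : ℝ} {K1 : ℤ} (hS : SymE ε K1) (C : Cell K R D p f M u k w (4 * w + 1) m)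
    (hco : CoConn D) (hψ : Psi ψ u.1 w) (hKw : K1 * k ≤ w) (ht : tlv e0 ∉ D)
    (hfar : 4 * w + 1 ≤ nm (hdv e0 - u)) (ζ : Cfg) :
    |∫ ω, J D e0 ψ k (ov (hB u (4 * w)) ζ ω) ∂μ| ≤ ε * k := by
  have hu2 := C.u2
  have hin : ∀ x : ℤ, u.1 - 4 * w ≤ x → x ≤ u.1 + 4 * w → nm (((x, 0) : ℤ × ℤ) - u) ≤ 4 * w := by
    intro x h1 h2
    rw [nm_le']
    simp only [Prod.fst_sub, Prod.snd_sub, hu2]
    have := C.w0
    omega
  refine hS k w u.1 ⟨D, hB u (4 * w), ζ, e0⟩ ψ C.k1 hKw ⟨hB_sub C (by omega), hco, ht⟩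
    (fun v => mem_hB hu2) ?_ ?_ hψ.le hψ.lip (fun x hx => ?_)
  · intro x h1 h2 h3
    have h4 : (x, (-1 : ℤ)) ∈ D := h3
    have h5 := (C.fl (r := 4 * w + 1) (by
      have := C.mR; have := C.am; have := C.env.R1; omega) (x, -1) (by
      rw [nm_le']
      simp only [Prod.fst_sub, Prod.snd_sub, hu2]
      have := C.w0
      omega)).1 h4
    simp only [hu2] at h5
    omega
  · intro x h1 h2 h3
    have h3' : e0 = Sum.inr (x, -1) := h3
    have h4 : ((x, 0) : ℤ × ℤ) ∈ D := C.mem (by have := hin x h1 h2; omega) le_rfl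
    have h5 := hdv_inr_ne h3' ht h4
    rw [h5] at hfar
    have := hin x h1 h2
    omega
  · have := hψ.supp x hx
    omega

theorem mc_ov (F : Finset (ℤ × ℤ)) (ζ ω : Cfg) :
    mc (ov F ζ ω) = ov (F.image mi) (mc ζ) (mc ω) := by
  funext v
  show ov F ζ ω (mi v) = _
  by_cases h : mi v ∈ F
  · rw [ov_mem h, ov_mem (mem_mi'.2 h)]; rfl
  · rw [ov_notMem h, ov_notMem fun h' => h (mem_mi'.1 h')]; rfl

theorem int_mc (F : Cfg → ℝ) (hF : Fd F) : ∫ ω, F (mc ω) ∂μ = ∫ ω, F ω ∂μ := by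
  have h1 : ∫ ω, F ω ∂(μ.map mc) = ∫ ω, F (mc ω) ∂μ :=
    integral_map mp_mc.measurable.aemeasurable (mp_mc.map_eq.symm ▸ hF.meas.aestronglyMeasurable)
  rw [mp_mc.map_eq] at h1
  exact h1.symm

theorem fd_ov (F : Finset (ℤ × ℤ)) (ζ : Cfg) (G : Cfg → ℝ) : Fd (fun ω => G (ov F ζ ω)) :=
  ⟨F, fun ω ω' h => by
    have : ov F ζ ω = ov F ζ ω' := by
      funext v
      by_cases hv : v ∈ F
      · rw [ov_mem hv, ov_mem hv]; exact h v hv
      · rw [ov_notMem hv, ov_notMem hv]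
    simp only [this]⟩

theorem sym_I {ε : ℝ} {K1 : ℤ} (hS : SymE ε K1) (C : Cell K R D p f M u k w (4 * w + 1) m)
    (hco : CoConn D) (hψ : Psi ψ u.1 w) (hKw : K1 * k ≤ w) (ht : hdv e0 ∉ D)
    (hfar : 4 * w + 1 ≤ nm (tlv e0 - u)) (ζ : Cfg) :
    |∫ ω, J (D.image mi) (me e0) (fun x => ψ (-x)) k (mc (ov (hB u (4 * w)) ζ ω)) ∂μ| ≤
      ε * k := by
  have hu2 := C.u2
  have hin : ∀ x : ℤ, u.1 - 4 * w ≤ x → x ≤ u.1 + 4 * w → nm (((x, 0) : ℤ × ℤ) - u) ≤ 4 * w := by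
    intro x h1 h2
    rw [nm_le']
    simp only [Prod.fst_sub, Prod.snd_sub, hu2]
    have := C.w0
    omega
  simp only [mc_ov]
  rw [int_mc (fun ω => J (D.image mi) (me e0) (fun x => ψ (-x)) k
    (ov ((hB u (4 * w)).image mi) (mc ζ) ω)) (fd_ov _ _ _)]
  have ht' : tlv (me e0) ∉ D.image mi := by rw [tlv_me, mem_mi]; exact ht
  refine hS k w (-1 - u.1) ⟨D.image mi, (hB u (4 * w)).image mi, mc ζ, me e0⟩
    (fun x => ψ (-x)) C.k1 hKw ⟨Finset.image_subset_image (hB_sub C (by omega)), coConn_mi hco,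
      ht'⟩ (fun v => ?_) ?_ ?_ (fun x => hψ.le _) (fun x x' => ?_) (fun x hx => ?_)
  · show v ∈ (hB u (4 * w)).image mi ↔ _
    rw [mem_mi', mem_hB hu2]
    unfold Lo mi
    simp only [Set.mem_ofPred_eq]
    omega
  · intro x h1 h2 h3
    have h4 : (x, (-1 : ℤ)) ∈ D.image mi := h3
    rw [mem_mi'] at h4
    have h5 := (C.fl (r := 4 * w + 1) (by
      have := C.mR; have := C.am; have := C.env.R1; omega) (mi (x, -1)) (by
      rw [nm_le']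
      simp only [Prod.fst_sub, Prod.snd_sub, hu2, mi]
      have := C.w0
      omega)).1 h4
    simp only [hu2, mi] at h5
    omega
  · intro x h1 h2 h3
    have h3' : me e0 = Sum.inr (x, -1) := h3
    have h4 : ((x, 0) : ℤ × ℤ) ∈ D.image mi := by
      rw [mem_mi']
      exact C.mem (by
        have := hin (-1 - x) (by omega) (by omega)
        show nm ((-1 - x, 0) - u) ≤ _
        omega) le_rfl
    have h5 := hdv_inr_ne h3' ht' h4
    rw [hdv_me] at h5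
    have h6 : tlv e0 = (-1 - x, 0) := by
      rw [← mi_mi (tlv e0), h5]; rfl
    rw [h6] at hfar
    have := hin (-1 - x) (by omega) (by omega)
    omega
  · have h := hψ.lip (-x) (-x')
    have e : ((-x : ℤ) : ℝ) - ((-x' : ℤ) : ℝ) = -((x : ℝ) - x') := by push_cast; ring
    rw [e, abs_neg] at h
    exact h
  · have := hψ.supp (-x) hx
    omega

/-! ### Conditional expectation -/

theorem hwt (C : Cell K R D p f M u k w (4 * w + 1) m) (hψ : Psi ψ u.1 w) {e : Ed}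
    (h : hdv e ∉ D ∨ tlv e ∉ D) : wt ψ k e = 0 := by
  refine wt_zero_of_not (w := w) (u := u) (C.fl ?_) C.u2 (fun x hx => hψ.abs_le hx) h
  have := C.mR
  have := C.am
  have := C.env.R1
  have := C.wk
  omega

open Classical in
/-- The crossing edge. -/
noncomputable def cE (Q : Cfg → Ed → Prop) (ω : Cfg) : Ed :=
  if h : ∃ c, Q ω c then Classical.choose h else Sum.inl (0, 0)

theorem cE_spec {Q : Cfg → Ed → Prop} (h : ∃ c, Q ω c) : Q ω (cE Q ω) := by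
  unfold cE
  rw [dif_pos h]
  exact Classical.choose_spec h

open Classical in
theorem cE_congr {Q : Cfg → Ed → Prop} (h : ∀ c, Q ω c ↔ Q ω' c) : cE Q ω = cE Q ω' := by
  have h1 : Q ω = Q ω' := funext fun c => propext (h c)
  have key : ∀ P P' : Ed → Prop, P = P' → (if h : ∃ c, P c then Classical.choose h
      else Sum.inl (0, 0)) = (if h : ∃ c, P' c then Classical.choose h else Sum.inl (0, 0)) := by
    rintro P _ rfl
    rfl
  exact key _ _ h1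

open Classical in
/-- The contribution of the strands with a crossing of the type `Q`. -/
noncomputable def HQ (D : Finset (ℤ × ℤ)) (p u : ℤ × ℤ) (f : ℤ × ℤ → ℝ) (a m : ℤ) (ψ : ℤ → ℝ)
    (k : ℕ) (Q : Cfg → Ed → Prop) (ω : Cfg) : ℝ :=
  if ¬ ThrS u a m ω ∧ ∃ c, Q ω c then
    (TA D p f ω (piece ω D (cE Q ω)) * sgA D p (piece ω D (cE Q ω))) *
      Wt ψ k (piece ω D (cE Q ω)) else 0

theorem TA_congr (h : ∀ v ∈ D, ω v = ω' v) (A : Finset Ed) : TA D p f ω A = TA D p f ω' A := by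
  unfold TA
  rw [BR.pcs_congr h]

theorem dep_HQ {Q : Cfg → Ed → Prop} (hAD : hA u a m ⊆ D)
    (hQ : ∀ ω ω' : Cfg, (∀ v ∈ hA u a m, ω v = ω' v) → ∀ c, Q ω c ↔ Q ω' c) :
    H318.Dep D (HQ D p u f a m ψ k Q) := by
  intro ω ω' h
  have h1 : ∀ v ∈ hA u a m, ω v = ω' v := fun v hv => h v (hAD hv)
  have h2 : cE Q ω = cE Q ω' := cE_congr (hQ ω ω' h1)
  have h3 : (¬ ThrS u a m ω ∧ ∃ c, Q ω c) ↔ (¬ ThrS u a m ω' ∧ ∃ c, Q ω' c) := by
    rw [thrS_congr h1]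
    simp only [hQ ω ω' h1]
  unfold HQ
  by_cases h4 : ¬ ThrS u a m ω ∧ ∃ c, Q ω c
  · rw [if_pos h4, if_pos (h3.1 h4), h2, BR.piece_congr h, TA_congr h]
  · rw [if_neg h4, if_neg fun h5 => h4 (h3.2 h5)]

theorem abs_G_le {Y : Cfg → ℝ} (hY : ∀ ω, ∀ A ∈ pcs ω D, |TA D p f ω A| ≤ Y ω)
    (hA : A ∈ pcs ω D) : |TA D p f ω A * sgA D p A| ≤ Y ω := by
  rw [abs_mul, abs_sgA, mul_one]
  exact hY ω A hA

/-- **Conditional expectation.** -/
theorem int_HQ (C : Cell K R D p f M u k w (4 * w + 1) m) {Q : Cfg → Ed → Prop}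
    (hQ : ∀ ω ω' : Cfg, (∀ v ∈ hA u (4 * w + 1) m, ω v = ω' v) → ∀ c, Q ω c ↔ Q ω' c)
    (hQc : ∀ ω c, Q ω c → Cro ω u (4 * w + 1) m c)
    {Y : Cfg → ℝ} (hYf : Fd Y) (hY0 : ∀ ω, 0 ≤ Y ω)
    (hY : ∀ ω, ∀ A ∈ pcs ω D, |TA D p f ω A| ≤ Y ω) {ε : ℝ} (hε : 0 ≤ ε)
    (hmain : ∀ ζ, ¬ ThrS u (4 * w + 1) m ζ → ∀ c, Q ζ c →
      |∫ ω, Wt ψ k (piece (ov (hB u (4 * w)) ζ ω) D c) ∂μ| ≤ ε * k) :
    |∫ ω, HQ D p u f (4 * w + 1) m ψ k Q ω ∂μ| ≤
      ε * k * ∫ ω, Y ω * ind {ω | TwoS u (4 * w + 1) m ω} ω ∂μ := by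
  classical
  have hAD : hA u (4 * w + 1) m ⊆ D := hA_sub C.hF
  have hdep := dep_HQ (p := p) (f := f) (ψ := ψ) (k := k) hAD hQ
  rw [H318.int_stop (H318.StopSet.const (D \ hB u (4 * w))) hdep, ← integral_const_mul,
    ← Real.norm_eq_abs]
  refine norm_integral_le_of_norm_le
    ((hYf.mul (fd_two _ _ _)).int.const_mul _) (Filter.Eventually.of_forall fun ζ => ?_)
  rw [Real.norm_eq_abs]
  -- the glued configuration and `ov` agree on `D`
  have hgl : ∀ ω : Cfg, ∀ v ∈ D, glue (↑(D \ hB u (4 * w))) ζ ω v = ov (hB u (4 * w)) ζ ω v := by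
    intro ω v hv
    by_cases h : v ∈ hB u (4 * w)
    · rw [glue_not_mem (fun h' => (Finset.mem_sdiff.1 (Finset.mem_coe.1 h')).2 h), ov_mem h]
    · rw [glue_mem (Finset.mem_coe.2 (Finset.mem_sdiff.2 ⟨hv, h⟩)), ov_notMem h]
  have hint : ∀ ω' : Cfg, HQ D p u f (4 * w + 1) m ψ k Q (glue (↑(D \ hB u (4 * w))) ζ ω') =
      HQ D p u f (4 * w + 1) m ψ k Q (ov (hB u (4 * w)) ζ ω') := fun ω' =>
    hdep _ _ fun v hv => hgl ω' v hv
  simp only [hint]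
  have hann : ∀ ω : Cfg, ∀ v ∈ hA u (4 * w + 1) m, ζ v = ov (hB u (4 * w)) ζ ω v := by
    intro ω v hv
    rw [ov_notMem]
    intro h
    unfold hB at h
    rw [mem_hA] at h hv
    omega
  have hag : ∀ ω : Cfg, Agr D u (4 * w + 1) ζ (ov (hB u (4 * w)) ζ ω) := by
    intro ω v _ hv2
    rw [ov_notMem]
    intro h
    unfold hB at h
    rw [mem_hA] at h
    omega
  by_cases hcond : ¬ ThrS u (4 * w + 1) m ζ ∧ ∃ c, Q ζ c
  · obtain ⟨h3, hex⟩ := hcond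
    have hc := cE_spec hex
    set c := cE Q ζ with hcdef
    have hcro := hQc ζ c hc
    have hval : ∀ ω : Cfg, HQ D p u f (4 * w + 1) m ψ k Q (ov (hB u (4 * w)) ζ ω) =
        (TA D p f ζ (piece ζ D c) * sgA D p (piece ζ D c)) *
          Wt ψ k (piece (ov (hB u (4 * w)) ζ ω) D c) := by
      intro ω
      have h4 : cE Q (ov (hB u (4 * w)) ζ ω) = c := (cE_congr (hQ _ _ (hann ω))).symm
      have h5 : ¬ ThrS u (4 * w + 1) m (ov (hB u (4 * w)) ζ ω) ∧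
          ∃ c, Q (ov (hB u (4 * w)) ζ ω) c := by
        rw [← thrS_congr (hann ω)]
        exact ⟨h3, c, (hQ _ _ (hann ω) c).1 hc⟩
      unfold HQ
      rw [if_pos h5, h4, C.G_inv (hag ω) h3 hcro]
    simp only [hval]
    rw [integral_const_mul, abs_mul]
    have hA : piece ζ D c ∈ pcs ζ D := piece_mem_pcs (cro_mem_eds C.hF C.am hcro)
    have h6 : ζ ∈ {ω | TwoS u (4 * w + 1) m ω} := ⟨c, hcro⟩
    rw [H167.ind_mem h6, mul_one]
    calc |TA D p f ζ (piece ζ D c) * sgA D p (piece ζ D c)| *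
          |∫ ω, Wt ψ k (piece (ov (hB u (4 * w)) ζ ω) D c) ∂μ|
        ≤ Y ζ * (ε * k) := mul_le_mul (abs_G_le hY hA) (hmain ζ h3 c hc) (abs_nonneg _) (hY0 ζ)
      _ = _ := by ring
  · have hval : ∀ ω : Cfg, HQ D p u f (4 * w + 1) m ψ k Q (ov (hB u (4 * w)) ζ ω) = 0 := by
      intro ω
      unfold HQ
      rw [if_neg]
      rintro ⟨h4, c, h5⟩
      exact hcond ⟨by rwa [thrS_congr (hann ω)], c, (hQ _ _ (hann ω) c).2 h5⟩
    simp only [hval, integral_zero, abs_zero]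
    have := hY0 ζ
    have := H167.ind_nonneg {ω | TwoS u (4 * w + 1) m ω} ζ
    positivity

theorem main_O {ε : ℝ} {K1 : ℤ} (hS : SymE ε K1) (C : Cell K R D p f M u k w (4 * w + 1) m)
    (hco : CoConn D) (hψ : Psi ψ u.1 w) (hKw : K1 * k ≤ w) (ζ : Cfg)
    (h3 : ¬ ThrS u (4 * w + 1) m ζ) {c : Ed} (hc : CroO ζ u (4 * w + 1) m c) :
    |∫ ω, Wt ψ k (piece (ov (hB u (4 * w)) ζ ω) D c) ∂μ| ≤ ε * k := by
  have hcro : Cro ζ u (4 * w + 1) m c := Or.inr hc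
  have hcD := cro_mem_eds C.hF C.am hcro
  have hA : piece ζ D c ∈ pcs ζ D := piece_mem_pcs hcD
  obtain ⟨e0, he0, ht⟩ := BR.exists_entry hA (cro_strand C.hF C.am h3 hcro)
  have he0D := subset_eds hA he0
  have hfar := C.ent_far h3 hc he0 ht
  have hag : ∀ ω : Cfg, Agr D u (4 * w + 1) ζ (ov (hB u (4 * w)) ζ ω) := by
    intro ω v _ hv2
    rw [ov_notMem]
    intro h
    unfold hB at h
    rw [mem_hA] at h
    omega
  have hval : ∀ ω : Cfg, Wt ψ k (piece (ov (hB u (4 * w)) ζ ω) D c) =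
      J D e0 ψ k (ov (hB u (4 * w)) ζ ω) := by
    intro ω
    have h1 := C.ent_inv (hag ω) h3 hc he0 ht
    rw [J_eq ht he0D (hwt C hψ (Or.inl (H318.Bs.ex_spec ht _))), piece_eq_of_mem h1]
  simp only [hval]
  exact sym_O hS C hco hψ hKw ht hfar ζ

theorem main_I {ε : ℝ} {K1 : ℤ} (hS : SymE ε K1) (C : Cell K R D p f M u k w (4 * w + 1) m)
    (hco : CoConn D) (hψ : Psi ψ u.1 w) (hKw : K1 * k ≤ w) (ζ : Cfg)
    (h3 : ¬ ThrS u (4 * w + 1) m ζ) {c : Ed} (hc : CroI ζ u (4 * w + 1) m c) :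
    |∫ ω, Wt ψ k (piece (ov (hB u (4 * w)) ζ ω) D c) ∂μ| ≤ ε * k := by
  have hcro : Cro ζ u (4 * w + 1) m c := Or.inl hc
  have hcD := cro_mem_eds C.hF C.am hcro
  have hA : piece ζ D c ∈ pcs ζ D := piece_mem_pcs hcD
  obtain ⟨e0, he0, ht⟩ := BR.exists_exit (cro_strand C.hF C.am h3 hcro)
  have he0D := subset_eds hA he0
  have hfar := C.ex_far h3 hc he0 ht
  have hag : ∀ ω : Cfg, Agr D u (4 * w + 1) ζ (ov (hB u (4 * w)) ζ ω) := by
    intro ω v _ hv2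
    rw [ov_notMem]
    intro h
    unfold hB at h
    rw [mem_hA] at h
    omega
  have ht' : tlv (me e0) ∉ D.image mi := by rw [tlv_me, mem_mi]; exact ht
  have hval : ∀ ω : Cfg, Wt ψ k (piece (ov (hB u (4 * w)) ζ ω) D c) =
      J (D.image mi) (me e0) (fun x => ψ (-x)) k (mc (ov (hB u (4 * w)) ζ ω)) := by
    intro ω
    have h1 := C.ex_inv (hag ω) h3 hc he0 ht
    rw [J_eq ht' (me_mem_eds.2 he0D), piece_me, Wt_me, piece_eq_of_mem h1]
    have h2 := H318.Bs.ex_spec ht' (mc (ov (hB u (4 * w)) ζ ω))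
    rw [← me_me (st (me e0) (mc (ov (hB u (4 * w)) ζ ω)) _), wt_me]
    refine hwt C hψ (Or.inr ?_)
    rw [tlv_me]
    intro h4
    exact h2 (mem_mi'.2 h4)
  simp only [hval]
  exact sym_I hS C hco hψ hKw ht hfar ζ

end Vale.Agent.P167.H365
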