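import Vale.Agent.P167.H365.NFar3

/-!
# P167, block N-RED: bound of the far part of a cell
-/

namespace Vale.Agent.P167.H365

open Finset MeasureTheory ProbabilityTheory Vale.Agent.P167.BR Vale.Agent.P167.H542
open Vale.Agent.P167.H318 (st ex hit wt J St Lo CoConn)
open Vale.Agent.P167.H192 (ov ov_mem ov_notMem)
open Vale.Agent.P167.H167 (Fd ind Bg)
open Vale.Agent.P167.H562 (LocFun LocSet)

variable {D : Finset (ℤ × ℤ)} {b p x y u c : ℤ × ℤ} {a m R r L K w : ℤ} {ω ω' : Cfg}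
  {f : ℤ × ℤ → ℝ} {M : ℝ} {A : Finset Ed} {ψ : ℤ → ℝ} {k : ℕ} {e0 : Ed}

/-- Majorant of the number of far pieces at `x`. -/
noncomputable def Zf (x : ℤ × ℤ) (k R : ℤ) (ω : Cfg) : ℝ :=
  ind {ω | TwoS x (4 * k + 1) R ω} ω * ((Bg (hB x (4 * k)) x k k ω).card : ℝ)

theorem fd_Zf (x : ℤ × ℤ) (k R : ℤ) : Fd (Zf x k R) := (fd_two _ _ _).mul (fd_Bg _ _ _ _)

theorem Zf_nonneg (x : ℤ × ℤ) (k R : ℤ) (ω : Cfg) : 0 ≤ Zf x k R ω :=
  mul_nonneg (H167.ind_nonneg _ _) (Nat.cast_nonneg _)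

theorem loc_Bg' (x : ℤ × ℤ) (k : ℤ) : LocFun {v : ℤ × ℤ | nm (v - x) ≤ 4 * k}
    (fun ω => ((Bg (hB x (4 * k)) x k k ω).card : ℝ)) :=
  (loc_Bg _ x k k).mono fun v hv => by
    have hv' := Finset.mem_coe.1 hv
    unfold hB at hv'
    rw [mem_hA] at hv'
    exact hv'.2.2

theorem loc_Zf (x : ℤ × ℤ) (k : ℤ) (h : 4 * k + 1 ≤ R) :
    LocFun {v : ℤ × ℤ | nm (v - x) ≤ R} (Zf x k R) := by
  refine (locFun_mul (locFun_ind (locSet_two x (4 * k + 1) R)) (loc_Bg' x k)).mono ?_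
  rintro v (hv | hv)
  · exact hv.2
  · have hv' : nm (v - x) ≤ 4 * k := hv
    show nm (v - x) ≤ R
    omega

theorem int_Z {C2 : ℝ} (h2 : I2 C2) : ∃ C : ℝ, 0 < C ∧ ∀ (x : ℤ × ℤ)
    (k R : ℤ), 1 ≤ k → 4 * k + 1 ≤ R → ∫ ω, Zf x k R ω ∂μ ≤ C * ((k : ℝ) / R) := by
  obtain ⟨C, hC, hBg⟩ := int_Bg 1
  have hC2 : 0 ≤ C2 := by
    have h3 := h2 0 1 1 le_rfl le_rfl
    have h4 : 0 ≤ μ.real {ω | TwoS 0 1 1 ω} := measureReal_nonneg
    have h5 : C2 * (((1:ℤ):ℝ) / ((1:ℤ):ℝ)) = C2 := by norm_num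
    linarith
  refine ⟨C2 * 5 * C + 1, by positivity, fun x k R hk hkR => ?_⟩
  have hkr : (1 : ℝ) ≤ k := by exact_mod_cast hk
  have hRr : (4 : ℝ) * k + 1 ≤ R := by exact_mod_cast hkR
  have hdis : Disjoint {v : ℤ × ℤ | 4 * k + 1 ≤ nm (v - x) ∧ nm (v - x) ≤ R}
      {v : ℤ × ℤ | nm (v - x) ≤ 4 * k} := by
    rw [Set.disjoint_left]
    intro v h3 h4
    have h3' := h3.1
    have h4' : nm (v - x) ≤ 4 * k := h4
    omega
  calc ∫ ω, Zf x k R ω ∂μ
      = μ.real {ω | TwoS x (4 * k + 1) R ω} *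
        ∫ ω, ((Bg (hB x (4 * k)) x k k ω).card : ℝ) ∂μ := by
        unfold Zf
        rw [int_mul hdis (fd_two _ _ _) (fd_Bg _ _ _ _) (locFun_ind (locSet_two _ _ _))
          (loc_Bg' x k), int_two]
    _ ≤ (C2 * (((4 * k + 1 : ℤ) : ℝ) / R)) * C := by
        refine mul_le_mul (h2 _ _ _ (by omega) hkR)
          (hBg _ _ _ _ hkr (by omega) (by simp)) (integral_nonneg fun ω => Nat.cast_nonneg _) ?_
        have : (0 : ℝ) ≤ ((4 * k + 1 : ℤ) : ℝ) / R := by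
          have : (0 : ℝ) ≤ ((4 * k + 1 : ℤ) : ℝ) := by exact_mod_cast (by omega : 0 ≤ 4 * k + 1)
          have : (0 : ℝ) ≤ R := by linarith
          positivity
        positivity
    _ ≤ (C2 * 5 * C + 1) * ((k : ℝ) / R) := by
        have hR0 : (0 : ℝ) < R := by linarith
        have h3 : ((4 * k + 1 : ℤ) : ℝ) / R ≤ 5 * ((k : ℝ) / R) := by
          push_cast
          rw [← mul_div_assoc]
          exact div_le_div_of_nonneg_right (by linarith) hR0.le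
        have h4 : (0 : ℝ) ≤ (k : ℝ) / R := by positivity
        calc C2 * (((4 * k + 1 : ℤ) : ℝ) / R) * C ≤ C2 * (5 * ((k : ℝ) / R)) * C := by gcongr
          _ = C2 * 5 * C * ((k : ℝ) / R) := by ring
          _ ≤ _ := by nlinarith

theorem fd_Ff (z1 z2 : ℤ × ℤ) : Fd (Ff D p u m f z1 z2) :=
  ⟨D, fun ω ω' h => by
    have h' : ∀ v ∈ D, ω v = ω' v := fun v hv => h v (Finset.mem_coe.2 hv)
    unfold Ff
    rw [BR.pcs_congr h']
    exact Finset.sum_congr rfl fun A _ => by rw [TA_congr h']⟩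

/-- Crude bound of the far part. -/
theorem abs_Ff_le (C : Cell K R D p f M u k w (4 * w + 1) m) {Y : Cfg → ℝ}
    (hY0 : ∀ ω, 0 ≤ Y ω) (hY : ∀ ω, ∀ A ∈ pcs ω D, |TA D p f ω A| ≤ Y ω)
    (hkw : 4 * (k : ℤ) + 1 ≤ 2 * w) {x : ℤ} (hx : |x - u.1| ≤ w) (ω : Cfg) :
    |Ff D p u m f (x, 0 + (k : ℤ)) (x, 0) ω| ≤ Y ω * Zf (x, 0) k (2 * w) ω := by
  classical
  have hu2 := C.u2
  have hmR := C.mR
  have ham := C.am
  have hR := C.env.R1
  have hk := C.k1
  have hxu : nm (((x, 0) : ℤ × ℤ) - u) ≤ w := by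
    rw [nm_le']
    simp only [Prod.fst_sub, Prod.snd_sub, hu2]
    rw [abs_le] at hx
    omega
  have hFx : Fl D (x, 0) (2 * w + 1) := C.env.fl' (by omega) hu2.symm (by omega)
  have h1 : |Ff D p u m f (x, 0 + (k : ℤ)) (x, 0) ω| ≤ Y ω * (cntF D (x, 0) k (2 * w) ω : ℝ) := by
    unfold Ff
    have e1 : ∑ A ∈ (pcs ω D).filter (fun A => FarA D u m A),
        TA D p f ω A * dl D p (x, 0 + (k : ℤ)) (x, 0) A =
        ∑ A ∈ ((pcs ω D).filter fun A => FarA D u m A).filter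
          (fun A => dl D p (x, 0 + (k : ℤ)) (x, 0) A ≠ 0),
          TA D p f ω A * dl D p (x, 0 + (k : ℤ)) (x, 0) A :=
      (Finset.sum_filter_of_ne fun A _ h => right_ne_zero_of_mul h).symm
    rw [e1]
    have hsub : ((pcs ω D).filter fun A => FarA D u m A).filter
        (fun A => dl D p (x, 0 + (k : ℤ)) (x, 0) A ≠ 0) ⊆
        (pcs ω D).filter fun A => VisI D (x, 0) (k + 1) A ∧ FarA D (x, 0) (2 * w) A := by
      intro A hA
      rw [mem_filter, mem_filter] at hA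
      rw [mem_filter]
      refine ⟨hA.1.1, (C.vis hx hA.2).2, ?_⟩
      obtain ⟨e, he, h⟩ := hA.1.2
      refine ⟨e, he, ?_⟩
      rcases h with h | h
      · have := nm_tri (hdv e) (x, 0) u
        exact Or.inl ⟨h.1, by omega⟩
      · have := nm_tri (tlv e) (x, 0) u
        exact Or.inr ⟨h.1, by omega⟩
    calc |∑ A ∈ ((pcs ω D).filter fun A => FarA D u m A).filter
          (fun A => dl D p (x, 0 + (k : ℤ)) (x, 0) A ≠ 0),
          TA D p f ω A * dl D p (x, 0 + (k : ℤ)) (x, 0) A|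
        ≤ ∑ A ∈ ((pcs ω D).filter fun A => FarA D u m A).filter
          (fun A => dl D p (x, 0 + (k : ℤ)) (x, 0) A ≠ 0),
          |TA D p f ω A * dl D p (x, 0 + (k : ℤ)) (x, 0) A| := Finset.abs_sum_le_sum_abs _ _
      _ ≤ ∑ _A ∈ ((pcs ω D).filter fun A => FarA D u m A).filter
          (fun A => dl D p (x, 0 + (k : ℤ)) (x, 0) A ≠ 0), Y ω := by
          refine Finset.sum_le_sum fun A hA => ?_
          rw [mem_filter, mem_filter] at hA
          rw [abs_mul]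
          have h3 := hY ω A hA.1.1
          have h4 := abs_dl_le (D := D) (p := p) (z1 := (x, 0 + (k : ℤ))) (z2 := (x, 0)) (A := A)
          nlinarith [abs_nonneg (TA D p f ω A),
            abs_nonneg (dl D p (x, 0 + (k : ℤ)) (x, 0) A)]
      _ ≤ ∑ _A ∈ (pcs ω D).filter (fun A => VisI D (x, 0) (k + 1) A ∧ FarA D (x, 0) (2 * w) A),
          Y ω := Finset.sum_le_sum_of_subset_of_nonneg hsub fun _ _ _ => hY0 ω
      _ = _ := by
          rw [Finset.sum_const, nsmul_eq_mul, mul_comm]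
          rfl
  refine h1.trans (mul_le_mul_of_nonneg_left ?_ (hY0 ω))
  exact cntF_le hFx (by omega) hkw

/-- The decomposition of the far part of a cell. -/
theorem far_decomp (C : Cell K R D p f M u k w (4 * w + 1) m) (hψ : Psi ψ u.1 w) {X : Finset ℤ}
    (hX : ∀ x, ψ x ≠ 0 → x ∈ X) (ω : Cfg) :
    ∑ x ∈ X, ψ x * Ff D p u m f (x, 0 + (k : ℤ)) (x, 0) ω =
      ind {ω | ThrS u (4 * w + 1) m ω} ω *
        ∑ x ∈ X, ψ x * Ff D p u m f (x, 0 + (k : ℤ)) (x, 0) ω +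
      (HQ D p u f (4 * w + 1) m ψ k (fun ω c => CroO ω u (4 * w + 1) m c) ω +
      HQ D p u f (4 * w + 1) m ψ k (fun ω c => CroI ω u (4 * w + 1) m c) ω) := by
  classical
  by_cases h3 : ThrS u (4 * w + 1) m ω
  · have h4 : ω ∈ {ω | ThrS u (4 * w + 1) m ω} := h3
    rw [H167.ind_mem h4, one_mul]
    unfold HQ
    rw [if_neg (fun h => h.1 h3), if_neg (fun h => h.1 h3), add_zero, add_zero]
  · have h4 : ω ∉ {ω | ThrS u (4 * w + 1) m ω} := h3
    rw [H167.ind_notMem h4, zero_mul]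
    by_cases hO : ∃ c, CroO ω u (4 * w + 1) m c
    · have hI : ¬ ∃ c, CroI ω u (4 * w + 1) m c := by
        rintro ⟨c', hc'⟩
        obtain ⟨c, hc⟩ := hO
        exact h3 ⟨c', c, croI_ne_croO C.am hc' hc, Or.inl hc', Or.inr hc⟩
      unfold HQ
      rw [if_pos ⟨h3, hO⟩, if_neg (fun h => hI h.2)]
      have hc : CroO ω u (4 * w + 1) m (cE (fun ω c => CroO ω u (4 * w + 1) m c) ω) :=
        cE_spec (Q := fun ω c => CroO ω u (4 * w + 1) m c) hO
      have e := C.far_sum h3 (Or.inr hc) hX fun x hx => hψ.abs_le hx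
      rw [e]
      ring
    · by_cases hI : ∃ c, CroI ω u (4 * w + 1) m c
      · unfold HQ
        rw [if_neg (fun h => hO h.2), if_pos ⟨h3, hI⟩]
        have hc : CroI ω u (4 * w + 1) m (cE (fun ω c => CroI ω u (4 * w + 1) m c) ω) :=
          cE_spec (Q := fun ω c => CroI ω u (4 * w + 1) m c) hI
        have e := C.far_sum h3 (Or.inl hc) hX fun x hx => hψ.abs_le hx
        rw [e]
        ring
      · unfold HQ
        rw [if_neg (fun h => hO h.2), if_neg (fun h => hI h.2)]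
        have e := C.far_sum_zero (ω := ω) (X := X) (ψ := ψ) (by
          rintro ⟨c, hc | hc⟩
          · exact hI ⟨c, hc⟩
          · exact hO ⟨c, hc⟩) fun x hx => hψ.abs_le hx
        rw [e]
        ring

/-- **The far part of a cell.** -/
theorem far_bd {C2 C3 α : ℝ} (h2 : I2 C2) (h3 : I3 C3 α) (hα : 0 < α) : ∃ C' : ℝ, 0 ≤ C' ∧
    ∀ (ε : ℝ) (K1 : ℤ), 0 ≤ ε → SymE ε K1 → ∀ (K R : ℤ) (D : Finset (ℤ × ℤ)) (p : ℤ × ℤ)
    (f : ℤ × ℤ → ℝ) (M : ℝ) (u : ℤ × ℤ) (k : ℕ) (w m : ℤ) (ψ : ℤ → ℝ) (X : Finset ℤ),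
    Cell K R D p f M u k w (4 * w + 1) m → CoConn D → Psi ψ u.1 w → K1 * k ≤ w →
    4 * (k : ℤ) + 1 ≤ 2 * w → (∀ x, ψ x ≠ 0 → x ∈ X) →
    |∫ ω, ∑ x ∈ X, ψ x * Ff D p u m f (x, 0 + (k : ℤ)) (x, 0) ω ∂μ| ≤
      C' * M * k * (((w : ℝ) / m) ^ (1 + α) + ε * ((w : ℝ) / m)) := by
  classical
  obtain ⟨CZ, hCZ, hZ⟩ := int_Z h2
  refine ⟨|C3| * 5 ^ (1 + α) * CZ + 10 * |C2|, by positivity,
    fun ε K1 hε hS K R D p f M u k w m ψ X C hco hψ hKw hkw hX => ?_⟩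
  obtain ⟨Y, hYf, hYl, hXY, hTY, hYM⟩ := C.env.Y
  have hM := C.env.M0
  have hY0 : ∀ ω, 0 ≤ Y ω := fun ω => (abs_nonneg _).trans (hXY ω)
  have hk := C.k1
  have ham := C.am
  have hmR := C.mR
  have hw1 : 1 ≤ w := by omega
  have hwr : (1 : ℝ) ≤ w := by exact_mod_cast hw1
  have hm0 : (0 : ℝ) < m := by exact_mod_cast (by omega : 0 < m)
  have hkr : (1 : ℝ) ≤ k := by exact_mod_cast hk
  set T3 : Set Cfg := {ω | ThrS u (4 * w + 1) m ω} with hT3
  set T2 : Set Cfg := {ω | TwoS u (4 * w + 1) m ω} with hT2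
  set S : Cfg → ℝ := fun ω => ∑ x ∈ X, ψ x * Ff D p u m f (x, 0 + (k : ℤ)) (x, 0) ω with hSdef
  have hSfd : Fd S := Fd.sum X fun x _ => (fd_Ff _ _).comp fun r => ψ x * r
  set HO := HQ D p u f (4 * w + 1) m ψ k (fun ω c => CroO ω u (4 * w + 1) m c) with hHO
  set HI := HQ D p u f (4 * w + 1) m ψ k (fun ω c => CroI ω u (4 * w + 1) m c) with hHI
  have hAD : hA u (4 * w + 1) m ⊆ D := hA_sub C.hF
  have hQO : ∀ ω ω' : Cfg, (∀ v ∈ hA u (4 * w + 1) m, ω v = ω' v) → ∀ c,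
      CroO ω u (4 * w + 1) m c ↔ CroO ω' u (4 * w + 1) m c := fun ω ω' h c =>
    ⟨croO_congr h, croO_congr fun v hv => (h v hv).symm⟩
  have hQI : ∀ ω ω' : Cfg, (∀ v ∈ hA u (4 * w + 1) m, ω v = ω' v) → ∀ c,
      CroI ω u (4 * w + 1) m c ↔ CroI ω' u (4 * w + 1) m c := fun ω ω' h c =>
    ⟨croI_congr h, croI_congr fun v hv => (h v hv).symm⟩
  have hHOi : Integrable HO μ := (dep_HQ hAD hQO).integrable
  have hHIi : Integrable HI μ := (dep_HQ hAD hQI).integrable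
  have hT3S : Integrable (fun ω => ind T3 ω * S ω) μ := ((fd_thr _ _ _).mul hSfd).int
  have hdec : ∫ ω, S ω ∂μ = ∫ ω, ind T3 ω * S ω ∂μ + (∫ ω, HO ω ∂μ + ∫ ω, HI ω ∂μ) := by
    rw [← integral_add hHOi hHIi, ← integral_add hT3S
      (show Integrable (fun ω => HO ω + HI ω) μ from hHOi.add hHIi)]
    exact integral_congr_ae (Filter.Eventually.of_forall fun ω => far_decomp C hψ hX ω)
  -- probabilities
  have hP2 : ∫ ω, Y ω * ind T2 ω ∂μ ≤ M * (5 * |C2| * ((w : ℝ) / m)) := by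
    have hdis : Disjoint {v : ℤ × ℤ | R < nm (v - u)}
        {v : ℤ × ℤ | 4 * w + 1 ≤ nm (v - u) ∧ nm (v - u) ≤ m} := by
      rw [Set.disjoint_left]
      intro v h4 h5
      have h4' : R < nm (v - u) := h4
      have h5' := h5.2
      omega
    rw [int_mul hdis hYf (fd_two _ _ _) hYl (locFun_ind (locSet_two _ _ _)), int_two]
    refine mul_le_mul hYM ?_ measureReal_nonneg hM
    calc μ.real {ω | TwoS u (4 * w + 1) m ω} ≤ C2 * (((4 * w + 1 : ℤ) : ℝ) / m) :=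
          h2 _ _ _ (by omega) ham
      _ ≤ |C2| * (((4 * w + 1 : ℤ) : ℝ) / m) := by
          refine mul_le_mul_of_nonneg_right (le_abs_self _) ?_
          have : (0 : ℝ) ≤ ((4 * w + 1 : ℤ) : ℝ) := by exact_mod_cast (by omega : 0 ≤ 4 * w + 1)
          positivity
      _ ≤ |C2| * (5 * ((w : ℝ) / m)) := by
          refine mul_le_mul_of_nonneg_left ?_ (abs_nonneg _)
          push_cast
          rw [← mul_div_assoc]
          exact div_le_div_of_nonneg_right (by linarith) hm0.le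
      _ = _ := by ring
  have hP3 : μ.real T3 ≤ |C3| * 5 ^ (1 + α) * ((w : ℝ) / m) ^ (1 + α) := by
    have h0 : (0 : ℝ) ≤ ((4 * w + 1 : ℤ) : ℝ) / m := by
      have : (0 : ℝ) ≤ ((4 * w + 1 : ℤ) : ℝ) := by exact_mod_cast (by omega : 0 ≤ 4 * w + 1)
      positivity
    calc μ.real T3 ≤ C3 * (((4 * w + 1 : ℤ) : ℝ) / m) ^ (1 + α) := h3 _ _ _ (by omega) ham
      _ ≤ |C3| * (((4 * w + 1 : ℤ) : ℝ) / m) ^ (1 + α) :=
          mul_le_mul_of_nonneg_right (le_abs_self _) (by positivity)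
      _ ≤ |C3| * (5 * ((w : ℝ) / m)) ^ (1 + α) := by
          refine mul_le_mul_of_nonneg_left (Real.rpow_le_rpow h0 ?_ (by linarith)) (abs_nonneg _)
          push_cast
          rw [← mul_div_assoc]
          exact div_le_div_of_nonneg_right (by linarith) hm0.le
      _ = _ := by rw [Real.mul_rpow (by norm_num) (by positivity)]; ring
  -- the event `T3`
  set X' := X.filter fun x => ψ x ≠ 0 with hX'
  have hcard : (X'.card : ℝ) ≤ 2 * w := by
    have h4 : X' ⊆ Icc (u.1 - w + 1) (u.1 + w - 1) := fun x hx => by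
      rw [hX', mem_filter] at hx
      rw [mem_Icc]
      exact hψ.supp x hx.2
    have h5 := Finset.card_le_card h4
    rw [Int.card_Icc] at h5
    have h6 : (X'.card : ℤ) ≤ 2 * w := by omega
    exact_mod_cast h6
  have b3 : |∫ ω, ind T3 ω * S ω ∂μ| ≤
      |C3| * 5 ^ (1 + α) * CZ * M * k * ((w : ℝ) / m) ^ (1 + α) := by
    have hpt : ∀ ω, |ind T3 ω * S ω| ≤ ∑ x ∈ X', Y ω * (ind T3 ω * Zf (x, 0) k (2 * w) ω) := by
      intro ω
      have e1 : S ω = ∑ x ∈ X', ψ x * Ff D p u m f (x, 0 + (k : ℤ)) (x, 0) ω := by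
        rw [hSdef, hX']
        refine (Finset.sum_filter_of_ne fun x _ h => ?_).symm
        exact left_ne_zero_of_mul h
      rw [e1, abs_mul, abs_of_nonneg (H167.ind_nonneg _ _)]
      calc ind T3 ω * |∑ x ∈ X', ψ x * Ff D p u m f (x, 0 + (k : ℤ)) (x, 0) ω|
          ≤ ind T3 ω * ∑ x ∈ X', Y ω * Zf (x, 0) k (2 * w) ω := by
            refine mul_le_mul_of_nonneg_left ((Finset.abs_sum_le_sum_abs _ _).trans
              (Finset.sum_le_sum fun x hx => ?_)) (H167.ind_nonneg _ _)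
            rw [hX', mem_filter] at hx
            rw [abs_mul]
            have h4 := hψ.le x
            have h5 := abs_Ff_le C hY0 hTY hkw (hψ.abs_le hx.2) ω
            nlinarith [abs_nonneg (ψ x), abs_nonneg (Ff D p u m f (x, 0 + (k : ℤ)) (x, 0) ω)]
        _ = _ := by
            rw [Finset.mul_sum]
            exact Finset.sum_congr rfl fun x _ => by ring
    have hterm : ∀ x ∈ X', ∫ ω, Y ω * (ind T3 ω * Zf (x, 0) k (2 * w) ω) ∂μ ≤
        M * ((|C3| * 5 ^ (1 + α) * ((w : ℝ) / m) ^ (1 + α)) * (CZ * (k / (2 * w)))) := by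
      intro x hx
      rw [hX', mem_filter] at hx
      have hxw := hψ.abs_le hx.2
      have hxu : nm (u - ((x, 0) : ℤ × ℤ)) ≤ w := by
        rw [nm_comm, nm_le']
        simp only [Prod.fst_sub, Prod.snd_sub, C.u2]
        rw [abs_le] at hxw
        omega
      have hZl := loc_Zf (x, 0) k hkw
      have hd1 : Disjoint {v : ℤ × ℤ | 4 * w + 1 ≤ nm (v - u) ∧ nm (v - u) ≤ m}
          {v : ℤ × ℤ | nm (v - (x, 0)) ≤ 2 * w} := by
        rw [Set.disjoint_left]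
        intro v h4 h5
        have h4' := h4.1
        have h5' : nm (v - (x, 0)) ≤ 2 * w := h5
        have := nm_tri v (x, 0) u
        rw [nm_comm (x, 0) u] at this
        omega
      have hd2 : Disjoint {v : ℤ × ℤ | R < nm (v - u)}
          ({v : ℤ × ℤ | 4 * w + 1 ≤ nm (v - u) ∧ nm (v - u) ≤ m} ∪
            {v : ℤ × ℤ | nm (v - (x, 0)) ≤ 2 * w}) := by
        rw [Set.disjoint_left]
        rintro v h4 (h5 | h5)
        · have h4' : R < nm (v - u) := h4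
          have h5' := h5.2
          omega
        · have h4' : R < nm (v - u) := h4
          have h5' : nm (v - (x, 0)) ≤ 2 * w := h5
          have := nm_tri v (x, 0) u
          rw [nm_comm (x, 0) u] at this
          omega
      rw [int_mul hd2 hYf ((fd_thr _ _ _).mul (fd_Zf _ _ _)) hYl
        (locFun_mul (locFun_ind (locSet_thr _ _ _)) hZl),
        int_mul hd1 (fd_thr _ _ _) (fd_Zf _ _ _) (locFun_ind (locSet_thr _ _ _)) hZl, int_thr]
      have hz := hZ (x, 0) k (2 * w) (by omega) hkw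
      push_cast at hz
      refine mul_le_mul hYM (mul_le_mul hP3 hz (integral_nonneg fun ω => Zf_nonneg _ _ _ ω)
        (by positivity)) (mul_nonneg measureReal_nonneg
          (integral_nonneg fun ω => Zf_nonneg _ _ _ ω)) hM
    calc |∫ ω, ind T3 ω * S ω ∂μ| ≤ ∫ ω, |ind T3 ω * S ω| ∂μ := abs_integral_le_integral_abs
      _ ≤ ∫ ω, ∑ x ∈ X', Y ω * (ind T3 ω * Zf (x, 0) k (2 * w) ω) ∂μ :=
          int_mono ((fd_thr _ _ _).mul hSfd).abs
            (Fd.sum X' fun x _ => hYf.mul ((fd_thr _ _ _).mul (fd_Zf _ _ _))) hpt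
      _ = ∑ x ∈ X', ∫ ω, Y ω * (ind T3 ω * Zf (x, 0) k (2 * w) ω) ∂μ :=
          integral_finsetSum _ fun x _ => (hYf.mul ((fd_thr _ _ _).mul (fd_Zf _ _ _))).int
      _ ≤ ∑ _x ∈ X', M * ((|C3| * 5 ^ (1 + α) * ((w : ℝ) / m) ^ (1 + α)) *
            (CZ * (k / (2 * w)))) := Finset.sum_le_sum hterm
      _ = X'.card * (M * ((|C3| * 5 ^ (1 + α) * ((w : ℝ) / m) ^ (1 + α)) *
            (CZ * (k / (2 * w))))) := by rw [Finset.sum_const, nsmul_eq_mul]
      _ ≤ (2 * w) * (M * ((|C3| * 5 ^ (1 + α) * ((w : ℝ) / m) ^ (1 + α)) *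
            (CZ * (k / (2 * w))))) := mul_le_mul_of_nonneg_right hcard (by positivity)
      _ = _ := by field_simp
  -- one crossing
  have hbO : |∫ ω, HO ω ∂μ| ≤ ε * k * (M * (5 * |C2| * ((w : ℝ) / m))) :=
    (int_HQ C hQO (fun ω c h => Or.inr h) hYf hY0 hTY hε
      (fun ζ h4 c hc => main_O hS C hco hψ hKw ζ h4 hc)).trans
      (mul_le_mul_of_nonneg_left hP2 (by positivity))
  have hbI : |∫ ω, HI ω ∂μ| ≤ ε * k * (M * (5 * |C2| * ((w : ℝ) / m))) :=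
    (int_HQ C hQI (fun ω c h => Or.inl h) hYf hY0 hTY hε
      (fun ζ h4 c hc => main_I hS C hco hψ hKw ζ h4 hc)).trans
      (mul_le_mul_of_nonneg_left hP2 (by positivity))
  rw [show (∫ ω, ∑ x ∈ X, ψ x * Ff D p u m f (x, 0 + (k : ℤ)) (x, 0) ω ∂μ) = ∫ ω, S ω ∂μ from rfl,
    hdec]
  have t0 : (0 : ℝ) ≤ M * k * ((w : ℝ) / m) ^ (1 + α) := by positivity
  have t1 : (0 : ℝ) ≤ M * k * (ε * ((w : ℝ) / m)) := by positivity
  have t2 : (0 : ℝ) ≤ |C3| * 5 ^ (1 + α) * CZ := by positivity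
  have t3 : (0 : ℝ) ≤ 10 * |C2| := by positivity
  calc |∫ ω, ind T3 ω * S ω ∂μ + (∫ ω, HO ω ∂μ + ∫ ω, HI ω ∂μ)|
      ≤ |∫ ω, ind T3 ω * S ω ∂μ| + (|∫ ω, HO ω ∂μ| + |∫ ω, HI ω ∂μ|) :=
        (abs_add_le _ _).trans (add_le_add le_rfl (abs_add_le _ _))
    _ ≤ |C3| * 5 ^ (1 + α) * CZ * M * k * ((w : ℝ) / m) ^ (1 + α) +
        (ε * k * (M * (5 * |C2| * ((w : ℝ) / m))) +
          ε * k * (M * (5 * |C2| * ((w : ℝ) / m)))) := add_le_add b3 (add_le_add hbO hbI)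
    _ = (|C3| * 5 ^ (1 + α) * CZ) * (M * k * ((w : ℝ) / m) ^ (1 + α)) +
        (10 * |C2|) * (M * k * (ε * ((w : ℝ) / m))) := by ring
    _ ≤ (|C3| * 5 ^ (1 + α) * CZ + 10 * |C2|) * (M * k * ((w : ℝ) / m) ^ (1 + α)) +
        (|C3| * 5 ^ (1 + α) * CZ + 10 * |C2|) * (M * k * (ε * ((w : ℝ) / m))) :=
        add_le_add (mul_le_mul_of_nonneg_right (by linarith) t0)
          (mul_le_mul_of_nonneg_right (by linarith) t1)
    _ = _ := by ring

end Vale.Agent.P167.H365
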