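import Vale.Agent.P167.H365.NFar1
import Vale.Agent.P167.H135.Tra
import Vale.Agent.P167.BR.Pot

/-!
# P167, block N-RED: the mirror image `x ↦ - x` of the sites (the direction of the interface is
reversed, the colours are kept)
-/

set_option linter.unusedTactic false
set_option linter.unreachableTactic false

namespace Vale.Agent.P167.H365

open Finset MeasureTheory ProbabilityTheory Vale.Agent.P167.BR Vale.Agent.P167.H542
open Vale.Agent.P167.H318 (st ex hit wt J St)

variable {D : Finset (ℤ × ℤ)} {b p x y u c : ℤ × ℤ} {ω ω' : Cfg} {e e' : Ed}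
  {ψ : ℤ → ℝ} {k : ℕ}

/-- The mirror image of a square. -/
def mi (v : ℤ × ℤ) : ℤ × ℤ := (-1 - v.1, v.2)

theorem mi_mi (v : ℤ × ℤ) : mi (mi v) = v := by simp [mi]

/-- The mirror image of the squares as a permutation. -/
def miE : (ℤ × ℤ) ≃ (ℤ × ℤ) where
  toFun := mi
  invFun := mi
  left_inv := mi_mi
  right_inv := mi_mi

theorem mi_inj : Function.Injective mi := miE.injective

/-- The mirror image of a medial edge. -/
def me : Ed → Ed
  | Sum.inl v => Sum.inl (-2 - v.1, v.2)
  | Sum.inr v => Sum.inr (-1 - v.1, v.2)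

theorem me_me (e : Ed) : me (me e) = e := by
  rcases e with v | v <;> simp [me]

theorem me_inj : Function.Injective me := fun a b h => by rw [← me_me a, h, me_me]

/-- The mirror image of a configuration. -/
def mc (ω : Cfg) : Cfg := fun v => ω (mi v)

theorem mc_mc (ω : Cfg) : mc (mc ω) = ω := by
  funext v
  simp [mc, mi_mi]

theorem mp_mc : MeasurePreserving mc μ μ := by
  have h := H135.mp_rl miE false
  have e : H135.rl miE false = mc := by
    funext ω v
    rfl
  rwa [e] at h

theorem ev_mi (x y : ℤ) : Even (-2 - x + y) ↔ Even (x + y) := by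
  rw [Int.even_iff, Int.even_iff]; omega

theorem ev_mi1 (x y : ℤ) : Even (-1 - x + y) ↔ ¬ Even (x + y) := by
  rw [Int.even_iff, Int.even_iff]; omega

theorem hdv_me (e : Ed) : hdv (me e) = mi (tlv e) := by
  rcases e with ⟨x, y⟩ | ⟨x, y⟩
  · have h := ev_mi x y
    show hdv (Sum.inl (-2 - x, y)) = _
    by_cases hp : Even (x + y) <;> simp only [hdv, tlv, mi, h, hp, if_true, if_false,
      Prod.mk.injEq, and_true] <;> omega
  · have h := ev_mi1 x y
    show hdv (Sum.inr (-1 - x, y)) = _
    by_cases hp : Even (x + y) <;> simp only [hdv, tlv, mi, h, hp, if_true, if_false, not_true,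
      not_false_iff]

theorem tlv_me (e : Ed) : tlv (me e) = mi (hdv e) := by
  have := hdv_me (me e)
  rw [me_me] at this
  rw [this, mi_mi]

theorem nx_me (ω : Cfg) (e : Ed) : nx (mc ω) (me (nx ω e)) = me e := by
  rcases e with ⟨x, y⟩ | ⟨x, y⟩
  · by_cases hp : Even (x + y)
    · cases hb : ω (x + 1, y) <;>
        simp only [nx, me, mc, mi, hp, hb, if_true, if_false, Bool.false_eq_true] <;>
        rw [Int.even_iff] at hp <;> simp only [Int.even_iff] <;>
        (try rw [if_neg (by omega)]) <;> (try rw [if_pos (by omega)]) <;>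
        (try ring_nf) <;> simp_all <;> (try ring_nf) <;>
        (try (rw [add_comm 1 x]; assumption)) <;> (try (rw [add_comm 1 y]; assumption))
    · cases hb : ω (x, y) <;>
        simp only [nx, me, mc, mi, hp, hb, if_true, if_false, Bool.false_eq_true] <;>
        rw [Int.even_iff] at hp <;> simp only [Int.even_iff] <;>
        (try rw [if_neg (by omega)]) <;> (try rw [if_pos (by omega)]) <;>
        (try ring_nf) <;> simp_all <;> (try ring_nf) <;>
        (try (rw [add_comm 1 x]; assumption)) <;> (try (rw [add_comm 1 y]; assumption))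
  · by_cases hp : Even (x + y)
    · cases hb : ω (x, y) <;>
        simp only [nx, me, mc, mi, hp, hb, if_true, if_false, Bool.false_eq_true] <;>
        rw [Int.even_iff] at hp <;> simp only [Int.even_iff] <;>
        (try rw [if_neg (by omega)]) <;> (try rw [if_pos (by omega)]) <;>
        (try ring_nf) <;> simp_all <;> (try ring_nf) <;>
        (try (rw [add_comm 1 x]; assumption)) <;> (try (rw [add_comm 1 y]; assumption))
    · cases hb : ω (x, y + 1) <;>
        simp only [nx, me, mc, mi, hp, hb, if_true, if_false, Bool.false_eq_true] <;>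
        rw [Int.even_iff] at hp <;> simp only [Int.even_iff] <;>
        (try rw [if_neg (by omega)]) <;> (try rw [if_pos (by omega)]) <;>
        (try ring_nf) <;> simp_all <;> (try ring_nf) <;>
        (try (rw [add_comm 1 x]; assumption)) <;> (try (rw [add_comm 1 y]; assumption))

theorem mem_mi {v : ℤ × ℤ} : mi v ∈ D.image mi ↔ v ∈ D := by
  rw [mem_image]
  exact ⟨fun ⟨w, h1, h2⟩ => mi_inj h2 ▸ h1, fun h => ⟨v, h, rfl⟩⟩

theorem mem_mi' {v : ℤ × ℤ} : v ∈ D.image mi ↔ mi v ∈ D := by
  have := mem_mi (v := mi v) (D := D)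
  rwa [mi_mi] at this

theorem me_mem_eds : me e ∈ eds (D.image mi) ↔ e ∈ eds D := by
  rw [mem_eds, mem_eds, hdv_me, tlv_me, mem_mi, mem_mi]
  exact or_comm

theorem nxt_me {a b : Ed} (h : Nxt ω D a b) : Nxt (mc ω) (D.image mi) (me b) (me a) := by
  obtain ⟨h1, rfl⟩ := h
  exact ⟨by rw [hdv_me, tlv_nx, mem_mi]; exact h1, (nx_me ω a).symm⟩

theorem eqv_me {a b : Ed} (h : Relation.EqvGen (Nxt ω D) a b) :
    Relation.EqvGen (Nxt (mc ω) (D.image mi)) (me a) (me b) := by
  induction h with
  | rel a b h => exact Relation.EqvGen.symm _ _ (Relation.EqvGen.rel _ _ (nxt_me h))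
  | refl a => exact Relation.EqvGen.refl _
  | symm a b _ ih => exact Relation.EqvGen.symm _ _ ih
  | trans a b c _ _ ih1 ih2 => exact Relation.EqvGen.trans _ _ _ ih1 ih2

theorem image_mi_mi (D : Finset (ℤ × ℤ)) : (D.image mi).image mi = D := by
  ext v
  rw [mem_mi', mem_mi]

theorem eqv_me_iff {a b : Ed} : Relation.EqvGen (Nxt (mc ω) (D.image mi)) (me a) (me b) ↔
    Relation.EqvGen (Nxt ω D) a b := by
  refine ⟨fun h => ?_, eqv_me⟩
  have := eqv_me h
  rwa [mc_mc, image_mi_mi, me_me, me_me] at this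

/-- The mirror image of a piece. -/
theorem piece_me : piece (mc ω) (D.image mi) (me e) = (piece ω D e).image me := by
  classical
  ext e'
  rw [mem_image]
  constructor
  · intro h
    refine ⟨me e', ?_, me_me _⟩
    rw [mem_piece] at h ⊢
    obtain ⟨h1, h2⟩ := h
    rw [← me_me e', me_mem_eds] at h1
    refine ⟨h1, eqv_me_iff.1 ?_⟩
    rwa [me_me]
  · rintro ⟨e'', h1, rfl⟩
    rw [mem_piece] at h1 ⊢
    exact ⟨me_mem_eds.2 h1.1, eqv_me_iff.2 h1.2⟩

theorem wt_me (e : Ed) : wt (fun x => ψ (-x)) k (me e) = wt ψ k e := by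
  rcases e with ⟨x, y⟩ | v
  · show (if 0 ≤ y ∧ y < k then ψ (-(-2 - x + 1)) * (sg (Sum.inl (-2 - x, y)) : ℝ) else 0) =
      (if 0 ≤ y ∧ y < k then ψ (x + 1) * (sg (Sum.inl (x, y)) : ℝ) else 0)
    have h := ev_mi x y
    have h2 : -(-2 - x + 1) = x + 1 := by ring
    rw [h2]
    simp only [sg, h]
  · rfl

theorem Wt_me (A : Finset Ed) : Wt (fun x => ψ (-x)) k (A.image me) = Wt ψ k A := by
  classical
  unfold Wt
  rw [Finset.sum_image fun a _ b _ h => me_inj h]
  exact Finset.sum_congr rfl fun e _ => wt_me e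

theorem adj_mi {a b : ℤ × ℤ} (h : H318.Adj a b) : H318.Adj (mi a) (mi b) := by
  unfold H318.Adj mi at *
  simp only
  omega

theorem coConn_mi (h : H318.CoConn D) : H318.CoConn (D.image mi) := by
  intro a b ha hb
  rw [mem_mi'] at ha hb
  have h1 := h _ _ ha hb
  have key : ∀ {a b : ℤ × ℤ}, Relation.ReflTransGen (fun a b => H318.Adj a b ∧ b ∉ D) a b →
      Relation.ReflTransGen (fun a b => H318.Adj a b ∧ b ∉ D.image mi) (mi a) (mi b) := by
    intro a b h
    induction h with
    | refl => exact Relation.ReflTransGen.refl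
    | tail _ h ih => exact Relation.ReflTransGen.tail ih ⟨adj_mi h.1, by rw [mem_mi]; exact h.2⟩
  have := key h1
  rwa [mi_mi, mi_mi] at this

end Vale.Agent.P167.H365
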