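import Vale.Agent.P167.H365.NChain

/-!
# P167, block N-RED: covariance of the functional with the near part
-/

namespace Vale.Agent.P167.H365

open Finset MeasureTheory ProbabilityTheory Vale.Agent.P167.BR Vale.Agent.P167.H542
open Vale.Agent.P167.H167 (Fd ind Bg em_Bg ArmE)
open Vale.Agent.P167.H562 (LocFun LocSet Em indepFun_of_local)

variable {D : Finset (ℤ × ℤ)} {b p x y u c : ℤ × ℤ} {a m R r L K : ℤ} {ω ω' : Cfg}
  {f : ℤ × ℤ → ℝ} {M : ℝ} {A : Finset Ed}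

/-- `A` does not visit a square of `D` off the box of radius `r` around `c`. -/
def Nr (D : Finset (ℤ × ℤ)) (c : ℤ × ℤ) (r : ℤ) (A : Finset Ed) : Prop := ¬ FarA D c r A

theorem Nr.hd (h : Nr D c r A) {e : Ed} (he : e ∈ A) (hd : hdv e ∈ D) : nm (hdv e - c) ≤ r := by
  by_contra hcon
  push Not at hcon
  exact h ⟨e, he, Or.inl ⟨hd, hcon⟩⟩

theorem Nr.mono {c' : ℤ × ℤ} {r' : ℤ} (h : Nr D c r A) (hr : r + nm (c - c') ≤ r') :
    Nr D c' r' A := by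
  rintro ⟨e, he, h1⟩
  refine h ⟨e, he, ?_⟩
  rcases h1 with h1 | h1
  · have := nm_tri (hdv e) c c'
    exact Or.inl ⟨h1.1, by omega⟩
  · have := nm_tri (tlv e) c c'
    exact Or.inr ⟨h1.1, by omega⟩

theorem not_nr : ¬ Nr D c r A ↔ FarA D c r A := not_not

theorem exists_hd (hA : A ∈ pcs ω D) : ∃ e ∈ A, hdv e ∈ D := by
  obtain ⟨e, he⟩ := pcs_nonempty hA
  rcases mem_eds.1 (subset_eds hA he) with h | h
  · exact ⟨e, he, h⟩
  · obtain ⟨e0, h0, -, h2⟩ := pred_mem hA he h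
    exact ⟨e0, h0, by rw [h2]; exact h⟩

theorem hdv_ne_tlv (e : Ed) : hdv e ≠ tlv e := by
  intro h
  rcases e with ⟨x, y⟩ | ⟨x, y⟩ <;> by_cases hp : Even (x + y) <;>
    simp only [hdv, tlv, hp, if_true, if_false, Prod.mk.injEq] at h <;> omega

/-- A piece visits at least two squares. -/
theorem not_small_one (hA : A ∈ pcs ω D) : ¬ Small 1 A := by
  intro hs
  obtain ⟨e, he, hd⟩ := exists_hd hA
  have h1 := (nx_mem_iff hA hd).1 he
  have h2 := hs _ (mem_image_of_mem hdv h1) _ (mem_image_of_mem hdv he)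
  have h3 : nm (hdv (nx ω e) - hdv e) < 1 := by exact_mod_cast h2
  have h4 : hdv (nx ω e) = hdv e := by
    have h5 := nm_le'.1 (show nm (hdv (nx ω e) - hdv e) ≤ 0 by omega)
    simp only [Prod.fst_sub, Prod.snd_sub] at h5
    ext <;> omega
  exact hdv_ne_tlv (nx ω e) (by rw [h4, tlv_nx])

/-- The scale of a ring. -/
noncomputable def dd (K r : ℤ) : ℤ := max 1 (r / K)

theorem dd_one (K r : ℤ) : 1 ≤ dd K r := le_max_left _ _

theorem dd_le (hr : 1 ≤ r) (hR : r ≤ R) : dd K r ≤ R :=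
  max_le (by omega) (le_trans (Int.ediv_le_self _ (by omega)) hR)

theorem dd_or (hK : 1 ≤ K) : dd K r = 1 ∨ K * dd K r ≤ r := by
  unfold dd
  rcases le_total 1 (r / K) with h | h
  · right
    rw [max_eq_right h]
    exact Int.mul_ediv_self_le (by omega)
  · left; exact max_eq_left h

theorem le_dd (hK : 1 ≤ K) (hL : L ≤ 18 * r) : L ≤ 36 * K * dd K r := by
  have h1 : r < K * (r / K) + K := Int.lt_mul_ediv_self_add (by omega)
  have h2 : r / K ≤ dd K r := le_max_right _ _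
  have h3 := dd_one K r
  nlinarith

theorem mem_Bg {d : ℝ} : A ∈ Bg D x L d ω ↔ A ∈ pcs ω D ∧ (∃ e ∈ A, nm (hdv e - x) ≤ L) ∧
    ¬ Small d A := by
  classical
  unfold Bg
  exact mem_filter

theorem ring_Bg (E : Env K R D p f M u) (hc : nm (c - u) ≤ R) (hcs : c ∈ sites D)
    {d : ℤ} (hd1 : 1 ≤ d) (hd : d = 1 ∨ K * d ≤ r) (hdR : d ≤ R) (hA : A ∈ pcs ω D)
    (hN : Nr D c L A) (hL : L ≤ R) (hfar : FarA D c r A) (hS : Sep D A c p) :
    A ∈ Bg D c L d ω := by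
  obtain ⟨e2, h2, h3, h4⟩ := far_hd hA hfar
  rw [mem_Bg]
  refine ⟨hA, ⟨e2, h2, hN.hd h2 h3⟩, fun hs => ?_⟩
  rcases hd with rfl | hd
  · exact not_small_one hA (by simpa using hs)
  · have h5 := hN.hd h2 h3
    have h6 := nm_tri p (hdv e2) u
    have h7 := nm_tri (hdv e2) c u
    have h8 := E.hp
    have hKR := E.KR
    have hK := E.one_le
    have hR := E.R1
    have h9 : K * d ≤ K * R := mul_le_mul_of_nonneg_left hdR (by omega)
    have hj := E.gf (hdv e2) d hd1 (by omega) c hcs (by rw [nm_comm]; omega) (by nlinarith)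
    refine not_sep (fun e he hm => ?_) hj hS
    have h10 := hs _ (mem_image_of_mem hdv hm) _ (mem_image_of_mem hdv h2)
    have h11 : nm (hdv e - hdv e2) < d := by exact_mod_cast h10
    omega

theorem core_Bg (hA : A ∈ pcs ω D) (hN : Nr D c 1 A) : A ∈ Bg D c 1 1 ω := by
  obtain ⟨e, he, hd⟩ := exists_hd hA
  rw [mem_Bg]
  exact ⟨hA, ⟨e, he, hN.hd he hd⟩, not_small_one hA⟩

theorem se_ne (h : se D p A c ≠ 0) : Sep D A c p := by
  by_contra hcon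
  exact h (if_neg hcon)

theorem abs_se : |se D p A c| ≤ 1 := by
  rw [abs_le]
  constructor
  · linarith [se_nonneg (D := D) (p := p) (A := A) (z := c)]
  · exact se_le

theorem nm_up (x1 y0 : ℤ) (k : ℕ) : nm ((x1, y0 + (k : ℤ)) - (x1, y0)) = k := by
  unfold nm
  simp

theorem dl_vis {x1 y0 : ℤ} {k : ℕ} (hk : 1 ≤ k) (hF : Fl D (x1, y0) (k + 1))
    (h : dl D p (x1, y0 + k) (x1, y0) A ≠ 0) : VisI D (x1, y0) (k + 1) A := by
  by_contra hcon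
  apply h
  refine dl_zero (P := fun e => hdv e ∈ D ∧ nm (hdv e - (x1, y0)) < k + 1)
    (fun e he hm => hcon ⟨e, hm, he.1, he.2⟩) (Jn.symm (jn_up k fun j hj => ?_))
  have h1 : ∀ v : ℤ × ℤ, (v.1 = x1 - 1 ∨ v.1 = x1) → v.2 = y0 + j →
      v ∈ D ∧ nm (v - (x1, y0)) < k + 1 := by
    intro v h1 h2
    have h3 : nm (v - (x1, y0)) ≤ k := by
      rw [nm_le']
      simp only [Prod.fst_sub, Prod.snd_sub]
      omega
    exact ⟨(hF v (by omega)).2 (by simp only; omega), by omega⟩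
  have h2 : hdv (Sum.inl (x1 - 1, y0 + (j : ℤ))) = (x1 - 1, y0 + (j : ℤ)) ∨
      hdv (Sum.inl (x1 - 1, y0 + (j : ℤ))) = (x1, y0 + (j : ℤ)) := by
    by_cases hp : Even (x1 - 1 + (y0 + (j : ℤ))) <;>
      simp only [hdv, hp, if_true, if_false, sub_add_cancel]
    · exact Or.inr trivial
    · exact Or.inl trivial
  rcases h2 with h2 | h2
  · have h3 := h1 (x1 - 1, y0 + j) (Or.inl rfl) rfl
    exact ⟨mem_eds.2 (Or.inl (by rw [h2]; exact h3.1)), by rw [h2]; exact h3⟩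
  · have h3 := h1 (x1, y0 + j) (Or.inr rfl) rfl
    exact ⟨mem_eds.2 (Or.inl (by rw [h2]; exact h3.1)), by rw [h2]; exact h3⟩

/-! ### Expectations -/

open Classical in
theorem int_SQ {Q : Finset Ed → Prop} {g : Finset Ed → ℝ} (hg : ∀ A, |g A| ≤ 1) {X : Cfg → ℝ}
    (hX : Fd X) {B : ℝ} (hB : ∫ ω, X ω ∂μ ≤ B)
    (h : ∀ ω, (((pcs ω D).filter fun A => Q A ∧ g A ≠ 0).card : ℝ) ≤ X ω) :
    ∫ ω, |SQ D Q g ω| ∂μ ≤ 2 * B := by
  calc ∫ ω, |SQ D Q g ω| ∂μ ≤ ∫ ω, 2 * X ω ∂μ :=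
        int_mono (fd_SQ Q g).abs (hX.comp fun r => 2 * r) fun ω =>
          (SQ_le hg ω).trans (by linarith [h ω])
    _ = 2 * ∫ ω, X ω ∂μ := integral_const_mul _ _
    _ ≤ 2 * B := by linarith

theorem geom (β : ℝ) (hβ : 0 < β) : ∃ C : ℝ, 0 < C ∧ ∀ J : ℕ,
    ∑ i ∈ range J, ((2 : ℝ) ^ i) ^ β ≤ C * ((2 : ℝ) ^ J) ^ β := by
  have h2 : (1 : ℝ) < 2 ^ β := Real.one_lt_rpow (by norm_num) hβ
  refine ⟨1 / (2 ^ β - 1), by apply div_pos one_pos; linarith, fun J => ?_⟩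
  have e : ∀ i : ℕ, ((2 : ℝ) ^ i) ^ β = ((2 : ℝ) ^ β) ^ i := fun i => by
    rw [← Real.rpow_natCast, ← Real.rpow_mul (by norm_num), mul_comm, Real.rpow_mul (by norm_num),
      Real.rpow_natCast]
  simp only [e]
  rw [geom_sum_eq h2.ne', div_mul_eq_mul_div, one_mul]
  exact div_le_div_of_nonneg_right (by linarith) (by linarith)

/-- Three-arm bound in the form which is used. -/
theorem thr_le {C3 α : ℝ} (h3 : I3 C3 α) (hα : 0 < α) : ∃ C : ℝ, 0 < C ∧ ∀ (x : ℤ × ℤ)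
    (r R : ℤ), 1 ≤ r → 2 ≤ R → r + 1 ≤ R / 2 →
    μ.real {ω | ThrS x (r + 1) (R / 2) ω} ≤ C * ((r : ℝ) / R) ^ (1 + α) := by
  refine ⟨|C3| * 6 ^ (1 + α) + 1, by positivity, fun x r R hr hR hrR => ?_⟩
  have hr' : (1 : ℝ) ≤ r := by exact_mod_cast hr
  have hR' : (2 : ℝ) ≤ R := by exact_mod_cast hR
  have h4 : R ≤ 3 * (R / 2) := by omega
  have h4' : (R : ℝ) ≤ 3 * ((R / 2 : ℤ) : ℝ) := by exact_mod_cast h4
  have h5 : (0 : ℝ) < ((R / 2 : ℤ) : ℝ) := by linarith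
  have h6 : ((r + 1 : ℤ) : ℝ) / ((R / 2 : ℤ) : ℝ) ≤ 6 * ((r : ℝ) / R) := by
    rw [div_le_iff₀ h5]
    have h7 : 6 * ((r : ℝ) / R) * ((R / 2 : ℤ) : ℝ) = 2 * r * (3 * ((R / 2 : ℤ) : ℝ) / R) := by
      field_simp; ring
    rw [h7]
    have h8 : 1 ≤ 3 * ((R / 2 : ℤ) : ℝ) / R := by rw [le_div_iff₀ (by linarith)]; linarith
    push_cast
    nlinarith
  have h7 : (0 : ℝ) ≤ ((r + 1 : ℤ) : ℝ) / ((R / 2 : ℤ) : ℝ) := by
    have : (0 : ℝ) ≤ ((r + 1 : ℤ) : ℝ) := by exact_mod_cast (by omega : 0 ≤ r + 1)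
    positivity
  have h8 : (0 : ℝ) ≤ (r : ℝ) / R := by positivity
  calc μ.real {ω | ThrS x (r + 1) (R / 2) ω}
      ≤ C3 * (((r + 1 : ℤ) : ℝ) / ((R / 2 : ℤ) : ℝ)) ^ (1 + α) := h3 _ _ _ (by omega) hrR
    _ ≤ |C3| * (((r + 1 : ℤ) : ℝ) / ((R / 2 : ℤ) : ℝ)) ^ (1 + α) :=
        mul_le_mul_of_nonneg_right (le_abs_self _) (by positivity)
    _ ≤ |C3| * (6 * ((r : ℝ) / R)) ^ (1 + α) :=
        mul_le_mul_of_nonneg_left (Real.rpow_le_rpow h7 h6 (by linarith)) (abs_nonneg _)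
    _ = |C3| * 6 ^ (1 + α) * ((r : ℝ) / R) ^ (1 + α) := by
        rw [Real.mul_rpow (by norm_num) h8]; ring
    _ ≤ _ := by
        have : (0 : ℝ) ≤ ((r : ℝ) / R) ^ (1 + α) := by positivity
        nlinarith

end Vale.Agent.P167.H365
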