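import Vale.Agent.P167.H365.NNear

/-!
# P167, block N-RED: covariance of the functional with the near part, assembly
-/

namespace Vale.Agent.P167.H365

open Finset MeasureTheory ProbabilityTheory Vale.Agent.P167.BR Vale.Agent.P167.H542
open Vale.Agent.P167.H167 (Fd ind Bg em_Bg ArmE armE_le)
open Vale.Agent.P167.H562 (LocFun LocSet Em indepFun_of_local)

variable {D : Finset (ℤ × ℤ)} {b p x y u c : ℤ × ℤ} {a m R r L K : ℤ} {ω ω' : Cfg}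
  {f : ℤ × ℤ → ℝ} {M : ℝ} {A : Finset Ed}

/-- The three-arm bound, in the form of `thr_le`. -/
def Thr (C α : ℝ) : Prop := ∀ (x : ℤ × ℤ) (r R : ℤ), 1 ≤ r → 2 ≤ R → r + 1 ≤ R / 2 →
    μ.real {ω | ThrS x (r + 1) (R / 2) ω} ≤ C * ((r : ℝ) / R) ^ (1 + α)

theorem Env.locY (hy : nm (y - u) ≤ R / 2) {Y : Cfg → ℝ}
    (hYS : LocFun {v | R < nm (v - u)} Y) : LocFun {v | R / 2 < nm (v - y)} Y := by
  refine hYS.mono fun v hv => ?_
  have hv' : R < nm (v - u) := hv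
  show R / 2 < nm (v - y)
  have := nm_tri v y u
  omega

theorem Env.M0 (E : Env K R D p f M u) : 0 ≤ M := by
  obtain ⟨Y, -, -, h3, -, h5⟩ := E.Y
  exact (integral_nonneg fun ω => (abs_nonneg _).trans (h3 ω)).trans h5

theorem half_bd {C α : ℝ} (hC : 0 ≤ C) (hT : Thr C α) (E : Env K R D p f M u)
    (hy : nm (y - u) ≤ R / 2) (hy2 : y.2 = u.2) (hr : 1 ≤ r) (hrR : r + 1 ≤ R / 2) {N : Cfg → ℝ}
    (hN : Fd N) (hNS : LocFun {v | nm (v - y) ≤ r} N) {B : ℝ} (hB : ∫ ω, |N ω| ∂μ ≤ B) :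
    |cv (XD D p f) N| ≤ 4 * M * C * ((r : ℝ) / R) ^ (1 + α) * B := by
  obtain ⟨Y, h1, h2, h3, -, h5⟩ := E.Y
  have hM := E.M0
  have h6 := cov_half (R := R / 2) (r := r) (y := y) hrR (E.fl' (by omega) hy2 (by omega)) E.pot
    (E.chJ (by omega) (by omega) (by omega)) h1 (Env.locY hy h2) h3 hN hNS
  have h7 := hT y r R hr (by omega) hrR
  have h8 : 0 ≤ ∫ ω, |N ω| ∂μ := integral_nonneg fun ω => abs_nonneg _
  have h9 : 0 ≤ ∫ ω, Y ω ∂μ := integral_nonneg fun ω => (abs_nonneg _).trans (h3 ω)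
  have h10 : (0 : ℝ) ≤ ((r : ℝ) / R) ^ (1 + α) := by
    have : (0 : ℝ) ≤ r := by exact_mod_cast (by omega : 0 ≤ r)
    have : (0 : ℝ) ≤ R := by exact_mod_cast (by omega : 0 ≤ R)
    positivity
  refine h6.trans ?_
  calc 4 * ((∫ ω, Y ω ∂μ) * μ.real {ω | ThrS y (r + 1) (R / 2) ω}) * ∫ ω, |N ω| ∂μ
      ≤ 4 * (M * (C * ((r : ℝ) / R) ^ (1 + α))) * B := by
        refine mul_le_mul (mul_le_mul_of_nonneg_left (mul_le_mul h5 h7 measureReal_nonneg hM)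
          (by norm_num)) hB h8 (by positivity)
    _ = _ := by ring

theorem bulk_bd {C α CA αA : ℝ} (hC : 0 ≤ C) (hT : Thr C α)
    (hA : ∀ (x : ℤ × ℤ) (r R : ℤ), 1 ≤ r → 1 ≤ R →
      ∫ ω, ind (ArmE x r R) ω ∂μ ≤ CA * ((r : ℝ) / R) ^ αA) (hCA : 0 ≤ CA)
    (E : Env K R D p f M u)
    (hy : nm (y - u) ≤ R / 2) (hy2 : y.2 = u.2) (hr : 1 ≤ r) (hrR : r + 1 ≤ R / 2) {d k' : ℤ}
    (hd : 1 ≤ d) (hdk : d < k') (hc : ∀ v, nm (v - c) ≤ k' → nm (v - y) ≤ r) {N : Cfg → ℝ}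
    (hN : Fd N) (hNS : LocFun {v | nm (v - c) ≤ d} N) {B : ℝ} (hB : ∫ ω, |N ω| ∂μ ≤ B) :
    |cv (XD D p f) N| ≤
      4 * M * C * ((r : ℝ) / R) ^ (1 + α) * (CA * ((d : ℝ) / k') ^ αA) * B := by
  obtain ⟨Y, h1, h2, h3, -, h5⟩ := E.Y
  have hM := E.M0
  have h6 := cov_bulk (R := R / 2) (r := r) (y := y) (c := c) (d := d) (k' := k') hdk hrR hc
    (E.fl' (by omega) hy2 (by omega)) E.pot
    (E.chJ (by omega) (by omega) (by omega)) (E.chJ (by omega) (by omega) (by omega)) h1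
    (Env.locY hy h2) h3 hN hNS
  have h7 := hT y r R hr (by omega) hrR
  have h7' := hA c d k' hd (by omega)
  have h8 : 0 ≤ ∫ ω, |N ω| ∂μ := integral_nonneg fun ω => abs_nonneg _
  have h9 : 0 ≤ ∫ ω, Y ω ∂μ := integral_nonneg fun ω => (abs_nonneg _).trans (h3 ω)
  have h10 : (0 : ℝ) ≤ ((r : ℝ) / R) ^ (1 + α) := by
    have : (0 : ℝ) ≤ r := by exact_mod_cast (by omega : 0 ≤ r)
    have : (0 : ℝ) ≤ R := by exact_mod_cast (by omega : 0 ≤ R)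
    positivity
  have h11 : (0 : ℝ) ≤ ((d : ℝ) / k') ^ αA := by
    have : (0 : ℝ) ≤ d := by exact_mod_cast (by omega : 0 ≤ d)
    have : (0 : ℝ) ≤ k' := by exact_mod_cast (by omega : 0 ≤ k')
    positivity
  have h12 : 0 ≤ ∫ ω, ind (ArmE c d k') ω ∂μ := integral_nonneg fun ω => H167.ind_nonneg _ _
  refine h6.trans ?_
  calc 4 * ((∫ ω, Y ω ∂μ) * (μ.real {ω | ThrS y (r + 1) (R / 2) ω} *
        ∫ ω, ind (ArmE c d k') ω ∂μ)) * ∫ ω, |N ω| ∂μ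
      ≤ 4 * (M * ((C * ((r : ℝ) / R) ^ (1 + α)) * (CA * ((d : ℝ) / k') ^ αA))) * B := by
        refine mul_le_mul (mul_le_mul_of_nonneg_left (mul_le_mul h5 (mul_le_mul h7 h7' h12
          (by positivity)) (by positivity) hM)
          (by norm_num)) hB h8 (by positivity)
    _ = _ := by ring

/-- Expectation of a ring. -/
theorem int_ring {CB : ℝ} {Λ : ℕ} (hB : ∀ (D : Finset (ℤ × ℤ)) (x : ℤ × ℤ) (L : ℤ) (d : ℝ),
    1 ≤ d → 0 ≤ L → (L : ℝ) ≤ Λ * d → ∫ ω, ((Bg D x L d ω).card : ℝ) ∂μ ≤ CB)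
    {Q : Finset Ed → Prop} {L d : ℤ} (hd : 1 ≤ d) (hL : 0 ≤ L) (hLd : L ≤ Λ * d)
    (h : ∀ ω, ∀ A ∈ pcs ω D, Q A → Sep D A c p → A ∈ Bg D c L d ω) :
    ∫ ω, |SQ D Q (fun A => se D p A c) ω| ∂μ ≤ 2 * CB := by
  classical
  refine int_SQ (fun A => abs_se) (fd_Bg D c L d) (hB D c L d (by exact_mod_cast hd) hL
    (by exact_mod_cast hLd)) fun ω => ?_
  have hsub : ((pcs ω D).filter fun A => Q A ∧ se D p A c ≠ 0) ⊆ Bg D c L d ω := by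
    intro A hA
    rw [mem_filter] at hA
    exact h ω A hA.1 hA.2.1 (se_ne hA.2.2)
  exact_mod_cast Finset.card_le_card hsub

theorem SQ_loc_nr {Q : Finset Ed → Prop} {g : Finset Ed → ℝ} (hQ : ∀ A, Q A → Nr D c r A) :
    LocFun {v | nm (v - c) ≤ r} (SQ D Q g) :=
  SQ_loc fun A hA _ he hd => (hQ A hA).hd he hd

theorem exists_log {N : ℕ} (hN : 1 ≤ N) : ∃ J : ℕ, 2 ^ J ≤ N ∧ N < 2 ^ (J + 1) :=
  ⟨Nat.log 2 N, Nat.pow_log_le_self 2 (by omega), Nat.lt_pow_succ_log_self (by norm_num) N⟩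

end Vale.Agent.P167.H365
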