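import Vale.Agent.P167.H365.NNear2

/-!
# P167, block N-RED: covariance of the functional with the near part, the small scales
-/

namespace Vale.Agent.P167.H365

open Finset MeasureTheory ProbabilityTheory Vale.Agent.P167.BR Vale.Agent.P167.H542
open Vale.Agent.P167.H167 (Fd ind Bg em_Bg ArmE armE_le)
open Vale.Agent.P167.H562 (LocFun LocSet Em indepFun_of_local)

variable {D : Finset (ℤ × ℤ)} {b p x y u c : ℤ × ℤ} {a m R r L K : ℤ} {ω ω' : Cfg}
  {f : ℤ × ℤ → ℝ} {M : ℝ} {A : Finset Ed}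

theorem mem_sites_self (h : c ∈ D) : c ∈ sites D := by
  rw [mem_sites]
  exact ⟨c, h, Or.inl rfl, Or.inl rfl⟩

theorem int_ring' {CB : ℝ} (hB : ∀ (D : Finset (ℤ × ℤ)) (x : ℤ × ℤ) (L : ℤ) (d : ℝ),
    1 ≤ d → 0 ≤ L → (L : ℝ) ≤ ((36 * K).toNat : ℕ) * d →
      ∫ ω, ((Bg D x L d ω).card : ℝ) ∂μ ≤ CB)
    (E : Env K R D p f M u) (hc : nm (c - u) ≤ R) (hcs : c ∈ sites D) {Q : Finset Ed → Prop}
    (hr : 1 ≤ r) (hL1 : r ≤ L) (hL : L ≤ 18 * r) (hLR : L ≤ R)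
    (hQ : ∀ A, Q A → Nr D c L A ∧ FarA D c r A) :
    ∫ ω, |SQ D Q (fun A => se D p A c) ω| ∂μ ≤ 2 * CB := by
  have hK := E.one_le
  refine int_ring (Λ := (36 * K).toNat) hB (L := L) (d := dd K r) (dd_one K r) (by omega) ?_ ?_
  · rw [Int.toNat_of_nonneg (by omega)]
    exact le_dd hK hL
  · intro ω A hA h1 h2
    obtain ⟨h3, h4⟩ := hQ A h1
    exact ring_Bg E hc hcs (dd_one K r) (dd_or hK) (dd_le hr (by omega)) hA h3 hLR h4 h2

theorem int_core {CB : ℝ} (hB : ∀ (D : Finset (ℤ × ℤ)) (x : ℤ × ℤ) (L : ℤ) (d : ℝ),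
    1 ≤ d → 0 ≤ L → (L : ℝ) ≤ ((36 * K).toNat : ℕ) * d →
      ∫ ω, ((Bg D x L d ω).card : ℝ) ∂μ ≤ CB) (hK : 1 ≤ K) {Q : Finset Ed → Prop}
    (hQ : ∀ A, Q A → Nr D c 1 A) :
    ∫ ω, |SQ D Q (fun A => se D p A c) ω| ∂μ ≤ 2 * CB := by
  refine int_ring (Λ := (36 * K).toNat) hB (L := 1) (d := 1) le_rfl zero_le_one ?_ ?_
  · rw [Int.toNat_of_nonneg (by omega)]; omega
  · intro ω A hA h1 _
    have := core_Bg hA (hQ A h1)
    simpa using this

theorem rpow_frac_mono {a b R β : ℝ} (ha : 0 ≤ a) (hab : a ≤ b) (hR : 0 < R) (hβ : 0 ≤ β) :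
    (a / R) ^ β ≤ (b / R) ^ β :=
  Real.rpow_le_rpow (by positivity) (div_le_div_of_nonneg_right hab hR.le) hβ

/-- **The small scales, boundary site.** -/
theorem base_x {C α CB : ℝ} (hC : 0 ≤ C) (hα : 0 < α) (hT : Thr C α) (hCB : 0 ≤ CB)
    (hK : 1 ≤ K)
    (hB : ∀ (D : Finset (ℤ × ℤ)) (x : ℤ × ℤ) (L : ℤ) (d : ℝ),
    1 ≤ d → 0 ≤ L → (L : ℝ) ≤ ((36 * K).toNat : ℕ) * d →
      ∫ ω, ((Bg D x L d ω).card : ℝ) ∂μ ≤ CB) : ∃ C' : ℝ, 0 ≤ C' ∧
    ∀ (R : ℤ) (D : Finset (ℤ × ℤ)) (p : ℤ × ℤ) (f : ℤ × ℤ → ℝ) (M : ℝ) (u : ℤ × ℤ),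
    Env K R D p f M u → ∀ (k : ℕ) (x : ℤ × ℤ), 1 ≤ k → 32 * (k : ℤ) ≤ R → nm (x - u) ≤ R / 2 →
      x.2 = u.2 →
    |cv (XD D p f) (SQ D (Nr D x (8 * k)) (fun A => se D p A x))| ≤
      C' * M * ((k : ℝ) / R) ^ (1 + α) := by
  obtain ⟨Cg, hCg, hg⟩ := geom (1 + α) (by linarith)
  refine ⟨8 * C * CB * (8 ^ (1 + α) * (2 + Cg)), by positivity,
    fun R D p f M u E k x hk hkR hx hx2 => ?_⟩
  obtain ⟨J, hJ1, hJ2⟩ := exists_log hk
  have hM := E.M0
  have hR0 : (0 : ℝ) < R := by exact_mod_cast (by omega : 0 < R)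
  have hkr : (1 : ℝ) ≤ k := by exact_mod_cast hk
  have hJz : (2 : ℤ) ^ J ≤ k := by exact_mod_cast hJ1
  have hJz2 : (k : ℤ) < 2 * 2 ^ J := by
    have : (k : ℤ) < 2 ^ (J + 1) := by exact_mod_cast hJ2
    rwa [pow_succ, mul_comm] at this
  have hxD : x ∈ D := by
    have hKR := E.KR
    have hxR : nm (x - u) ≤ R := by omega
    have := E.fl x (by nlinarith [nm_nonneg (x - u)])
    rw [this, hx2]
  have hxs := mem_sites_self hxD
  have hp1 : ∀ i : ℕ, (1 : ℤ) ≤ 2 ^ i := fun i => one_le_pow₀ (by norm_num)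
  have hpJ : ∀ i : ℕ, i ≤ J → (2 : ℤ) ^ i ≤ 2 ^ J := fun i hi =>
    pow_le_pow_right₀ (by norm_num) hi
  -- core
  have core : |cv (XD D p f) (SQ D (Nr D x (2 ^ 0)) (fun A => se D p A x))| ≤
      4 * M * C * (((1 : ℤ) : ℝ) / R) ^ (1 + α) * (2 * CB) :=
    half_bd hC hT E hx hx2 le_rfl (by omega) (fd_SQ _ _)
      (SQ_loc_nr fun A h => by simpa using h) (int_core hB hK fun A h => by simpa using h)
  -- rings
  have ring : ∀ i < J, |cv (XD D p f) (SQ D (fun A => Nr D x (2 ^ (i + 1)) A ∧ ¬ Nr D x (2 ^ i) A)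
      (fun A => se D p A x))| ≤
      4 * M * C * (((2 ^ (i + 1) : ℤ) : ℝ) / R) ^ (1 + α) * (2 * CB) := by
    intro i hi
    have h1 := hp1 i
    have h2 := hpJ (i + 1) (by omega)
    have h3 : (2 : ℤ) ^ (i + 1) = 2 * 2 ^ i := by rw [pow_succ, mul_comm]
    exact half_bd hC hT E hx hx2 (by omega) (by omega) (fd_SQ _ _)
      (SQ_loc_nr fun A h => h.1) (int_ring' (r := 2 ^ i) (L := 2 ^ (i + 1)) hB E (by omega) hxs h1
        (by omega) (by omega) (by omega) fun A h => ⟨h.1, not_nr.1 h.2⟩)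
  have chain := cv_chain (D := D) (fd_XD D p f) (fun A => se D p A x)
    (Q := fun i => Nr D x (2 ^ i)) (fun j A h => h.mono (by
      have h3 : (2 : ℤ) ^ (j + 1) = 2 * 2 ^ j := by rw [pow_succ, mul_comm]
      have := hp1 j
      simp only [sub_self]
      have h4 : nm (0 : ℤ × ℤ) = 0 := by simp [nm]
      omega)) _ J core ring
  -- base
  have base : |cv (XD D p f) (SQ D (fun A => Nr D x (8 * k) A ∧ ¬ Nr D x (2 ^ J) A)
      (fun A => se D p A x))| ≤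
      4 * M * C * (((8 * k : ℤ) : ℝ) / R) ^ (1 + α) * (2 * CB) := by
    have h1 := hp1 J
    exact half_bd hC hT E hx hx2 (by omega) (by omega) (fd_SQ _ _)
      (SQ_loc_nr fun A h => h.1) (int_ring' (r := 2 ^ J) (L := 8 * k) hB E (by omega) hxs h1
        (by omega) (by omega) (by omega) fun A h => ⟨h.1, not_nr.1 h.2⟩)
  have hsplit : SQ D (Nr D x (8 * k)) (fun A => se D p A x) = fun ω =>
      SQ D (Nr D x (2 ^ J)) (fun A => se D p A x) ω +
      SQ D (fun A => Nr D x (8 * k) A ∧ ¬ Nr D x (2 ^ J) A) (fun A => se D p A x) ω := by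
    funext ω
    refine SQ_split (fun A h => h.mono ?_) _ ω
    have h4 : nm (0 : ℤ × ℤ) = 0 := by simp [nm]
    simp only [sub_self]
    omega
  rw [hsplit, cv_add (fd_XD D p f) (fd_SQ _ _) (fd_SQ _ _)]
  have hsum : ∑ i ∈ range J, 4 * M * C * (((2 ^ (i + 1) : ℤ) : ℝ) / R) ^ (1 + α) * (2 * CB) ≤
      8 * M * C * CB * (Cg * ((2 * k : ℝ) / R) ^ (1 + α)) := by
    have e1 : ∀ i : ℕ, (((2 ^ (i + 1) : ℤ) : ℝ) / R) ^ (1 + α) =
        (2 / R) ^ (1 + α) * ((2 : ℝ) ^ i) ^ (1 + α) := fun i => by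
      rw [← Real.mul_rpow (by positivity) (by positivity)]
      congr 1
      push_cast
      ring
    simp only [e1]
    calc ∑ i ∈ range J, 4 * M * C * ((2 / R) ^ (1 + α) * ((2 : ℝ) ^ i) ^ (1 + α)) * (2 * CB)
        = 8 * M * C * CB * ((2 / R) ^ (1 + α) * ∑ i ∈ range J, ((2 : ℝ) ^ i) ^ (1 + α)) := by
          rw [Finset.mul_sum, Finset.mul_sum]
          exact Finset.sum_congr rfl fun i _ => by ring
      _ ≤ 8 * M * C * CB * ((2 / R) ^ (1 + α) * (Cg * ((2 : ℝ) ^ J) ^ (1 + α))) := by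
          refine mul_le_mul_of_nonneg_left (mul_le_mul_of_nonneg_left (hg J) (by positivity))
            (by positivity)
      _ ≤ 8 * M * C * CB * ((2 / R) ^ (1 + α) * (Cg * (k : ℝ) ^ (1 + α))) := by
          have : ((2 : ℝ) ^ J) ^ (1 + α) ≤ (k : ℝ) ^ (1 + α) :=
            Real.rpow_le_rpow (by positivity) (by exact_mod_cast hJ1) (by linarith)
          refine mul_le_mul_of_nonneg_left (mul_le_mul_of_nonneg_left
            (mul_le_mul_of_nonneg_left this hCg.le) (by positivity)) (by positivity)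
      _ = _ := by
          rw [show (2 * k : ℝ) / R = 2 / R * k by ring, Real.mul_rpow (by positivity)
            (by positivity)]
          ring
  have m1 : (((1 : ℤ) : ℝ) / R) ^ (1 + α) ≤ (8 * k / R) ^ (1 + α) :=
    rpow_frac_mono (by norm_num) (by push_cast; linarith) hR0 (by linarith)
  have m2 : ((2 * k : ℝ) / R) ^ (1 + α) ≤ (8 * k / R) ^ (1 + α) :=
    rpow_frac_mono (by positivity) (by linarith) hR0 (by linarith)
  have m3 : (((8 * k : ℤ) : ℝ) / R) ^ (1 + α) = (8 * k / R) ^ (1 + α) := by push_cast; rfl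
  have m4 : ((8 * k : ℝ) / R) ^ (1 + α) = 8 ^ (1 + α) * ((k : ℝ) / R) ^ (1 + α) := by
    rw [← Real.mul_rpow (by norm_num) (by positivity)]
    congr 1; ring
  set T := ((8 * k : ℝ) / R) ^ (1 + α) with hT'
  have hT0 : 0 ≤ T := by positivity
  rw [m3] at base
  have hMC : 0 ≤ 8 * M * C * CB := by positivity
  calc |cv (XD D p f) (SQ D (Nr D x (2 ^ J)) (fun A => se D p A x)) +
        cv (XD D p f) (SQ D (fun A => Nr D x (8 * k) A ∧ ¬ Nr D x (2 ^ J) A)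
          (fun A => se D p A x))|
      ≤ (4 * M * C * (((1 : ℤ) : ℝ) / R) ^ (1 + α) * (2 * CB) +
        8 * M * C * CB * (Cg * ((2 * k : ℝ) / R) ^ (1 + α))) +
        4 * M * C * T * (2 * CB) :=
        (abs_add_le _ _).trans (add_le_add (chain.trans (add_le_add le_rfl hsum)) base)
    _ = 8 * M * C * CB * ((((1 : ℤ) : ℝ) / R) ^ (1 + α) +
        Cg * ((2 * k : ℝ) / R) ^ (1 + α) + T) := by ring
    _ ≤ 8 * M * C * CB * (T + Cg * T + T) := by
        refine mul_le_mul_of_nonneg_left ?_ hMC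
        have := mul_le_mul_of_nonneg_left m2 hCg.le
        linarith
    _ = _ := by rw [m4]; ring

/-- **The small scales, site at height `k`.** -/
theorem base_z {C α CB CA αA : ℝ} (hC : 0 ≤ C) (hT : Thr C α) (hCB : 0 ≤ CB)
    (hK : 1 ≤ K)
    (hA : ∀ (x : ℤ × ℤ) (r R : ℤ), 1 ≤ r → 1 ≤ R →
      ∫ ω, ind (ArmE x r R) ω ∂μ ≤ CA * ((r : ℝ) / R) ^ αA) (hCA : 0 ≤ CA) (hαA : 0 < αA)
    (hB : ∀ (D : Finset (ℤ × ℤ)) (x : ℤ × ℤ) (L : ℤ) (d : ℝ),
    1 ≤ d → 0 ≤ L → (L : ℝ) ≤ ((36 * K).toNat : ℕ) * d →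
      ∫ ω, ((Bg D x L d ω).card : ℝ) ∂μ ≤ CB) : ∃ C' : ℝ, 0 ≤ C' ∧
    ∀ (R : ℤ) (D : Finset (ℤ × ℤ)) (p : ℤ × ℤ) (f : ℤ × ℤ → ℝ) (M : ℝ) (u : ℤ × ℤ),
    Env K R D p f M u → ∀ (k : ℕ) (x c : ℤ × ℤ), 1 ≤ k → 32 * (k : ℤ) ≤ R →
      nm (x - u) ≤ R / 2 → x.2 = u.2 → c.1 = x.1 → c.2 = x.2 + k →
    |cv (XD D p f) (SQ D (Nr D x (8 * k)) (fun A => se D p A c))| ≤
      C' * M * ((k : ℝ) / R) ^ (1 + α) := by
  obtain ⟨Cg, hCg, hg⟩ := geom αA hαA
  refine ⟨8 * C * CB * (8 ^ (1 + α) * (2 + CA * Cg)), by positivity,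
    fun R D p f M u E k x c hk hkR hx hx2 hc1 hc2 => ?_⟩
  obtain ⟨J, hJ1, hJ2⟩ := exists_log hk
  have hM := E.M0
  have hR0 : (0 : ℝ) < R := by exact_mod_cast (by omega : 0 < R)
  have hkr : (1 : ℝ) ≤ k := by exact_mod_cast hk
  have hJz : (2 : ℤ) ^ J ≤ k := by exact_mod_cast hJ1
  have hJz2 : (k : ℤ) < 2 * 2 ^ J := by
    have : (k : ℤ) < 2 ^ (J + 1) := by exact_mod_cast hJ2
    rwa [pow_succ, mul_comm] at this
  have hcx : nm (c - x) = k := by
    simp only [nm, Prod.fst_sub, Prod.snd_sub, hc1, hc2, sub_self, abs_zero, add_sub_cancel_left,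
      Nat.abs_cast, max_eq_right (Int.natCast_nonneg k)]
  have hxc : nm (x - c) = k := by rw [nm_comm, hcx]
  have hcu : nm (c - u) ≤ R := by
    have := nm_tri c x u
    omega
  have hcD : c ∈ D := by
    have hKR := E.KR
    have := E.fl c (by nlinarith [nm_nonneg (c - u)])
    rw [this, ← hx2, hc2]
    omega
  have hcs := mem_sites_self hcD
  have hp1 : ∀ i : ℕ, (1 : ℤ) ≤ 2 ^ i := fun i => one_le_pow₀ (by norm_num)
  have hpJ : ∀ i : ℕ, i ≤ J → (2 : ℤ) ^ i ≤ 2 ^ J := fun i hi =>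
    pow_le_pow_right₀ (by norm_num) hi
  -- core
  have core : |cv (XD D p f) (SQ D (Nr D c (2 ^ 0)) (fun A => se D p A c))| ≤
      4 * M * C * (((8 * k : ℤ) : ℝ) / R) ^ (1 + α) * (2 * CB) :=
    half_bd hC hT E hx hx2 (by omega) (by omega) (fd_SQ _ _)
      (SQ_loc_nr fun A h => h.mono (by simp only [pow_zero]; omega))
      (int_core hB hK fun A h => by simpa using h)
  -- rings
  have ring : ∀ i < J, |cv (XD D p f) (SQ D (fun A => Nr D c (2 ^ (i + 1)) A ∧ ¬ Nr D c (2 ^ i) A)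
      (fun A => se D p A c))| ≤
      4 * M * C * (((8 * k : ℤ) : ℝ) / R) ^ (1 + α) *
        (CA * (((2 ^ (i + 1) : ℤ) : ℝ) / ((7 * k : ℤ) : ℝ)) ^ αA) * (2 * CB) := by
    intro i hi
    have h1 := hp1 i
    have h2 := hpJ (i + 1) (by omega)
    have h3 : (2 : ℤ) ^ (i + 1) = 2 * 2 ^ i := by rw [pow_succ, mul_comm]
    exact bulk_bd (c := c) (d := 2 ^ (i + 1)) (k' := 7 * k) (r := 8 * k) hC hT hA hCA E hx hx2
      (by omega) (by omega) (by omega) (by omega)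
      (fun v hv => by have := nm_tri v c x; omega) (fd_SQ _ _)
      (SQ_loc_nr fun A h => h.1) (int_ring' (r := 2 ^ i) (L := 2 ^ (i + 1)) hB E hcu hcs h1
        (by omega) (by omega) (by omega) fun A h => ⟨h.1, not_nr.1 h.2⟩)
  have chain := cv_chain (D := D) (fd_XD D p f) (fun A => se D p A c)
    (Q := fun i => Nr D c (2 ^ i)) (fun j A h => h.mono (by
      have h3 : (2 : ℤ) ^ (j + 1) = 2 * 2 ^ j := by rw [pow_succ, mul_comm]
      have := hp1 j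
      simp only [sub_self]
      have h4 : nm (0 : ℤ × ℤ) = 0 := by simp [nm]
      omega)) _ J core ring
  -- base
  have base : |cv (XD D p f) (SQ D (fun A => Nr D x (8 * k) A ∧ ¬ Nr D c (2 ^ J) A)
      (fun A => se D p A c))| ≤
      4 * M * C * (((8 * k : ℤ) : ℝ) / R) ^ (1 + α) * (2 * CB) := by
    have h1 := hp1 J
    exact half_bd hC hT E hx hx2 (by omega) (by omega) (fd_SQ _ _)
      (SQ_loc_nr fun A h => h.1) (int_ring' (r := 2 ^ J) (L := 9 * k) hB E hcu hcs h1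
        (by omega) (by omega) (by omega) fun A h => ⟨h.1.mono (by omega), not_nr.1 h.2⟩)
  have hsplit : SQ D (Nr D x (8 * k)) (fun A => se D p A c) = fun ω =>
      SQ D (Nr D c (2 ^ J)) (fun A => se D p A c) ω +
      SQ D (fun A => Nr D x (8 * k) A ∧ ¬ Nr D c (2 ^ J) A) (fun A => se D p A c) ω := by
    funext ω
    refine SQ_split (fun A h => h.mono ?_) _ ω
    omega
  rw [hsplit, cv_add (fd_XD D p f) (fd_SQ _ _) (fd_SQ _ _)]
  have m3 : (((8 * k : ℤ) : ℝ) / R) ^ (1 + α) = (8 * k / R) ^ (1 + α) := by push_cast; rfl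
  have m4 : ((8 * k : ℝ) / R) ^ (1 + α) = 8 ^ (1 + α) * ((k : ℝ) / R) ^ (1 + α) := by
    rw [← Real.mul_rpow (by norm_num) (by positivity)]
    congr 1; ring
  rw [m3] at base chain
  set T := ((8 * k : ℝ) / R) ^ (1 + α) with hT'
  have hT0 : 0 ≤ T := by positivity
  have hMC : 0 ≤ 8 * M * C * CB := by positivity
  have hsum : ∑ i ∈ range J, 4 * M * C * T *
        (CA * (((2 ^ (i + 1) : ℤ) : ℝ) / ((7 * k : ℤ) : ℝ)) ^ αA) * (2 * CB) ≤
      8 * M * C * CB * (T * (CA * Cg)) := by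
    have e1 : ∀ i : ℕ, (((2 ^ (i + 1) : ℤ) : ℝ) / ((7 * k : ℤ) : ℝ)) ^ αA =
        (2 / (7 * k)) ^ αA * ((2 : ℝ) ^ i) ^ αA := fun i => by
      rw [← Real.mul_rpow (by positivity) (by positivity)]
      congr 1
      push_cast
      ring
    simp only [e1]
    calc ∑ i ∈ range J, 4 * M * C * T * (CA * ((2 / (7 * k)) ^ αA * ((2 : ℝ) ^ i) ^ αA)) *
          (2 * CB)
        = 8 * M * C * CB * (T * (CA * ((2 / (7 * k)) ^ αA * ∑ i ∈ range J, ((2 : ℝ) ^ i) ^ αA))) := by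
          rw [Finset.mul_sum, Finset.mul_sum, Finset.mul_sum, Finset.mul_sum]
          exact Finset.sum_congr rfl fun i _ => by ring
      _ ≤ 8 * M * C * CB * (T * (CA * ((2 / (7 * k)) ^ αA * (Cg * ((2 : ℝ) ^ J) ^ αA)))) := by
          refine mul_le_mul_of_nonneg_left (mul_le_mul_of_nonneg_left (mul_le_mul_of_nonneg_left
            (mul_le_mul_of_nonneg_left (hg J) (by positivity)) hCA) hT0) hMC
      _ = 8 * M * C * CB * (T * (CA * (Cg * (2 / (7 * k) * (2 : ℝ) ^ J) ^ αA))) := by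
          rw [Real.mul_rpow (by positivity) (by positivity)]
          ring
      _ ≤ 8 * M * C * CB * (T * (CA * (Cg * 1))) := by
          have h5 : (2 / (7 * k) * (2 : ℝ) ^ J) ^ αA ≤ 1 := by
            refine Real.rpow_le_one (by positivity) ?_ hαA.le
            have : (2 : ℝ) ^ J ≤ k := by exact_mod_cast hJ1
            rw [div_mul_eq_mul_div, div_le_one (by positivity)]
            linarith
          refine mul_le_mul_of_nonneg_left (mul_le_mul_of_nonneg_left (mul_le_mul_of_nonneg_left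
            (mul_le_mul_of_nonneg_left h5 hCg.le) hCA) hT0) hMC
      _ = _ := by ring
  calc |cv (XD D p f) (SQ D (Nr D c (2 ^ J)) (fun A => se D p A c)) +
        cv (XD D p f) (SQ D (fun A => Nr D x (8 * k) A ∧ ¬ Nr D c (2 ^ J) A)
          (fun A => se D p A c))|
      ≤ (4 * M * C * T * (2 * CB) + 8 * M * C * CB * (T * (CA * Cg))) +
        4 * M * C * T * (2 * CB) :=
        (abs_add_le _ _).trans (add_le_add (chain.trans (add_le_add le_rfl hsum)) base)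
    _ = _ := by rw [m4]; ring

end Vale.Agent.P167.H365
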