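import Vale.Agent.P167.H365.NNear3

/-!
# P167, block N-RED: covariance of the functional with the near part, final bound
-/

namespace Vale.Agent.P167.H365

open Finset MeasureTheory ProbabilityTheory Vale.Agent.P167.BR Vale.Agent.P167.H542
open Vale.Agent.P167.H167 (Fd ind Bg em_Bg ArmE armE_le)
open Vale.Agent.P167.H562 (LocFun LocSet Em indepFun_of_local)

variable {D : Finset (ℤ × ℤ)} {b p x y u c : ℤ × ℤ} {a m R r L K : ℤ} {ω ω' : Cfg}
  {f : ℤ × ℤ → ℝ} {M : ℝ} {A : Finset Ed}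

/-- Expectation of the pieces at `x` which go far. -/
theorem int_far {Cc : ℝ} (hc : ∀ (D : Finset (ℤ × ℤ)) (x : ℤ × ℤ)
    (k R : ℤ), 1 ≤ k → 4 * k + 1 ≤ R → Fl D x (R + 1) →
    ∫ ω, (cntF D x k R ω : ℝ) ∂μ ≤ Cc * ((k : ℝ) / R)) {Q : Finset Ed → Prop} {x1 y0 : ℤ}
    {k : ℕ} (hk : 1 ≤ k) (hkr : 4 * (k : ℤ) + 1 ≤ r) (hF : Fl D (x1, y0) (r + 1))
    (hQ : ∀ A, Q A → FarA D (x1, y0) r A) :
    ∫ ω, |SQ D Q (dl D p (x1, y0 + k) (x1, y0)) ω| ∂μ ≤ 2 * (Cc * ((k : ℝ) / r)) := by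
  classical
  have h1 := hc D (x1, y0) k r (by omega) hkr hF
  refine int_SQ (fun A => abs_dl_le) (fd_cntF D (x1, y0) k r) (by simpa using h1) fun ω => ?_
  have hsub : ((pcs ω D).filter fun A => Q A ∧ dl D p (x1, y0 + k) (x1, y0) A ≠ 0) ⊆
      (pcs ω D).filter fun A => VisI D (x1, y0) (k + 1) A ∧ FarA D (x1, y0) r A := by
    intro A hA
    rw [mem_filter] at hA ⊢
    refine ⟨hA.1, dl_vis hk ?_ hA.2.2, hQ A hA.2.1⟩
    exact fun v hv => hF v (by omega)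
  unfold cntF
  exact_mod_cast Finset.card_le_card hsub

/-- **The near part.** -/
theorem near_cov {C2 C3 α : ℝ} (h2 : I2 C2) (h3 : I3 C3 α) (hα : 0 < α) (K : ℤ) (hK : 1 ≤ K) :
    ∃ C : ℝ, 0 ≤ C ∧ ∀ (R : ℤ) (D : Finset (ℤ × ℤ)) (p : ℤ × ℤ) (f : ℤ × ℤ → ℝ) (M : ℝ)
    (u : ℤ × ℤ), Env K R D p f M u → ∀ (m x1 : ℤ) (k : ℕ), 1 ≤ k → 32 * (k : ℤ) ≤ m →
      4 * m ≤ R → |x1 - u.1| ≤ m / 4 →
    |cv (XD D p f) (Nn D p u m (x1, u.2 + k) (x1, u.2))| ≤
      C * M * (((k : ℝ) / R) * ((m : ℝ) / R) ^ α) := by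
  obtain ⟨C, hC, hT⟩ := thr_le h3 hα
  obtain ⟨Cc, hCc, hcc⟩ := int_cntF h2
  obtain ⟨CA, αA, hCA, hαA, -, hA⟩ := armE_le
  obtain ⟨CB, hCB, hB⟩ := int_Bg (36 * K).toNat
  obtain ⟨Cx, hCx, hx⟩ := base_x (K := K) hC.le hα hT hCB.le hK hB
  obtain ⟨Cz, hCz, hz⟩ := base_z (K := K) hC.le hT hCB.le hK hA hCA.le hαA hB
  obtain ⟨Cg, hCg, hg⟩ := geom α hα
  refine ⟨Cx + Cz + 16 * C * Cc * Cg + 32 * C * Cc, by positivity,
    fun R D p f M u E m x1 k hk hkm hmR hxu => ?_⟩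
  have hM := E.M0
  have hkr : (1 : ℝ) ≤ k := by exact_mod_cast hk
  have hR0 : (0 : ℝ) < R := by exact_mod_cast (by omega : 0 < R)
  have hm0 : (0 : ℝ) < m := by exact_mod_cast (by omega : 0 < m)
  have hkm' : (32 : ℝ) * k ≤ m := by exact_mod_cast hkm
  set x : ℤ × ℤ := (x1, u.2) with hxdef
  set z1 : ℤ × ℤ := (x1, u.2 + k) with hz1def
  have hxu' : nm (x - u) ≤ m / 4 := by
    rw [nm_le']
    simp only [hxdef, Prod.fst_sub, Prod.snd_sub, sub_self]
    rw [abs_le] at hxu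
    omega
  set T := ((k : ℝ) / R) * ((m : ℝ) / R) ^ α with hTdef
  have hT0 : 0 ≤ T := by positivity
  have hkT : ((k : ℝ) / R) ^ (1 + α) ≤ T := by
    rw [Real.rpow_add (by positivity), Real.rpow_one]
    refine mul_le_mul_of_nonneg_left ?_ (by positivity)
    exact rpow_frac_mono (by positivity) (by linarith) hR0 hα.le
  -- the small scales
  have b0 : |cv (XD D p f) (SQ D (Nr D x (2 ^ 0 * (8 * k))) (dl D p z1 x))| ≤
      (Cx + Cz) * M * T := by
    have e : SQ D (Nr D x (2 ^ 0 * (8 * k))) (dl D p z1 x) = fun ω =>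
        SQ D (Nr D x (8 * k)) (fun A => se D p A z1) ω -
        SQ D (Nr D x (8 * k)) (fun A => se D p A x) ω := by
      funext ω
      have e0 : (2 : ℤ) ^ 0 * (8 * k) = 8 * k := by ring
      rw [e0]
      simp only [SQ]
      rw [← Finset.sum_sub_distrib]
      exact Finset.sum_congr rfl fun A _ => by unfold dl; ring
    rw [e, cv_sub (fd_XD D p f) (fd_SQ _ _) (fd_SQ _ _)]
    have e1 := hz R D p f M u E k x z1 hk (by omega) (by omega) rfl rfl rfl
    have e2 := hx R D p f M u E k x hk (by omega) (by omega) rfl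
    calc _ ≤ |cv (XD D p f) (SQ D (Nr D x (8 * k)) fun A => se D p A z1)| +
          |cv (XD D p f) (SQ D (Nr D x (8 * k)) fun A => se D p A x)| := abs_sub _ _
      _ ≤ Cz * M * ((k : ℝ) / R) ^ (1 + α) + Cx * M * ((k : ℝ) / R) ^ (1 + α) := add_le_add e1 e2
      _ = (Cx + Cz) * M * ((k : ℝ) / R) ^ (1 + α) := by ring
      _ ≤ _ := mul_le_mul_of_nonneg_left hkT (by positivity)
  -- the scales
  obtain ⟨J, hJ1, hJ2⟩ := exists_log (N := ((m / 2) / (8 * k)).toNat) (by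
    have : 1 ≤ (m / 2) / (8 * (k : ℤ)) := by
      rw [Int.le_ediv_iff_mul_le (by omega)]; omega
    omega)
  have hN0 : 0 ≤ (m / 2) / (8 * (k : ℤ)) := Int.ediv_nonneg (by omega) (by omega)
  have hJz : (2 : ℤ) ^ J ≤ (m / 2) / (8 * k) := by
    have : ((2 ^ J : ℕ) : ℤ) ≤ (((m / 2) / (8 * (k : ℤ))).toNat : ℤ) := by exact_mod_cast hJ1
    rw [Int.toNat_of_nonneg hN0] at this
    exact_mod_cast this
  have hJz2 : (m / 2) / (8 * (k : ℤ)) < 2 * 2 ^ J := by
    have : (((m / 2) / (8 * (k : ℤ))).toNat : ℤ) < ((2 ^ (J + 1) : ℕ) : ℤ) := by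
      exact_mod_cast hJ2
    rw [Int.toNat_of_nonneg hN0] at this
    have h5 : ((2 ^ (J + 1) : ℕ) : ℤ) = 2 * 2 ^ J := by push_cast; ring
    omega
  have hup : (2 : ℤ) ^ J * (8 * k) ≤ m / 2 := by
    calc (2 : ℤ) ^ J * (8 * k) ≤ (m / 2) / (8 * k) * (8 * k) :=
          mul_le_mul_of_nonneg_right hJz (by omega)
      _ ≤ m / 2 := Int.ediv_mul_le _ (by omega)
  have hlo : m / 2 < 2 * (2 ^ J * (8 * k)) := by
    have h5 : m / 2 < ((m / 2) / (8 * (k : ℤ)) + 1) * (8 * k) := Int.lt_ediv_add_one_mul_self _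
      (by omega)
    have h6 : ((m / 2) / (8 * (k : ℤ)) + 1) * (8 * k) ≤ (2 * 2 ^ J) * (8 * k) :=
      mul_le_mul_of_nonneg_right (by omega) (by omega)
    calc m / 2 < (2 * 2 ^ J) * (8 * (k : ℤ)) := lt_of_lt_of_le h5 h6
      _ = _ := by ring
  have hp1 : ∀ i : ℕ, (1 : ℤ) ≤ 2 ^ i := fun i => one_le_pow₀ (by norm_num)
  have hpJ : ∀ i : ℕ, i ≤ J → (2 : ℤ) ^ i * (8 * k) ≤ 2 ^ J * (8 * k) := fun i hi =>
    mul_le_mul_of_nonneg_right (pow_le_pow_right₀ (by norm_num) hi) (by omega)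
  have hp8 : ∀ i : ℕ, 8 * (k : ℤ) ≤ 2 ^ i * (8 * k) := fun i => by
    have := hp1 i
    nlinarith
  have hFx : ∀ r : ℤ, r ≤ 7 * R → Fl D x r := fun r hr => E.fl' (by omega) rfl hr
  have ring : ∀ i < J, |cv (XD D p f) (SQ D (fun A => Nr D x (2 ^ (i + 1) * (8 * k)) A ∧
      ¬ Nr D x (2 ^ i * (8 * k)) A) (dl D p z1 x))| ≤
      4 * M * C * (((2 ^ (i + 1) * (8 * k) : ℤ) : ℝ) / R) ^ (1 + α) *
        (2 * (Cc * ((k : ℝ) / ((2 ^ i * (8 * k) : ℤ) : ℝ)))) := by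
    intro i hi
    have h1 := hp8 i
    have h4 := hpJ (i + 1) (by omega)
    have h5 := hpJ i (by omega)
    have h6 := hp8 (i + 1)
    exact half_bd (y := x) hC.le hT E (by omega) rfl (by omega) (by omega) (fd_SQ _ _)
      (SQ_loc_nr fun A h => h.1) (int_far hcc hk (by omega) (hFx _ (by omega))
        fun A h => not_nr.1 h.2)
  have chain := cv_chain (D := D) (fd_XD D p f) (dl D p z1 x)
    (Q := fun i => Nr D x (2 ^ i * (8 * k))) (fun j A h => h.mono (by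
      have h3 : (2 : ℤ) ^ (j + 1) * (8 * k) = 2 * (2 ^ j * (8 * k)) := by ring
      have := hp8 j
      simp only [sub_self]
      have h4 : nm (0 : ℤ × ℤ) = 0 := by simp [nm]
      omega)) _ J b0 ring
  have hsum : ∑ i ∈ range J, 4 * M * C * (((2 ^ (i + 1) * (8 * k) : ℤ) : ℝ) / R) ^ (1 + α) *
        (2 * (Cc * ((k : ℝ) / ((2 ^ i * (8 * k) : ℤ) : ℝ)))) ≤ 16 * C * Cc * Cg * M * T := by
    have e1 : ∀ i : ℕ, 4 * M * C * (((2 ^ (i + 1) * (8 * k) : ℤ) : ℝ) / R) ^ (1 + α) *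
        (2 * (Cc * ((k : ℝ) / ((2 ^ i * (8 * k) : ℤ) : ℝ)))) =
        16 * M * C * Cc * (((k : ℝ) / R) * ((16 * k / R) ^ α * ((2 : ℝ) ^ i) ^ α)) := fun i => by
      rw [Real.rpow_add (by positivity), Real.rpow_one,
        ← Real.mul_rpow (by positivity) (by positivity)]
      have e2 : (((2 ^ (i + 1) * (8 * k) : ℤ) : ℝ) / R) = 16 * k / R * 2 ^ i := by
        push_cast; ring
      rw [e2]
      push_cast
      field_simp
      ring
    simp only [e1]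
    calc ∑ i ∈ range J, 16 * M * C * Cc * (((k : ℝ) / R) * ((16 * k / R) ^ α * ((2 : ℝ) ^ i) ^ α))
        = 16 * M * C * Cc * (((k : ℝ) / R) * ((16 * k / R) ^ α *
            ∑ i ∈ range J, ((2 : ℝ) ^ i) ^ α)) := by
          rw [Finset.mul_sum, Finset.mul_sum, Finset.mul_sum]
      _ ≤ 16 * M * C * Cc * (((k : ℝ) / R) * ((16 * k / R) ^ α * (Cg * ((2 : ℝ) ^ J) ^ α))) := by
          refine mul_le_mul_of_nonneg_left (mul_le_mul_of_nonneg_left (mul_le_mul_of_nonneg_left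
            (hg J) (by positivity)) (by positivity)) (by positivity)
      _ = 16 * C * Cc * Cg * M * (((k : ℝ) / R) * (16 * k / R * (2 : ℝ) ^ J) ^ α) := by
          rw [Real.mul_rpow (by positivity) (by positivity)]
          ring
      _ ≤ 16 * C * Cc * Cg * M * T := by
          refine mul_le_mul_of_nonneg_left (mul_le_mul_of_nonneg_left ?_ (by positivity))
            (by positivity)
          refine Real.rpow_le_rpow (by positivity) ?_ hα.le
          have h5 : (2 : ℤ) ^ J * (16 * k) ≤ m := by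
            have : (2 : ℤ) ^ J * (16 * k) = 2 * (2 ^ J * (8 * k)) := by ring
            omega
          have h6 : (2 : ℝ) ^ J * (16 * k) ≤ m := by exact_mod_cast h5
          calc 16 * (k : ℝ) / R * 2 ^ J = (2 ^ J * (16 * k)) / R := by ring
            _ ≤ m / R := div_le_div_of_nonneg_right h6 hR0.le
  -- the last ring
  have h8J := hp8 J
  have last : |cv (XD D p f) (SQ D (fun A => Nr D u m A ∧ ¬ Nr D x (2 ^ J * (8 * k)) A)
      (dl D p z1 x))| ≤ 4 * M * C * (((m : ℤ) : ℝ) / R) ^ (1 + α) *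
        (2 * (Cc * ((k : ℝ) / ((2 ^ J * (8 * k) : ℤ) : ℝ)))) := by
    have h4 : nm (u - u) = 0 := by simp [nm]
    exact half_bd (y := u) hC.le hT E (by omega) rfl (by omega) (by omega) (fd_SQ _ _)
      (SQ_loc_nr fun A h => h.1) (int_far hcc hk (by omega) (hFx _ (by omega))
        fun A h => not_nr.1 h.2)
  have last' : 4 * M * C * (((m : ℤ) : ℝ) / R) ^ (1 + α) *
        (2 * (Cc * ((k : ℝ) / ((2 ^ J * (8 * k) : ℤ) : ℝ)))) ≤ 32 * C * Cc * M * T := by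
    have h5 : (k : ℝ) / ((2 ^ J * (8 * k) : ℤ) : ℝ) ≤ 4 * k / m := by
      have h6 : m < 4 * (2 ^ J * (8 * (k : ℤ))) := by omega
      have h7 : (m : ℝ) < 4 * ((2 ^ J * (8 * k) : ℤ) : ℝ) := by exact_mod_cast h6
      rw [div_le_div_iff₀ (by linarith) hm0]
      nlinarith
    calc _ ≤ 4 * M * C * (((m : ℤ) : ℝ) / R) ^ (1 + α) * (2 * (Cc * (4 * k / m))) := by
          refine mul_le_mul_of_nonneg_left (mul_le_mul_of_nonneg_left
            (mul_le_mul_of_nonneg_left h5 hCc.le) (by norm_num)) (by positivity)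
      _ = 32 * C * Cc * M * T := by
          rw [Real.rpow_add (by positivity), Real.rpow_one, hTdef]
          field_simp
          ring
  have hsplit : Nn D p u m z1 x = fun ω => SQ D (Nr D x (2 ^ J * (8 * k))) (dl D p z1 x) ω +
      SQ D (fun A => Nr D u m A ∧ ¬ Nr D x (2 ^ J * (8 * k)) A) (dl D p z1 x) ω := by
    funext ω
    have h5 : Nn D p u m z1 x ω = SQ D (Nr D u m) (dl D p z1 x) ω := by
      unfold Nn SQ Nr
      congr!
    rw [h5]
    refine SQ_split (fun A h => h.mono ?_) _ ω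
    omega
  rw [hsplit, cv_add (fd_XD D p f) (fd_SQ _ _) (fd_SQ _ _)]
  calc |cv (XD D p f) (SQ D (Nr D x (2 ^ J * (8 * k))) (dl D p z1 x)) +
        cv (XD D p f) (SQ D (fun A => Nr D u m A ∧ ¬ Nr D x (2 ^ J * (8 * k)) A) (dl D p z1 x))|
      ≤ ((Cx + Cz) * M * T + 16 * C * Cc * Cg * M * T) + 32 * C * Cc * M * T :=
        (abs_add_le _ _).trans (add_le_add (chain.trans (add_le_add le_rfl hsum))
          (last.trans last'))
    _ = _ := by ring

end Vale.Agent.P167.H365
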