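import Vale.Agent.P167.H365.NRed2
import Vale.Agent.P167.H760.Dir
import Vale.Agent.P167.H318.Sym
import Vale.Agent.P167.H632.Three

/-!
# P167: `NRED` and the Neumann condition `CA.I_NEU`, unconditional
-/

namespace Vale.Agent.P167.H365

/-- **N-RED**, unconditional. -/
theorem nred_all (K : ℤ) (hK : 1 ≤ K) : NRED K := by
  obtain ⟨C2, -, h2⟩ := H632.twoS_le
  obtain ⟨C3, α, -, hα, h3⟩ := H632.thrS_le
  exact nred (C2 := C2) (C3 := C3) (α := α) h2 h3 hα H318.sym K hK

/-- **I_NEU**, unconditional. -/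
theorem i_neu : CA.I_NEU := H760.i_neu (nred_all 8 (by norm_num))

end Vale.Agent.P167.H365
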