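import Vale.Agent.P167.H365.NFar4
import Vale.Agent.P167.H365.NNear4

/-!
# P167, block N-RED: assembly
-/

namespace Vale.Agent.P167.H365

open Finset MeasureTheory ProbabilityTheory Vale.Agent.P167.BR Vale.Agent.P167.H542
open Vale.Agent.P167.H318 (CoConn)
open Vale.Agent.P167.H167 (Fd ind Bg WD)
open Vale.Agent.P167.H562 (LocFun LocSet)

variable {D : Finset (ℤ × ℤ)} {b p x y u c : ℤ × ℤ} {a m R r L K w : ℤ} {ω ω' : Cfg}
  {f : ℤ × ℤ → ℝ} {M : ℝ} {A : Finset Ed} {ψ : ℤ → ℝ} {k : ℕ} {e0 : Ed}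

theorem fd_Nn (z1 z2 : ℤ × ℤ) : Fd (Nn D p b m z1 z2) :=
  ⟨D, fun ω ω' h => by
    simp only [Nn]
    rw [BR.pcs_congr fun v hv => h v (Finset.mem_coe.2 hv)]⟩

/-- The local hypotheses for the zero charge. -/
theorem Env.zero (E : Env K R D p f M u) : Env K R D p 0 2 u where
  one_le := E.one_le
  R1 := E.R1
  fl := E.fl
  gf := E.gf
  hp := E.hp
  hf := fun z hz => absurd rfl hz
  pot := E.pot
  Y := by
    refine ⟨fun _ => 2, Fd.const 2, fun ω ω' _ => rfl, fun ω => ?_, fun ω A _ => ?_, ?_⟩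
    · rw [H167.XD_zero]
      norm_num
    · unfold TA
      have h1 : ∏ B ∈ (pcs ω D).erase A, wp D B (mass D p 0 B) = 1 :=
        Finset.prod_eq_one fun B _ => by rw [H167.mass_zero, H167.wp_zero]
      rw [h1, mul_one]
      exact abs_wp' _ _ _
    · simp

theorem Env.abs_VD (E : Env K R D p f M u) : |VD D p f| ≤ M := by
  obtain ⟨Y, hYf, -, h3, -, h5⟩ := E.Y
  unfold VD
  calc |∫ ω, XD D p f ω ∂μ| ≤ ∫ ω, |XD D p f ω| ∂μ := abs_integral_le_integral_abs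
    _ ≤ ∫ ω, Y ω ∂μ := integral_mono (fd_XD _ _ _).int.abs hYf.int h3
    _ ≤ M := h5

/-- The difference of the derivative fields. -/
theorem Cell.WD_sub (C : Cell K R D p f M u k w a m) (z1 z2 : ℤ × ℤ) :
    WD D p f z1 - WD D p f z2 = cv (XD D p f) (Nn D p u m z1 z2) +
      (∫ ω, Ff D p u m f z1 z2 ω ∂μ - VD D p f * ∫ ω, Ff D p u m 0 z1 z2 ω ∂μ) := by
  have hJ := C.chJ
  have hJ0 : ChJ D u m p 0 := fun z _ h => absurd rfl h
  have e1 : ∫ ω, XT D p f z1 ω ∂μ - ∫ ω, XT D p f z2 ω ∂μ =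
      ∫ ω, XD D p f ω * Nn D p u m z1 z2 ω ∂μ + ∫ ω, Ff D p u m f z1 z2 ω ∂μ := by
    rw [← integral_sub H167.fd_XT.int H167.fd_XT.int,
      ← integral_add ((fd_XD _ _ _).mul (fd_Nn _ _)).int (fd_Ff _ _).int]
    exact integral_congr_ae (Filter.Eventually.of_forall fun ω => XT_sub hJ)
  have e2 : ∫ ω, XT D p 0 z1 ω ∂μ - ∫ ω, XT D p 0 z2 ω ∂μ =
      ∫ ω, Nn D p u m z1 z2 ω ∂μ + ∫ ω, Ff D p u m 0 z1 z2 ω ∂μ := by
    rw [← integral_sub H167.fd_XT.int H167.fd_XT.int,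
      ← integral_add (fd_Nn _ _).int (fd_Ff _ _).int]
    refine integral_congr_ae (Filter.Eventually.of_forall fun ω => ?_)
    have := XT_sub (ω := ω) (z1 := z1) (z2 := z2) hJ0
    rw [H167.XD_zero, one_mul] at this
    exact this
  unfold WD cv VD
  linear_combination e1 - (∫ ω, XD D p f ω ∂μ) * e2

/-- **One cell.** -/
theorem cell_bd {C2 C3 α : ℝ} (h2 : I2 C2) (h3 : I3 C3 α) (hα : 0 < α) (K : ℤ) (hK : 1 ≤ K) :
    ∃ C' : ℝ, 0 ≤ C' ∧ ∀ (ε : ℝ) (K1 : ℤ), 0 ≤ ε → SymE ε K1 → ∀ (R : ℤ) (D : Finset (ℤ × ℤ))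
    (p : ℤ × ℤ) (f : ℤ × ℤ → ℝ) (M : ℝ) (c : ℤ) (k : ℕ) (w m : ℤ) (ψ : ℤ → ℝ) (X : Finset ℤ),
    Env K R D p f M (c, 0) → CoConn D → Psi ψ c w → 1 ≤ k → K1 * k ≤ w → 32 * (k : ℤ) ≤ w →
    5 * w ≤ m → 4 * m ≤ R → (∀ x, ψ x ≠ 0 → x ∈ X) →
    |∑ x ∈ X, ψ x * (WD D p f (x, k) - WD D p f (x, 0))| ≤
      C' * M * k * ((w : ℝ) / R * ((m : ℝ) / R) ^ α + (((w : ℝ) / m) ^ (1 + α) +
        ε * ((w : ℝ) / m))) := by
  classical
  obtain ⟨Cn, hCn, hn⟩ := near_cov h2 h3 hα K hK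
  obtain ⟨Cf, hCf, hfar⟩ := far_bd h2 h3 hα
  refine ⟨2 * Cn + 3 * Cf, by positivity,
    fun ε K1 hε hS R D p f M c k w m ψ X E hco hψ hk hK1 h32 h5 h4 hX => ?_⟩
  have hk' : (1 : ℤ) ≤ k := by exact_mod_cast hk
  have hw1 : 1 ≤ w := by omega
  have hM := E.M0
  have hR0 : (0 : ℝ) < R := by exact_mod_cast (by omega : 0 < R)
  have hm0 : (0 : ℝ) < m := by exact_mod_cast (by omega : 0 < m)
  have hwr : (1 : ℝ) ≤ w := by exact_mod_cast hw1
  have C : Cell K R D p f M (c, 0) k w (4 * w + 1) m :=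
    ⟨E, rfl, hk, by omega, by omega, by omega, by omega⟩
  have C0 : Cell K R D p 0 2 (c, 0) k w (4 * w + 1) m :=
    ⟨E.zero, rfl, hk, by omega, by omega, by omega, by omega⟩
  have e1 : ∑ x ∈ X, ψ x * (WD D p f (x, k) - WD D p f (x, 0)) =
      ∑ x ∈ X, ψ x * cv (XD D p f) (Nn D p (c, 0) m (x, 0 + (k : ℤ)) (x, 0)) +
      (∫ ω, ∑ x ∈ X, ψ x * Ff D p (c, 0) m f (x, 0 + (k : ℤ)) (x, 0) ω ∂μ -
      VD D p f * ∫ ω, ∑ x ∈ X, ψ x * Ff D p (c, 0) m 0 (x, 0 + (k : ℤ)) (x, 0) ω ∂μ) := by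
    rw [integral_finsetSum _ fun x _ => ((fd_Ff _ _).comp fun r => ψ x * r).int,
      integral_finsetSum _ fun x _ => ((fd_Ff _ _).comp fun r => ψ x * r).int,
      Finset.mul_sum, ← Finset.sum_sub_distrib, ← Finset.sum_add_distrib]
    refine Finset.sum_congr rfl fun x _ => ?_
    rw [integral_const_mul, integral_const_mul]
    have := C.WD_sub (x, 0 + (k : ℤ)) (x, 0)
    rw [← zero_add (k : ℤ), this]
    ring
  set X' := X.filter fun x => ψ x ≠ 0 with hX'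
  have hcard : (X'.card : ℝ) ≤ 2 * w := by
    have h4 : X' ⊆ Icc (c - w + 1) (c + w - 1) := fun x hx => by
      rw [hX', mem_filter] at hx
      rw [mem_Icc]
      exact hψ.supp x hx.2
    have h5 := Finset.card_le_card h4
    rw [Int.card_Icc] at h5
    have h6 : (X'.card : ℤ) ≤ 2 * w := by omega
    exact_mod_cast h6
  have b1 : |∑ x ∈ X, ψ x * cv (XD D p f) (Nn D p (c, 0) m (x, 0 + (k : ℤ)) (x, 0))| ≤
      2 * Cn * (M * k * ((w : ℝ) / R * ((m : ℝ) / R) ^ α)) := by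
    have e2 : ∑ x ∈ X, ψ x * cv (XD D p f) (Nn D p (c, 0) m (x, 0 + (k : ℤ)) (x, 0)) =
        ∑ x ∈ X', ψ x * cv (XD D p f) (Nn D p (c, 0) m (x, 0 + (k : ℤ)) (x, 0)) := by
      rw [hX']
      exact (Finset.sum_filter_of_ne fun x _ h => left_ne_zero_of_mul h).symm
    rw [e2]
    calc |∑ x ∈ X', ψ x * cv (XD D p f) (Nn D p (c, 0) m (x, 0 + (k : ℤ)) (x, 0))|
        ≤ ∑ x ∈ X', |ψ x * cv (XD D p f) (Nn D p (c, 0) m (x, 0 + (k : ℤ)) (x, 0))| :=
          Finset.abs_sum_le_sum_abs _ _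
      _ ≤ ∑ _x ∈ X', Cn * M * (((k : ℝ) / R) * ((m : ℝ) / R) ^ α) := by
          refine Finset.sum_le_sum fun x hx => ?_
          rw [hX', mem_filter] at hx
          have h7 := hψ.abs_le hx.2
          have h8 := hn R D p f M (c, 0) E m x k hk (by omega) h4 (by
            show |x - c| ≤ m / 4
            omega)
          have h9 := hψ.le x
          rw [abs_mul]
          simp only at h8
          nlinarith [abs_nonneg (ψ x),
            abs_nonneg (cv (XD D p f) (Nn D p (c, 0) m (x, 0 + (k : ℤ)) (x, 0)))]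
      _ = X'.card * (Cn * M * (((k : ℝ) / R) * ((m : ℝ) / R) ^ α)) := by
          rw [Finset.sum_const, nsmul_eq_mul]
      _ ≤ (2 * w) * (Cn * M * (((k : ℝ) / R) * ((m : ℝ) / R) ^ α)) :=
          mul_le_mul_of_nonneg_right hcard (by positivity)
      _ = _ := by ring
  have b2 := hfar ε K1 hε hS K R D p f M (c, 0) k w m ψ X C hco hψ hK1 (by omega) hX
  have b3 := hfar ε K1 hε hS K R D p 0 2 (c, 0) k w m ψ X C0 hco hψ hK1 (by omega) hX
  have hV := E.abs_VD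
  rw [e1]
  set T1 : ℝ := (w : ℝ) / R * ((m : ℝ) / R) ^ α with hT1
  set T2 : ℝ := ((w : ℝ) / m) ^ (1 + α) + ε * ((w : ℝ) / m) with hT2
  have t1 : 0 ≤ T1 := by positivity
  have t2 : 0 ≤ T2 := by positivity
  calc |∑ x ∈ X, ψ x * cv (XD D p f) (Nn D p (c, 0) m (x, 0 + (k : ℤ)) (x, 0)) +
      (∫ ω, ∑ x ∈ X, ψ x * Ff D p (c, 0) m f (x, 0 + (k : ℤ)) (x, 0) ω ∂μ -
      VD D p f * ∫ ω, ∑ x ∈ X, ψ x * Ff D p (c, 0) m 0 (x, 0 + (k : ℤ)) (x, 0) ω ∂μ)|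
      ≤ |∑ x ∈ X, ψ x * cv (XD D p f) (Nn D p (c, 0) m (x, 0 + (k : ℤ)) (x, 0))| +
        (|∫ ω, ∑ x ∈ X, ψ x * Ff D p (c, 0) m f (x, 0 + (k : ℤ)) (x, 0) ω ∂μ| +
        |VD D p f * ∫ ω, ∑ x ∈ X, ψ x * Ff D p (c, 0) m 0 (x, 0 + (k : ℤ)) (x, 0) ω ∂μ|) :=
        (abs_add_le _ _).trans (add_le_add le_rfl (abs_sub _ _))
    _ ≤ 2 * Cn * (M * k * T1) + (Cf * M * k * T2 + M * (Cf * 2 * k * T2)) := by
        refine add_le_add b1 (add_le_add b2 ?_)
        rw [abs_mul]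
        exact mul_le_mul hV b3 (abs_nonneg _) hM
    _ = 2 * Cn * (M * k * T1) + 3 * Cf * (M * k * T2) := by ring
    _ ≤ (2 * Cn + 3 * Cf) * (M * k * T1) + (2 * Cn + 3 * Cf) * (M * k * T2) :=
        add_le_add (mul_le_mul_of_nonneg_right (by linarith) (by positivity))
          (mul_le_mul_of_nonneg_right (by linarith) (by positivity))
    _ = _ := by ring

/-- The tent function. -/
noncomputable def tent (w x : ℤ) : ℝ := max (1 - |(x : ℝ)| / w) 0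

theorem tent_nonneg (w x : ℤ) : 0 ≤ tent w x := le_max_right _ _

theorem tent_le (hw : 1 ≤ w) (x : ℤ) : tent w x ≤ 1 := by
  have : (1 : ℝ) ≤ w := by exact_mod_cast hw
  refine max_le ?_ zero_le_one
  have : 0 ≤ |(x : ℝ)| / w := by positivity
  linarith

theorem tent_lip (hw : 1 ≤ w) (x x' : ℤ) :
    |tent w x - tent w x'| ≤ |(x : ℝ) - x'| / w := by
  have hw' : (1 : ℝ) ≤ w := by exact_mod_cast hw
  refine (abs_max_sub_max_le_abs _ _ _).trans ?_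
  rw [show (1 - |(x : ℝ)| / w) - (1 - |(x' : ℝ)| / w) = (|(x' : ℝ)| - |(x : ℝ)|) / w by ring,
    abs_div, abs_of_pos (by linarith : (0 : ℝ) < w)]
  refine div_le_div_of_nonneg_right ?_ (by linarith)
  rw [abs_sub_comm (x : ℝ)]
  exact abs_abs_sub_abs_le _ _

theorem tent_zero (hw : 1 ≤ w) {x : ℤ} (h : w ≤ |x|) : tent w x = 0 := by
  have hw' : (1 : ℝ) ≤ w := by exact_mod_cast hw
  refine max_eq_right ?_
  have h' : (w : ℝ) ≤ |(x : ℝ)| := by exact_mod_cast h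
  rw [sub_nonpos, one_le_div (by linarith)]
  exact h'

theorem tent_eq (hw : 1 ≤ w) {x : ℤ} (h : |x| ≤ w) : tent w x = 1 - |(x : ℝ)| / w := by
  have hw' : (1 : ℝ) ≤ w := by exact_mod_cast hw
  refine max_eq_left ?_
  have h' : |(x : ℝ)| ≤ (w : ℝ) := by exact_mod_cast h
  rw [sub_nonneg, div_le_one (by linarith)]
  exact h'

theorem tent_sum (hw : 1 ≤ w) {x j0 j1 : ℤ} (h0 : j0 ≤ x / w) (h1 : x / w + 1 ≤ j1) :
    ∑ j ∈ Icc j0 j1, tent w (x - j * w) = 1 := by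
  have hw' : (1 : ℝ) ≤ w := by exact_mod_cast hw
  set q := x / w with hq
  have e1 : q * w ≤ x := Int.ediv_mul_le _ (by omega)
  have e2 : x < (q + 1) * w := Int.lt_ediv_add_one_mul_self _ (by omega)
  have hsub : ({q, q + 1} : Finset ℤ) ⊆ Icc j0 j1 := by
    intro j hj
    rw [mem_insert, mem_singleton] at hj
    rw [mem_Icc]
    omega
  rw [← Finset.sum_subset hsub fun j _ hj => ?_]
  · rw [Finset.sum_pair (by omega)]
    rw [tent_eq hw (by rw [abs_le]; constructor <;> nlinarith),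
      tent_eq hw (by rw [abs_le]; constructor <;> nlinarith)]
    have e1' : (0 : ℝ) ≤ ((x - q * w : ℤ) : ℝ) := by exact_mod_cast (by linarith : 0 ≤ x - q * w)
    have e2' : ((x - (q + 1) * w : ℤ) : ℝ) ≤ 0 := by
      exact_mod_cast (by linarith : x - (q + 1) * w ≤ 0)
    rw [abs_of_nonneg e1', abs_of_nonpos e2']
    push_cast
    field_simp
    ring
  · rw [mem_insert, mem_singleton, not_or] at hj
    apply tent_zero hw
    rcases lt_or_gt_of_ne hj.1 with h | h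
    · have : j + 1 ≤ q := h
      rw [le_abs]
      left
      nlinarith
    · have : q + 2 ≤ j := by omega
      rw [le_abs]
      right
      nlinarith

end Vale.Agent.P167.H365
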