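import Vale.Agent.P167.H365.NDet2
import Vale.Agent.P167.H167.Crs

/-!
# P167, block N-RED: separation by a piece, potentials with two values, the difference of the
functional at two sites
-/

namespace Vale.Agent.P167.H365

open Finset Vale.Agent.P167.BR Vale.Agent.P167.H542

variable {D : Finset (ℤ × ℤ)} {b p : ℤ × ℤ} {a m : ℤ} {ω ω' : Cfg} {f : ℤ × ℤ → ℝ}
  {A : Finset Ed} {u : ℤ × ℤ → ℤ} {z z1 z2 : ℤ × ℤ}

/-- Successive edges have a common site. -/
theorem nx_side (ω : Cfg) (e : Ed) : ls (nx ω e) = ls e ∨ rs (nx ω e) = rs e := by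
  obtain ⟨h1, h2⟩ := H166.nx_step ω e
  cases hb : ω (hdv e) with
  | true => exact Or.inr (h1 hb).2
  | false => exact Or.inl (h2 hb).1

theorem pot_nx (hA : A ∈ pcs ω D) (hu : PotD D A u) {e : Ed} (he : e ∈ A) (hd : hdv e ∈ D) :
    u (rs (nx ω e)) = u (rs e) := by
  have h1 := hu e (subset_eds hA he)
  have h2 := (nx_mem_iff hA hd).1 he
  have h3 := hu _ (subset_eds hA h2)
  rw [if_pos he] at h1
  rw [if_pos h2] at h3
  rcases nx_side ω e with h | h
  · rw [h] at h3
    omega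
  · rw [h]

theorem pot_run (hA : A ∈ pcs ω D) (hu : PotD D A u) {e : Ed} (he : e ∈ A) {k : ℕ} {e' : Ed}
    (hr : Run ω D e k e') : u (rs e') = u (rs e) := by
  induction k generalizing e with
  | zero => rw [← hr.1]; rfl
  | succ k ih =>
    have hd : hdv e ∈ D := hr.2 0 (by omega)
    rw [← pot_nx hA hu he hd]
    exact ih ((nx_mem_iff hA hd).1 he) ⟨by rw [← hr.1, Function.iterate_succ_apply],
      fun j hj => by
        have := hr.2 (j + 1) (by omega)
        rwa [Function.iterate_succ_apply] at this⟩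

/-- The potential of a piece is constant along the piece. -/
theorem pot_along (hA : A ∈ pcs ω D) (hu : PotD D A u) {e e' : Ed} (he : e ∈ A) (he' : e' ∈ A) :
    u (rs e') = u (rs e) := by
  obtain ⟨k, hk | hk⟩ := run_of_mem hA he he'
  · exact pot_run hA hu he hk
  · exact (pot_run hA hu he' hk).symm

/-- Sites joined in `D`. -/
def Jt (D : Finset (ℤ × ℤ)) : ℤ × ℤ → ℤ × ℤ → Prop := Jn D (fun _ => True)

theorem Jn.trans {P : Ed → Prop} {x y z : ℤ × ℤ} (h : Jn D P x y) (h' : Jn D P y z) :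
    Jn D P x z := Relation.ReflTransGen.trans h h'

theorem Jn.mono {P Q : Ed → Prop} (h : ∀ e, P e → Q e) {z z' : ℤ × ℤ} (hz : Jn D P z z') :
    Jn D Q z z' := by
  induction hz with
  | refl => exact Relation.ReflTransGen.refl
  | tail _ h1 ih =>
    obtain ⟨e, he, hP, h2⟩ := h1
    exact Relation.ReflTransGen.tail ih ⟨e, he, h e hP, h2⟩

/-- A potential of a piece has two values. -/
theorem two_val (hA : A ∈ pcs ω D) (hu : PotD D A u) {e : Ed} (he : e ∈ A)
    (hz : Jt D z (rs e)) : u z = u (rs e) ∨ u z = u (rs e) + 1 := by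
  have hz' : Jn D (fun _ => True) (rs e) z := Jn.symm hz
  clear hz
  induction hz' with
  | refl => exact Or.inl rfl
  | tail _ h ih =>
    obtain ⟨e', h1, -, h3⟩ := h
    have h4 := hu e' h1
    by_cases h5 : e' ∈ A
    · have h6 := pot_along hA hu he h5
      rw [if_pos h5] at h4
      rcases h3 with h3 | h3
      · left; rw [← h3.2]; exact h6
      · right; rw [← h3.2, h4, h6]
    · rw [if_neg h5, add_zero] at h4
      rcases h3 with h3 | h3
      · rw [← h3.2, ← h4, h3.1]; exact ih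
      · rw [← h3.2, h4, h3.1]; exact ih

open Classical in
/-- `1` if `p` is on the right of the piece, `-1` if it is on its left. -/
noncomputable def sgn (D : Finset (ℤ × ℤ)) (p : ℤ × ℤ) (A : Finset Ed) (e : Ed) : ℝ :=
  if ∃ u, PotD D A u ∧ u p = u (rs e) then 1 else -1

theorem abs_sgn (D : Finset (ℤ × ℤ)) (p : ℤ × ℤ) (A : Finset Ed) (e : Ed) :
    |sgn D p A e| = 1 := by
  unfold sgn; split_ifs <;> simp

theorem pot_uniq {u' : ℤ × ℤ → ℤ} (hu : PotD D A u) (hu' : PotD D A u') {z z' : ℤ × ℤ}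
    (h : Jt D z z') : u z - u z' = u' z - u' z' :=
  pot_jn2 hu hu' (fun _ _ => Iff.rfl) h

theorem sep_iff (hu : PotD D A u) {z z' : ℤ × ℤ} (h : Jt D z z') : Sep D A z z' ↔ u z ≠ u z' := by
  constructor
  · rintro ⟨u', hu', hne⟩ he
    have := pot_uniq hu hu' h
    omega
  · exact fun h' => ⟨u, hu, h'⟩

open Classical in
/-- The indicator that `z` is separated from `p`. -/
noncomputable def se (D : Finset (ℤ × ℤ)) (p : ℤ × ℤ) (A : Finset Ed) (z : ℤ × ℤ) : ℝ :=
  if Sep D A z p then 1 else 0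

theorem se_nonneg : 0 ≤ se D p A z := by unfold se; split_ifs <;> norm_num

theorem se_le : se D p A z ≤ 1 := by unfold se; split_ifs <;> norm_num

/-- The difference of the indicators. -/
noncomputable def dl (D : Finset (ℤ × ℤ)) (p : ℤ × ℤ) (z1 z2 : ℤ × ℤ) (A : Finset Ed) : ℝ :=
  se D p A z1 - se D p A z2

theorem abs_dl_le : |dl D p z1 z2 A| ≤ 1 := by
  unfold dl
  have h1 := se_nonneg (D := D) (p := p) (A := A) (z := z1)
  have h2 := se_le (D := D) (p := p) (A := A) (z := z1)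
  have h3 := se_nonneg (D := D) (p := p) (A := A) (z := z2)
  have h4 := se_le (D := D) (p := p) (A := A) (z := z2)
  rw [abs_le]
  constructor <;> linarith

theorem dl_eq (hA : A ∈ pcs ω D) (hu : PotD D A u) {e : Ed} (he : e ∈ A)
    (hp : Jt D p (rs e)) (h1 : Jt D z1 (rs e)) (h2 : Jt D z2 (rs e)) :
    dl D p z1 z2 A = sgn D p A e * ((u z1 - u z2 : ℤ) : ℝ) := by
  classical
  have j1 : Sep D A z1 p ↔ u z1 ≠ u p := sep_iff hu (Jn.trans h1 (Jn.symm hp))
  have j2 : Sep D A z2 p ↔ u z2 ≠ u p := sep_iff hu (Jn.trans h2 (Jn.symm hp))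
  have j3 : (∃ u, PotD D A u ∧ u p = u (rs e)) ↔ u p = u (rs e) := by
    constructor
    · rintro ⟨u', hu', h⟩
      have := pot_uniq hu hu' hp
      omega
    · exact fun h => ⟨u, hu, h⟩
  unfold dl se sgn
  simp only [j1, j2, j3]
  have v1 := two_val hA hu he h1
  have v2 := two_val hA hu he h2
  have v3 := two_val hA hu he hp
  generalize u (rs e) = c at v1 v2 v3
  rcases v1 with v1 | v1 <;> rcases v2 with v2 | v2 <;> rcases v3 with v3 | v3 <;>
    simp [v1, v2, v3]

/-- Joined sites are separated in the same way. -/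
theorem dl_zero {P : Ed → Prop} (hP : ∀ e, P e → e ∉ A) (h : Jn D P z1 z2) :
    dl D p z1 z2 A = 0 := by
  have h1 : Sep D A z1 p ↔ Sep D A z2 p := sep_congr hP h
  unfold dl se
  by_cases h2 : Sep D A z1 p
  · rw [if_pos h2, if_pos (h1.1 h2), sub_self]
  · rw [if_neg h2, if_neg fun h3 => h2 (h1.2 h3), sub_self]

theorem se_zero {P : Ed → Prop} (hP : ∀ e, P e → e ∉ A) (h : Jn D P z p) : se D p A z = 0 := by
  unfold se
  rw [if_neg (not_sep hP h)]

/-- The sign does not depend on the inside. -/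
theorem sgn_eq {A A' : Finset Ed} {P : Ed → Prop} (hA : ∃ u, PotD D A u) (hA' : ∃ u, PotD D A' u)
    (hP : ∀ e, P e → (e ∈ A ↔ e ∈ A')) {e : Ed} (h : Jn D P p (rs e)) :
    sgn D p A e = sgn D p A' e := by
  obtain ⟨v, hv⟩ := hA
  obtain ⟨v', hv'⟩ := hA'
  unfold sgn
  have h1 : (∃ u, PotD D A u ∧ u p = u (rs e)) ↔ (∃ u, PotD D A' u ∧ u p = u (rs e)) := by
    constructor
    · rintro ⟨u, hu, h'⟩
      exact ⟨v', hv', by have := pot_jn2 hu hv' hP h; omega⟩
    · rintro ⟨u, hu, h'⟩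
      exact ⟨v, hv, by have := pot_jn2 hv hu hP h; omega⟩
  by_cases h2 : ∃ u, PotD D A u ∧ u p = u (rs e)
  · rw [if_pos h2, if_pos (h1.1 h2)]
  · rw [if_neg h2, if_neg fun h3 => h2 (h1.2 h3)]

/-! ### Straight paths -/

theorem mem_eds_inl {x y : ℤ} : Sum.inl (x, y) ∈ eds D ↔ (x, y) ∈ D ∨ (x + 1, y) ∈ D := by
  rw [mem_eds]
  by_cases h : Even (x + y) <;> simp only [hdv, tlv, h, if_true, if_false]
  exact or_comm

theorem mem_eds_inr {x y : ℤ} : Sum.inr (x, y) ∈ eds D ↔ (x, y) ∈ D ∨ (x, y + 1) ∈ D := by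
  rw [mem_eds]
  by_cases h : Even (x + y) <;> simp only [hdv, tlv, h, if_true, if_false]
  exact or_comm

theorem stp_up {P : Ed → Prop} {x y : ℤ} (h : Sum.inl (x - 1, y) ∈ eds D)
    (hP : P (Sum.inl (x - 1, y))) : Stp D P (x, y) (x, y + 1) := by
  refine ⟨_, h, hP, ?_⟩
  by_cases hp : Even (x - 1 + y)
  · right; simp only [ls, rs, hp, if_true, sub_add_cancel, and_self]
  · left; simp only [ls, rs, hp, if_false, sub_add_cancel, and_self]

theorem stp_right {P : Ed → Prop} {x y : ℤ} (h : Sum.inr (x, y - 1) ∈ eds D)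
    (hP : P (Sum.inr (x, y - 1))) : Stp D P (x, y) (x + 1, y) := by
  refine ⟨_, h, hP, ?_⟩
  by_cases hp : Even (x + (y - 1))
  · right; simp only [ls, rs, hp, if_true, sub_add_cancel, and_self]
  · left; simp only [ls, rs, hp, if_false, sub_add_cancel, and_self]

theorem jn_up {P : Ed → Prop} {x y : ℤ} (k : ℕ)
    (h : ∀ j : ℕ, j < k → Sum.inl (x - 1, y + j) ∈ eds D ∧ P (Sum.inl (x - 1, y + j))) :
    Jn D P (x, y) (x, y + k) := by
  induction k with
  | zero => simp only [Nat.cast_zero, add_zero]; exact Relation.ReflTransGen.refl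
  | succ k ih =>
    have h1 := h k (by omega)
    refine Relation.ReflTransGen.tail (ih fun j hj => h j (by omega)) ?_
    have := stp_up h1.1 h1.2
    rwa [add_assoc, show ((k : ℤ) + 1) = ((k + 1 : ℕ) : ℤ) by push_cast; ring] at this

theorem jn_right {P : Ed → Prop} {x y : ℤ} (k : ℕ)
    (h : ∀ j : ℕ, j < k → Sum.inr (x + j, y - 1) ∈ eds D ∧ P (Sum.inr (x + j, y - 1))) :
    Jn D P (x, y) (x + k, y) := by
  induction k with
  | zero => simp only [Nat.cast_zero, add_zero]; exact Relation.ReflTransGen.refl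
  | succ k ih =>
    have h1 := h k (by omega)
    refine Relation.ReflTransGen.tail (ih fun j hj => h j (by omega)) ?_
    have := stp_right h1.1 h1.2
    rwa [add_assoc, show ((k : ℤ) + 1) = ((k + 1 : ℕ) : ℤ) by push_cast; ring] at this

theorem pot_up {x y : ℤ} (hu : PotD D A u) (k : ℕ)
    (h : ∀ j : ℕ, j < k → Sum.inl (x - 1, y + j) ∈ eds D) :
    u (x, y + k) - u (x, y) = Jx A x y k := by
  unfold Jx
  induction k with
  | zero => simp
  | succ k ih =>
    rw [Finset.sum_range_succ, ← ih fun j hj => h j (by omega)]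
    have h1 := hu _ (h k (by omega))
    by_cases hp : Even (x - 1 + (y + k))
    · simp only [ls, rs, hp, if_true, sub_add_cancel] at h1 ⊢
      rw [show y + ((k + 1 : ℕ) : ℤ) = y + k + 1 by push_cast; ring, h1]
      ring
    · simp only [ls, rs, hp, if_false, sub_add_cancel] at h1 ⊢
      rw [show y + ((k + 1 : ℕ) : ℤ) = y + k + 1 by push_cast; ring, h1]
      split_ifs <;> ring

/-! ### The difference of the functional at two sites -/

/-- The term of the piece `A`. -/
noncomputable def TA (D : Finset (ℤ × ℤ)) (p : ℤ × ℤ) (f : ℤ × ℤ → ℝ) (ω : Cfg) (A : Finset Ed) :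
    ℝ := wp' D A (mass D p f A) * ∏ B ∈ (pcs ω D).erase A, wp D B (mass D p f B)

theorem XT_eq : XT D p f z ω = ∑ A ∈ pcs ω D, TA D p f ω A * se D p A z := by
  classical
  unfold XT
  rw [Finset.sum_filter]
  refine Finset.sum_congr rfl fun A _ => ?_
  unfold se TA
  split_ifs <;> simp

open Classical in
/-- The near part of the difference: it does not depend on the charge. -/
noncomputable def Nn (D : Finset (ℤ × ℤ)) (p b : ℤ × ℤ) (m : ℤ) (z1 z2 : ℤ × ℤ) (ω : Cfg) : ℝ :=
  ∑ A ∈ (pcs ω D).filter fun A => ¬ FarA D b m A, wp' D A 0 * dl D p z1 z2 A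

open Classical in
/-- The far part of the difference. -/
noncomputable def Ff (D : Finset (ℤ × ℤ)) (p b : ℤ × ℤ) (m : ℤ) (f : ℤ × ℤ → ℝ) (z1 z2 : ℤ × ℤ)
    (ω : Cfg) : ℝ :=
  ∑ A ∈ (pcs ω D).filter fun A => FarA D b m A, TA D p f ω A * dl D p z1 z2 A

theorem TA_near (hJ : ChJ D b m p f) (hA : A ∈ pcs ω D) (h : ¬ FarA D b m A) :
    TA D p f ω A = wp' D A 0 * XD D p f ω := by
  classical
  unfold TA XD
  rw [mass_near hJ h, ← Finset.mul_prod_erase _ (fun B => wp D B (mass D p f B)) hA,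
    mass_near hJ h, wp_zero, one_mul]

/-- **Decomposition.** -/
theorem XT_sub (hJ : ChJ D b m p f) : XT D p f z1 ω - XT D p f z2 ω =
    XD D p f ω * Nn D p b m z1 z2 ω + Ff D p b m f z1 z2 ω := by
  classical
  rw [XT_eq, XT_eq, ← Finset.sum_sub_distrib]
  have h1 : ∀ A ∈ pcs ω D, TA D p f ω A * se D p A z1 - TA D p f ω A * se D p A z2 =
      TA D p f ω A * dl D p z1 z2 A := fun A _ => by unfold dl; ring
  rw [Finset.sum_congr rfl h1,
    ← Finset.sum_filter_add_sum_filter_not (pcs ω D) (fun A => FarA D b m A), add_comm]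
  unfold Nn Ff
  rw [Finset.mul_sum]
  congr 1
  refine Finset.sum_congr rfl fun A hA => ?_
  rw [mem_filter] at hA
  rw [TA_near hJ hA.1 hA.2]
  ring

/-- With one crossing, the term of its piece. -/
theorem TA_cro (hF : Fl D b (m + 1)) (ham : a ≤ m) (hJ : ChJ D b m p f) (h3 : ¬ ThrS b a m ω)
    {c : Ed} (hc : Cro ω b a m c) : TA D p f ω (piece ω D c) =
      wp' D (piece ω D c) (mass D p f (piece ω D c)) * PO D b a p f ω := by
  classical
  have hcD := cro_mem_eds hF ham hc
  have hv := (cro_vis hF ham hc).1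
  unfold TA PO
  congr 1
  have h1 : Ou D b a ω ⊆ (pcs ω D).erase (piece ω D c) := by
    intro B hB
    unfold Ou at hB
    rw [mem_filter] at hB
    rw [mem_erase]
    exact ⟨fun h => hB.2 (h ▸ hv), hB.1⟩
  rw [← Finset.prod_subset h1]
  intro B hB hBo
  rw [mem_erase] at hB
  have hBv : VisI D b a B := by
    by_contra hcon
    exact hBo (by unfold Ou; rw [mem_filter]; exact ⟨hB.2, hcon⟩)
  rw [mass_near hJ, wp_zero]
  intro hf
  exact hB.1 (far_unique hF ham h3 hc hB.2 hBv hf)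

end Vale.Agent.P167.H365
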